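import Mathlib

/-!
# P266 (helper114): statements about the Lipman-Zariski conjecture over a field `k`

`HoldsInDim k d`: the conjecture for affine varieties of dimension `d` over `k`.
`HoldsGraded k d e`: the conjecture for `ℕ`-graded algebras of dimension `e` whose degree zero part
has dimension `d`.
`Fails k d e`: a graded counterexample of dimension `e`, with degree zero part of dimension `d`, that
is normal and has free derivation module of rank `e`.
-/

universe u

namespace Vale.Agent.P266.H114

/-- The Lipman-Zariski conjecture in dimension `d` over `k`: every finitely generated integral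
`k`-algebra of Krull dimension `d` whose module of derivations is projective is regular and
smooth over `k`. -/
def HoldsInDim (k : Type u) [Field k] (d : ℕ) : Prop :=
  ∀ (A : Type u) [CommRing A] [IsDomain A] [Algebra k A] [Algebra.FiniteType k A],
    ringKrullDim A = d → Module.Projective A (Derivation k A A) →
      IsRegularRing A ∧ Algebra.Smooth k A

/-- The conjecture for `ℕ`-graded algebras over `k`: every finitely generated integral `k`-algebra
of Krull dimension `e`, graded by `k`-subspaces `A_n` with `A_0` of dimension `d`, whose module of
derivations is projective is smooth over `k`. -/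
def HoldsGraded (k : Type u) [Field k] (d e : ℕ) : Prop :=
  ∀ (A : Type u) [CommRing A] [IsDomain A] [Algebra k A] [Algebra.FiniteType k A]
    (𝒜 : ℕ → Submodule k A) [GradedAlgebra 𝒜],
    ringKrullDim A = e → ringKrullDim (𝒜 0) = d →
      Module.Projective A (Derivation k A A) → Algebra.Smooth k A

/-- The conjecture fails strongly: there is a finitely generated `k`-algebra `A`, an integrally
closed domain of Krull dimension `e`, `ℕ`-graded with degree zero part of dimension `d`, whose module
of derivations is free of rank `e`, and which is neither regular nor smooth over `k`. -/
def Fails (k : Type u) [Field k] (d e : ℕ) : Prop :=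
  ∃ (A : Type u) (_ : CommRing A) (_ : IsDomain A) (_ : Algebra k A)
    (𝒜 : ℕ → Submodule k A) (_ : GradedAlgebra 𝒜),
    Algebra.FiniteType k A ∧ IsIntegrallyClosed A ∧
    ringKrullDim A = e ∧ ringKrullDim (𝒜 0) = d ∧
    Module.Free A (Derivation k A A) ∧ Module.finrank A (Derivation k A A) = e ∧
    ¬ IsRegularRing A ∧ ¬ Algebra.Smooth k A

end Vale.Agent.P266.H114
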