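import Mathlib
import Vale.Agent.P266.Bdl.B2
import Vale.Agent.P266.Bdl.B1

/-!
# P266 (helper114): the graded reduction theorem

A copy, in a namespace of its own, of the parts of `Vale/Agent/P266/Bdl/B3.lean` (a file of the
starting point) that prove the graded reduction theorem. The copy is needed because `Bdl/B3.lean`
and `LZ/E2.lean` declare the same names and cannot be imported together.
-/

set_option linter.all false

section

/-!
# P266: linear forms on the derivation module take the Euler derivation into the irrelevant ideal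
-/

namespace Vale.Agent.P266.H114.Grd

open MvPolynomial

section Aux

/-- a derivation over another base, if it kills it -/
def derOfKill {R : Type*} (k : Type*) {T : Type*} [CommRing R] [CommRing k] [CommRing T]
    [Algebra R T] [Algebra k T] (D : Derivation R T T) (h : ∀ c : k, D (algebraMap k T c) = 0) :
    Derivation k T T :=
  Derivation.mk'
    { toFun := D
      map_add' := map_add D
      map_smul' := fun s t => by
        have h1 : ∀ x : T, s • x = algebraMap k T s * x := fun x => Algebra.smul_def s x
        rw [h1, Derivation.leibniz, h, smul_zero, add_zero, RingHom.id_apply, h1, smul_eq_mul] }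
    (fun a b => D.leibniz a b)

lemma derOfKill_apply {R k T : Type*} [CommRing R] [CommRing k] [CommRing T]
    [Algebra R T] [Algebra k T] (D : Derivation R T T) (h) (t : T) :
    derOfKill k D h t = D t := rfl

/-- integrality descends to a ring mapping onto the base -/
lemma isIntegral_of_surj {B S K : Type*} [CommRing B] [CommRing S] [Nontrivial S] [CommRing K]
    [Algebra B K]
    [Algebra S K] (g : B →+* S) (hg : Function.Surjective g)
    (h : (algebraMap S K).comp g = algebraMap B K) {z : K} (hz : IsIntegral S z) :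
    IsIntegral B z := by
  obtain ⟨p, hp, hpz⟩ := hz
  have hlift : p ∈ Polynomial.lifts g := by
    rw [Polynomial.lifts_iff_coeff_lifts]
    intro n
    exact hg _
  obtain ⟨q, hq, -, hqm⟩ := Polynomial.lifts_and_degree_eq_and_monic hlift hp
  refine ⟨q, hqm, ?_⟩
  rw [← h, ← Polynomial.eval₂_map, hq, hpz]

lemma isIntegral_mvPolynomial {K₀ K ι : Type*} [CommRing K₀] [CommRing K] [Nontrivial K]
    [Algebra K₀ K] (y : ι → K) [Algebra (MvPolynomial ι K₀) K]
    (h : ∀ b : MvPolynomial ι K₀, algebraMap (MvPolynomial ι K₀) K b = aeval y b) {z : K}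
    (hz : IsIntegral (Algebra.adjoin K₀ (Set.range y)) z) :
    IsIntegral (MvPolynomial ι K₀) z := by
  rw [Algebra.adjoin_range_eq_range_aeval] at hz
  refine isIntegral_of_surj
    ((aeval y : MvPolynomial ι K₀ →ₐ[K₀] K).rangeRestrict : MvPolynomial ι K₀ →+* _)
    (AlgHom.rangeRestrict_surjective _) ?_ hz
  exact RingHom.ext fun b => (h b).symm

end Aux

section Main

variable {k A : Type*} [Field k] [CharZero k] [CommRing A] [IsDomain A] [Algebra k A]
  [Algebra.FiniteType k A]
  (K₀ K : Type*) [Field K₀] [Field K] [Algebra A K] [IsFractionRing A K] [Algebra K₀ K]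

omit [CharZero k] [IsDomain A] in
/-- finiteness of the function field -/
lemma finiteDimensional_of_integral {B L : Type*} [CommRing B] [IsDomain B] [Field L]
    [Algebra B L] [IsFractionRing B L] [Algebra L K] [Algebra B K] [IsScalarTower B L K]
    (hk : ∀ c : k, algebraMap A K (algebraMap k A c) ∈ (algebraMap L K).range)
    (hA : ∀ a : A, IsIntegral B (algebraMap A K a)) : FiniteDimensional L K := by
  classical
  obtain ⟨S, hS⟩ := (Algebra.FiniteType.out (R := k) (A := A))
  let F := IntermediateField.adjoin L (algebraMap A K '' (S : Set A))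
  have hF : FiniteDimensional L F := by
    have : Finite (algebraMap A K '' (S : Set A)) := (S.finite_toSet.image _).to_subtype
    refine IntermediateField.finiteDimensional_adjoin fun x hx => ?_
    obtain ⟨a, _, rfl⟩ := hx
    exact (hA a).tower_top
  have hAF : ∀ a : A, algebraMap A K a ∈ F := by
    intro a
    have ha : a ∈ Algebra.adjoin k (S : Set A) := by rw [hS]; trivial
    induction ha using Algebra.adjoin_induction with
    | mem x hx => exact IntermediateField.subset_adjoin _ _ ⟨x, hx, rfl⟩
    | algebraMap r =>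
      obtain ⟨l, hl⟩ := hk r
      rw [← hl]
      exact F.algebraMap_mem l
    | add x y _ _ hx hy => rw [map_add]; exact F.add_mem hx hy
    | mul x y _ _ hx hy => rw [map_mul]; exact F.mul_mem hx hy
  have htop : F = ⊤ := by
    rw [eq_top_iff]
    rintro x -
    obtain ⟨a, b, hb, rfl⟩ := IsFractionRing.div_surjective (A := A) x
    exact F.div_mem (hAF a) (hAF b)
  rw [htop] at hF
  exact Module.Finite.equiv (IntermediateField.topEquiv (F := L) (E := K)).toLinearEquiv

/-- Data of a graded Noether normalization, on the polynomial ring side. -/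
theorem eps_omega_euler [IsIntegrallyClosed A] (𝒜 : ℕ → Submodule k A) [GradedAlgebra 𝒜]
    [Algebra (𝒜 0) K₀] [IsFractionRing (𝒜 0) K₀] [Algebra (𝒜 0) K]
    [IsScalarTower (𝒜 0) A K] [IsScalarTower (𝒜 0) K₀ K]
    (w : ℕ) (c : ℕ) (x : Fin c → A) (hx : ∀ i, x i ∈ 𝒜 w)
    (hind : AlgebraicIndependent K₀ (fun i => algebraMap A K (x i)))
    (hint : ∀ a : A, IsIntegral (Algebra.adjoin K₀ (Set.range fun i => algebraMap A K (x i)))
      (algebraMap A K a))
    (ω : Derivation k A A →ₗ[A] A) : EulerData.ε 𝒜 (ω (eulerDer 𝒜)) = 0 := by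
  classical
  let B := MvPolynomial (Fin c) K₀
  let _ : Algebra B K := (aeval (R := K₀) fun i => algebraMap A K (x i)).toAlgebra
  have hBK : ∀ b : B, algebraMap B K b = aeval (R := K₀) (fun i => algebraMap A K (x i)) b :=
    fun b => rfl
  have hBKinj : Function.Injective (algebraMap B K) := hind
  have hst₀ : IsScalarTower K₀ B K := IsScalarTower.of_algebraMap_eq fun r => by
    rw [hBK, MvPolynomial.algebraMap_eq, aeval_C]
  let L := FractionRing B
  have hfs : FaithfulSMul B K := (faithfulSMul_iff_algebraMap_injective B K).2 hBKinj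
  let _ : Algebra L K := FractionRing.liftAlgebra B K
  have hst : IsScalarTower B L K := inferInstance
  have h0K : ∀ r : 𝒜 0, algebraMap A K (r : A) = algebraMap K₀ K (algebraMap (𝒜 0) K₀ r) := by
    intro r
    rw [← IsScalarTower.algebraMap_apply (𝒜 0) K₀ K, IsScalarTower.algebraMap_apply (𝒜 0) A K]
    rfl
  have h0B : ∀ r : 𝒜 0, algebraMap A K (r : A) = algebraMap B K (C (algebraMap (𝒜 0) K₀ r)) := by
    intro r
    rw [h0K, hBK, aeval_C]
  -- integrality over `B`
  have hA : ∀ a : A, IsIntegral B (algebraMap A K a) := by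
    intro a
    exact isIntegral_mvPolynomial (fun i => algebraMap A K (x i)) hBK (hint a)
  have hnt : Nontrivial (𝒜 0) := (algebraMap (𝒜 0) A).domain_nontrivial
  -- denominators
  have hB : ∀ b : B, ∃ s : A, UnitIn B K s ∧
      ∃ a : A, algebraMap A K a = algebraMap A K s * algebraMap B K b := by
    intro b
    induction b using MvPolynomial.induction_on with
    | C κ =>
      obtain ⟨r, s, hs, rfl⟩ := IsFractionRing.div_surjective (A := 𝒜 0) κ
      have hs0 : algebraMap (𝒜 0) K₀ s ≠ 0 := by
        intro h
        rw [map_eq_zero_iff _ (IsFractionRing.injective (𝒜 0) K₀)] at h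
        exact nonZeroDivisors.ne_zero hs h
      refine ⟨(s : A), ⟨Units.map (C : K₀ →+* B).toMonoidHom (Units.mk0 _ hs0), ?_⟩, (r : A), ?_⟩
      · rw [h0B]
        rfl
      · rw [h0B, h0B, ← map_mul, ← map_mul, mul_div_cancel₀ _ hs0]
    | add p q hp hq =>
      obtain ⟨s, hs, a, ha⟩ := hp
      obtain ⟨t, ht, b, hb⟩ := hq
      refine ⟨s * t, hs.mul ht, t * a + s * b, ?_⟩
      rw [map_add, map_mul, map_mul, map_mul, map_add, ha, hb]
      ring
    | mul_X p i hp =>
      obtain ⟨s, hs, a, ha⟩ := hp
      refine ⟨s, hs, a * x i, ?_⟩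
      rw [map_mul, ha, map_mul]
      have : algebraMap B K (X i) = algebraMap A K (x i) := by rw [hBK, aeval_X]
      rw [this]
      ring
  have hXK : ∀ i, algebraMap B K (X i) = algebraMap A K (x i) := fun i => by rw [hBK, aeval_X]
  -- the base field
  have hchar₀ : CharZero K₀ := by
    refine charZero_of_inj_zero fun n hn => ?_
    by_contra h
    have h1 : algebraMap K₀ K (n : K₀) = algebraMap A K (algebraMap k A (n : k)) := by
      rw [map_natCast, map_natCast, map_natCast]
    rw [hn, map_zero] at h1
    have h2 := (map_eq_zero_iff _ (IsFractionRing.injective A K)).1 h1.symm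
    rw [map_eq_zero_iff _ (algebraMap k A).injective] at h2
    exact h (by exact_mod_cast h2)
  have hQ : ∀ n : ℕ, n ≠ 0 → IsUnit (n : B) := by
    intro n hn
    have h1 : IsUnit (n : K₀) := isUnit_iff_ne_zero.2 (by exact_mod_cast hn)
    have := h1.map (C : K₀ →+* B)
    rwa [map_natCast] at this
  let _ : Algebra k K := ((algebraMap A K).comp (algebraMap k A)).toAlgebra
  have hstk : IsScalarTower k A K := IsScalarTower.of_algebraMap_eq' rfl
  have hkB : ∀ c : k, algebraMap k K c =
      algebraMap B K (C (algebraMap (𝒜 0) K₀ (algebraMap k (𝒜 0) c))) := by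
    intro c
    rw [← h0B]
    rfl
  have hfd : FiniteDimensional L K := by
    refine finiteDimensional_of_integral (k := k) (A := A) K (B := B) (fun c => ?_) hA
    refine ⟨algebraMap B L (C (algebraMap (𝒜 0) K₀ (algebraMap k (𝒜 0) c))), ?_⟩
    rw [← IsScalarTower.algebraMap_apply B L K]
    exact (hkB c).symm
  have hcharL : CharZero L := by
    have : CharZero B := inferInstance
    exact charZero_of_injective_algebraMap (IsFractionRing.injective B L)
  have hsep : Algebra.IsSeparable L K := inferInstance
  have het1 : Algebra.FormallyEtale B L :=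
    Algebra.FormallyEtale.of_isLocalization (nonZeroDivisors B)
  have het2 : Algebra.FormallyEtale L K := Algebra.FormallyEtale.of_isSeparable L K
  have het : Algebra.FormallyEtale B K := Algebra.FormallyEtale.comp B L K
  have hetA : Algebra.FormallyEtale A K :=
    Algebra.FormallyEtale.of_isLocalization (nonZeroDivisors A)
  -- the partial derivatives
  have hθex : ∀ j : Fin c, ∃ θ : Derivation k K K,
      ∀ b : B, θ (algebraMap B K b) = algebraMap B K (pderiv j b) := by
    intro j
    obtain ⟨D, hD⟩ := exists_der_ext K₀ (S := B) (T := K)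
      ((Algebra.linearMap B K).compDer (pderiv j))
    refine ⟨derOfKill k D fun c => ?_, fun b => ?_⟩
    · rw [hkB, hD]
      change algebraMap B K (pderiv j _) = 0
      rw [pderiv_C, map_zero]
    · exact hD b
  choose θ hθ using hθex
  obtain ⟨E, hE⟩ := exists_der_ext k (S := A) (T := K) (derToFrac k A K (eulerDer 𝒜))
  have hE' : ∀ a, E (algebraMap A K a) = algebraMap A K (eulerDer 𝒜 a) := hE
  -- `E` on `B`
  have hEC : ∀ κ : K₀, E (algebraMap B K (C κ)) = 0 := by
    intro κ
    obtain ⟨r, s, hs, rfl⟩ := IsFractionRing.div_surjective (A := 𝒜 0) κ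
    have h1 : ∀ r : 𝒜 0, E (algebraMap A K (r : A)) = 0 := by
      intro r
      rw [hE', eulerDer_of_mem 𝒜 r.2]
      simp
    have h2 : algebraMap B K (C (algebraMap (𝒜 0) K₀ r / algebraMap (𝒜 0) K₀ s)) =
        algebraMap A K (r : A) / algebraMap A K (s : A) := by
      rw [hBK, aeval_C, map_div₀, h0K, h0K]
    rw [h2, Derivation.leibniz_div, h1, h1]
    simp
  have hEsum : E = ∑ j, ((w : K) * algebraMap A K (x j)) • θ j := by
    rw [← sub_eq_zero]
    refine der_eq_zero_of_unramified (S := B) _ fun b => ?_
    have hsum : ∀ y : K, (E - ∑ j, ((w : K) * algebraMap A K (x j)) • θ j) y =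
        E y - ∑ j, ((w : K) * algebraMap A K (x j)) * θ j y := by
      intro y
      rw [Derivation.sub_apply]
      congr 1
      rw [← Derivation.coeFnAddMonoidHom_apply, map_sum, Finset.sum_apply]
      rfl
    rw [hsum, sub_eq_zero]
    induction b using MvPolynomial.induction_on with
    | C κ =>
      rw [hEC]
      simp [hθ]
    | add p q hp hq =>
      simp only [map_add, hp, hq, mul_add, Finset.sum_add_distrib]
    | mul_X p i hp =>
      rw [map_mul, Derivation.leibniz, hp]
      simp only [Derivation.leibniz, smul_eq_mul, mul_add, Finset.sum_add_distrib]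
      congr 1
      · rw [hXK, hE', eulerDer_of_mem 𝒜 (hx i), map_mul, map_natCast]
        have h3 : ∀ j, θ j (algebraMap A K (x i)) = if j = i then 1 else 0 := by
          intro j
          rw [← hXK, hθ, pderiv_X, Pi.single_apply]
          split_ifs with h h' h' <;> simp_all
        simp only [h3]
        simp [mul_comm]
      · rw [Finset.mul_sum]
        exact Finset.sum_congr rfl fun j _ => by ring
  -- the action of `E` on `B`
  let EB : B → B := fun b => ∑ j, (w : B) * X j * pderiv j b
  have hEB : ∀ b, E (algebraMap B K b) = algebraMap B K (EB b) := by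
    intro b
    have h4 : E (algebraMap B K b) = ∑ j, ((w : K) * algebraMap A K (x j)) * θ j (algebraMap B K b) := by
      conv_lhs => rw [hEsum]
      rw [← Derivation.coeFnAddMonoidHom_apply, map_sum, Finset.sum_apply]
      rfl
    rw [h4, map_sum]
    refine Finset.sum_congr rfl fun j _ => ?_
    rw [hθ, map_mul, map_mul, map_natCast, hXK]
  have hEBc : ∀ b, constantCoeff (EB b) = 0 := by
    intro b
    simp [EB]
  -- the trace of a homogeneous element of positive degree
  have hBint : IsIntegrallyClosed B := inferInstance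
  have htrpos : ∀ (d : ℕ) (a : A), 0 < d → a ∈ 𝒜 d →
      ∃ b : B, Algebra.trace L K (algebraMap A K a) = algebraMap B L b ∧ constantCoeff b = 0 := by
    intro d a hd ha
    set p : Polynomial B := minpoly B (algebraMap A K a) with hp
    have hpm : p.Monic := minpoly.monic (hA a)
    have hp0 : Polynomial.aeval (algebraMap A K a) p = 0 := minpoly.aeval _ _
    set n := p.natDegree with hn
    have hnpos : 0 < n := minpoly.natDegree_pos (hA a)
    have hmin : minpoly L (algebraMap A K a) = p.map (algebraMap B L) :=
      minpoly.isIntegrallyClosed_eq_field_fractions L K (hA a)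
    -- differentiate
    have hEa : E (algebraMap A K a) = (d : K) * algebraMap A K a := by
      rw [hE', eulerDer_of_mem 𝒜 ha, map_mul, map_natCast]
    have hdiff : ∀ q : Polynomial B, E (Polynomial.aeval (algebraMap A K a) q) =
        ∑ i ∈ Finset.range (q.natDegree + 1),
          algebraMap B K (EB (q.coeff i) + (i * d : ℕ) * q.coeff i) * (algebraMap A K a) ^ i := by
      intro q
      rw [Polynomial.aeval_eq_sum_range, map_sum]
      refine Finset.sum_congr rfl fun i _ => ?_
      rw [Algebra.smul_def, Derivation.leibniz, hEB, Derivation.leibniz_pow, hEa]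
      rcases Nat.eq_zero_or_pos i with rfl | hi
      · simp
      · obtain ⟨i', rfl⟩ : ∃ i', i = i' + 1 := ⟨i - 1, by omega⟩
        simp only [smul_eq_mul, nsmul_eq_mul, Nat.add_sub_cancel, map_add, map_mul, map_natCast,
          Nat.cast_mul]
        ring
    set q : Polynomial B := ∑ i ∈ Finset.range n,
      Polynomial.monomial i (EB (p.coeff i) + (i * d : ℕ) * p.coeff i - (n * d : ℕ) * p.coeff i)
      with hq
    have hqc : ∀ i, i < n → q.coeff i =
        EB (p.coeff i) + (i * d : ℕ) * p.coeff i - (n * d : ℕ) * p.coeff i := by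
      intro i hi
      rw [hq, Polynomial.finsetSum_coeff]
      simp only [Polynomial.coeff_monomial]
      rw [Finset.sum_ite_eq' (Finset.range n) i, if_pos (Finset.mem_range.2 hi)]
    have hqdeg : q.degree < p.degree := by
      rw [Polynomial.degree_eq_natDegree hpm.ne_zero, ← hn, Polynomial.degree_lt_iff_coeff_zero]
      intro m hm
      rw [hq, Polynomial.finsetSum_coeff]
      refine Finset.sum_eq_zero fun i hi => ?_
      rw [Polynomial.coeff_monomial, if_neg]
      have := Finset.mem_range.1 hi
      omega
    have hq0 : Polynomial.aeval (algebraMap A K a) q = 0 := by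
      have h1 := hdiff p
      rw [hp0, map_zero, ← hn, Finset.sum_range_succ] at h1
      have hlc : p.coeff n = 1 := hpm.coeff_natDegree
      have hEB1 : EB 1 = 0 := by simp [EB]
      rw [hlc, hEB1, zero_add, mul_one] at h1
      have h2 := hp0
      rw [Polynomial.aeval_eq_sum_range, ← hn, Finset.sum_range_succ, hlc, one_smul] at h2
      rw [hq, map_sum]
      have h3 : ∀ i ∈ Finset.range n, Polynomial.aeval (algebraMap A K a)
          (Polynomial.monomial i
            (EB (p.coeff i) + (i * d : ℕ) * p.coeff i - (n * d : ℕ) * p.coeff i)) =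
          algebraMap B K (EB (p.coeff i) + (i * d : ℕ) * p.coeff i) * (algebraMap A K a) ^ i -
          ((n * d : ℕ) : K) * (p.coeff i • (algebraMap A K a) ^ i) := by
        intro i _
        rw [Polynomial.aeval_monomial, Algebra.smul_def, map_sub, map_mul _ ((n * d : ℕ) : B),
          map_natCast]
        ring
      rw [Finset.sum_congr rfl h3, Finset.sum_sub_distrib, ← Finset.mul_sum]
      rw [map_natCast] at h1
      linear_combination -h1 - ((n * d : ℕ) : K) * h2
    have hqz : q = 0 := by
      by_contra h
      exact absurd (minpoly.IsIntegrallyClosed.degree_le_of_ne_zero h hq0)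
        (not_le.2 hqdeg)
    have hlast : constantCoeff (p.coeff (n - 1)) = 0 := by
      have h1 := hqc (n - 1) (by omega)
      rw [hqz, Polynomial.coeff_zero] at h1
      have h2 := congrArg constantCoeff h1
      rw [map_zero, map_sub, map_add, hEBc, map_mul, map_mul, map_natCast, map_natCast] at h2
      have h3 : ((n * d : ℕ) : K₀) = ((n - 1) * d : ℕ) + d := by
        obtain ⟨n', hn'⟩ : ∃ n', n = n' + 1 := ⟨n - 1, by omega⟩
        rw [hn', Nat.add_sub_cancel]
        push_cast
        ring
      rw [h3] at h2
      have h4 : (d : K₀) * constantCoeff (p.coeff (n - 1)) = 0 := by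
        linear_combination h2
      rcases mul_eq_zero.1 h4 with h5 | h5
      · exact absurd (by exact_mod_cast h5) hd.ne'
      · exact h5
    refine ⟨-(Module.finrank (IntermediateField.adjoin L {algebraMap A K a}) K : B) *
      p.coeff (n - 1), ?_, ?_⟩
    · rw [trace_eq_finrank_mul_minpoly_nextCoeff, hmin, Polynomial.nextCoeff_map,
        Polynomial.nextCoeff_of_natDegree_pos hnpos, map_mul, map_neg, map_natCast]
      · ring
      · exact IsFractionRing.injective B L
    · rw [map_mul, hlast, mul_zero]
  -- the main computation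
  obtain ⟨Ω, hΩ⟩ := exists_omegaExt (K := K) ω
  have hΩA : ∀ D : Derivation k K K, (∀ a : A, D (algebraMap A K a) ∈ (algebraMap A K).range) →
      Ω D ∈ (algebraMap A K).range := by
    intro D hD
    obtain ⟨D₀, hD₀⟩ := exists_der_of_range (D.compAlgebraMap A) hD
    exact ⟨ω D₀, (hΩ D D₀ fun a => (hD₀ a).symm).symm⟩
  have htrθ : ∀ j, ∃ b : B, Algebra.trace L K (Ω (θ j)) = algebraMap B L b := fun j =>
    trace_omega_mem (A := A) (B := B) (L := L) hA hB hQ (θ j) (fun b => ⟨_, hθ j b⟩) Ω hΩA
  choose β hβ using htrθ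
  set f := ω (eulerDer 𝒜) with hf
  have hf1 : algebraMap A K f = ∑ j, ((w : K) * algebraMap A K (x j)) * Ω (θ j) := by
    rw [hf, ← hΩ E _ hE', hEsum, map_sum]
    exact Finset.sum_congr rfl fun j _ => by rw [map_smul, smul_eq_mul]
  have hf2 : Algebra.trace L K (algebraMap A K f) =
      algebraMap B L (∑ j, (w : B) * X j * β j) := by
    rw [hf1, map_sum, map_sum]
    refine Finset.sum_congr rfl fun j _ => ?_
    have h1 : ((w : K) * algebraMap A K (x j)) * Ω (θ j) =
        (algebraMap B L ((w : B) * X j)) • Ω (θ j) := by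
      rw [Algebra.smul_def, ← IsScalarTower.algebraMap_apply B L K, map_mul, hXK, map_natCast]
    rw [h1, map_smul, hβ, smul_eq_mul, ← map_mul]
  -- decompose `f`
  have hf3 : ∃ b : B, Algebra.trace L K (algebraMap A K (f - (DirectSum.decompose 𝒜 f 0 : A))) =
      algebraMap B L b ∧ constantCoeff b = 0 := by
    have h1 : f - (DirectSum.decompose 𝒜 f 0 : A) =
        ∑ i ∈ (DirectSum.decompose 𝒜 f).support.erase 0, (DirectSum.decompose 𝒜 f i : A) := by
      rw [sub_eq_iff_eq_add]
      conv_lhs => rw [← DirectSum.sum_support_decompose 𝒜 f]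
      by_cases h : 0 ∈ (DirectSum.decompose 𝒜 f).support
      · rw [← Finset.sum_erase_add _ _ h]
      · rw [Finset.erase_eq_of_notMem h]
        rw [DFinsupp.notMem_support_iff] at h
        rw [h]
        simp
    have h2 : ∀ i ∈ (DirectSum.decompose 𝒜 f).support.erase 0, ∃ b : B,
        Algebra.trace L K (algebraMap A K (DirectSum.decompose 𝒜 f i : A)) = algebraMap B L b ∧
        constantCoeff b = 0 := by
      intro i hi
      exact htrpos i _ (Nat.pos_of_ne_zero (Finset.ne_of_mem_erase hi)) (SetLike.coe_mem _)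
    choose! g hg1 hg2 using h2
    refine ⟨∑ i ∈ (DirectSum.decompose 𝒜 f).support.erase 0, g i, ?_, ?_⟩
    · rw [h1, map_sum, map_sum, map_sum]
      exact Finset.sum_congr rfl hg1
    · rw [map_sum]
      exact Finset.sum_eq_zero hg2
  obtain ⟨b, hb1, hb2⟩ := hf3
  have hf4 : Algebra.trace L K (algebraMap A K (DirectSum.decompose 𝒜 f 0 : A)) =
      algebraMap B L ((Module.finrank L K : B) * C (algebraMap (𝒜 0) K₀
        (DirectSum.decompose 𝒜 f 0))) := by
    have h1 : algebraMap A K (DirectSum.decompose 𝒜 f 0 : A) = algebraMap L K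
        (algebraMap B L (C (algebraMap (𝒜 0) K₀ (DirectSum.decompose 𝒜 f 0)))) := by
      rw [← IsScalarTower.algebraMap_apply B L K, ← h0B]
    rw [h1, Algebra.trace_algebraMap, map_mul, map_natCast, nsmul_eq_mul]
  have hf5 : (Module.finrank L K : B) * C (algebraMap (𝒜 0) K₀ (DirectSum.decompose 𝒜 f 0)) + b =
      ∑ j, (w : B) * X j * β j := by
    apply IsFractionRing.injective B L
    rw [← hf2, map_add, ← hf4, ← hb1, ← map_add, ← map_add, add_sub_cancel]
  have hf6 := congrArg constantCoeff hf5
  rw [map_add, hb2, add_zero, map_mul, map_natCast, constantCoeff_C] at hf6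
  have hf7 : constantCoeff (∑ j, (w : B) * X j * β j) = (0 : K₀) := by
    simp
  rw [hf7] at hf6
  have hfin : (Module.finrank L K : K₀) ≠ 0 := by
    exact_mod_cast (Module.finrank_pos (R := L) (M := K)).ne'
  have hf8 := (mul_eq_zero.1 hf6).resolve_left hfin
  rw [map_eq_zero_iff _ (IsFractionRing.injective (𝒜 0) K₀)] at hf8
  ext
  rw [GradedRing.coe_projZeroRingHom'_apply, GradedRing.projZeroRingHom_apply, hf8]

end Main

end Vale.Agent.P266.H114.Grd
end

section

/-!
# P266: the graded reduction theorem for normal domains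
-/

namespace Vale.Agent.P266.H114.Grd

section

variable {k A : Type*} [Field k] [CharZero k] [CommRing A] [Algebra k A]
  (𝒜 : ℕ → Submodule k A) [GradedAlgebra 𝒜]

omit [CharZero k] in
theorem isScalarTower_zero : IsScalarTower k (𝒜 0) A :=
  ⟨fun a b c => by
    rw [Algebra.smul_def (a • b), Algebra.smul_def b, SetLike.GradeZero.algebraMap_apply,
      SetLike.GradeZero.algebraMap_apply, Submodule.coe_smul, smul_mul_assoc]⟩

/-- projection to degree zero as an algebra map -/
noncomputable def projAlg : A →ₐ[𝒜 0] 𝒜 0 :=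
  { GradedRing.projZeroRingHom' 𝒜 with
    commutes' := fun r => GradedRing.projZeroRingHom'_apply_coe 𝒜 r }

/-- if the derivation module is projective and `A` is a normal domain, the Euler derivation
decomposes. -/
theorem nonempty_eulerData [IsDomain A] [IsIntegrallyClosed A] [Algebra.FiniteType k A]
    [Module.Projective A (Derivation k A A)] :
    ∃ (ι : Type) (_ : Fintype ι), Nonempty (EulerData 𝒜 ι) := by
  classical
  have hdom : IsDomain (𝒜 0) := (FaithfulSMul.algebraMap_injective (𝒜 0) A).isDomain
    (algebraMap (𝒜 0) A)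
  let K₀ := FractionRing (𝒜 0)
  let K := FractionRing A
  have hinj : Function.Injective (algebraMap (𝒜 0) K) := by
    rw [IsScalarTower.algebraMap_eq (𝒜 0) A K]
    exact (IsFractionRing.injective A K).comp (FaithfulSMul.algebraMap_injective (𝒜 0) A)
  have hfs := (faithfulSMul_iff_algebraMap_injective (𝒜 0) K).2 hinj
  let _ : Algebra K₀ K := FractionRing.liftAlgebra (𝒜 0) K
  have hst2 : IsScalarTower (𝒜 0) K₀ K := inferInstance
  obtain ⟨w, hw, c, x, hx, hind, hint⟩ := graded_noether 𝒜 K₀ K
  obtain ⟨s, hs⟩ := Module.projective_def'.1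
    (inferInstance : Module.Projective A (Derivation k A A))
  let E := eulerDer 𝒜
  let J := {D // D ∈ (s E).support}
  refine exists_eulerData 𝒜 (J := J) (fun D => s E D) (fun D => D) ?_ ?_
  · intro D
    exact eps_omega_euler K₀ K 𝒜 w c x hx hind hint ((Finsupp.lapply D.1).comp s)
  · have h1 : Finsupp.linearCombination A id (s E) = E := congrArg (fun f => f E) hs
    conv_lhs => rw [show eulerDer 𝒜 = E from rfl, ← h1]
    rw [Finsupp.linearCombination_apply, Finsupp.sum, ← Finset.sum_coe_sort]
    rfl

/-- **Graded reduction theorem**, normal case. -/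
theorem graded_main_of_normal [IsDomain A] [IsIntegrallyClosed A] [Algebra.FiniteType k A]
    [Module.Projective A (Derivation k A A)] :
    Algebra.Smooth (𝒜 0) A ∧ Module.Projective (𝒜 0) (Derivation k (𝒜 0) (𝒜 0)) ∧
      ∃ (ι : Type) (_ : Fintype ι) (σ : A →ₐ[𝒜 0] MvPolynomial ι (𝒜 0))
        (φ : MvPolynomial ι (𝒜 0) →ₐ[𝒜 0] A), ∀ a, φ (σ a) = a := by
  have hN : IsNoetherianRing A := Algebra.FiniteType.isNoetherianRing k A
  have hst := isScalarTower_zero 𝒜
  obtain ⟨ι, hι, ⟨E⟩⟩ := nonempty_eulerData 𝒜
  exact ⟨smooth_of_retract (ι := ι) E.sec E.φ E.φ_sec,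
    projective_derivation_of_retract (ι := ι) E.sec E.φ E.φ_sec (projAlg 𝒜),
    ι, hι, E.sec, E.φ, E.φ_sec⟩

end

end Vale.Agent.P266.H114.Grd
end

section

/-!
# P266: the graded reduction theorem, with its consequences
-/

namespace Vale.Agent.P266.H114.Grd

section

variable {k A : Type*} [Field k] [CommRing A] [Algebra k A]
  (𝒜 : ℕ → Submodule k A) [GradedAlgebra 𝒜]

/-- the degree zero part of a normal domain is normal -/
theorem isIntegrallyClosed_zero [IsDomain A] [IsIntegrallyClosed A] :
    IsIntegrallyClosed (𝒜 0) := by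
  have hdom : IsDomain (𝒜 0) := (FaithfulSMul.algebraMap_injective (𝒜 0) A).isDomain
    (algebraMap (𝒜 0) A)
  rw [isIntegrallyClosed_iff (FractionRing (𝒜 0))]
  intro x hx
  have hinj : Function.Injective (algebraMap (𝒜 0) (FractionRing A)) := by
    rw [IsScalarTower.algebraMap_eq (𝒜 0) A (FractionRing A)]
    exact (IsFractionRing.injective A _).comp (FaithfulSMul.algebraMap_injective (𝒜 0) A)
  have hfs := (faithfulSMul_iff_algebraMap_injective (𝒜 0) (FractionRing A)).2 hinj
  let _ : Algebra (FractionRing (𝒜 0)) (FractionRing A) :=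
    FractionRing.liftAlgebra (𝒜 0) (FractionRing A)
  have h1 : IsIntegral (𝒜 0) (algebraMap (FractionRing (𝒜 0)) (FractionRing A) x) :=
    hx.map (IsScalarTower.toAlgHom (𝒜 0) (FractionRing (𝒜 0)) (FractionRing A))
  have h2 : IsIntegral A (algebraMap (FractionRing (𝒜 0)) (FractionRing A) x) := h1.tower_top
  obtain ⟨z, hz⟩ := IsIntegrallyClosed.isIntegral_iff.1 h2
  obtain ⟨a, b, hb, rfl⟩ := IsFractionRing.div_surjective (A := 𝒜 0) x
  have hb0 : (b : A) ≠ 0 := by
    intro h
    exact nonZeroDivisors.ne_zero hb (Subtype.ext h)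
  have h3 : (b : A) * z = a := by
    apply IsFractionRing.injective A (FractionRing A)
    have hbK : algebraMap (𝒜 0) (FractionRing A) b ≠ 0 := by
      intro h
      rw [map_eq_zero_iff _ hinj] at h
      exact nonZeroDivisors.ne_zero hb h
    have e1 : ∀ r : 𝒜 0, algebraMap A (FractionRing A) (r : A) =
        algebraMap (𝒜 0) (FractionRing A) r := fun r => by
      rw [IsScalarTower.algebraMap_apply (𝒜 0) A (FractionRing A)]
      rfl
    rw [map_mul, hz, e1, e1, map_div₀, ← IsScalarTower.algebraMap_apply (𝒜 0) (FractionRing (𝒜 0)),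
      ← IsScalarTower.algebraMap_apply (𝒜 0) (FractionRing (𝒜 0)), mul_div_cancel₀ _ hbK]
  have h4 : (b : A) * (GradedRing.projZeroRingHom 𝒜 z) = a := by
    have h5 := congrArg (GradedRing.projZeroRingHom 𝒜) h3
    rw [map_mul] at h5
    have h6 : ∀ r : 𝒜 0, GradedRing.projZeroRingHom 𝒜 (r : A) = r := fun r => by
      rw [GradedRing.projZeroRingHom_apply, DirectSum.decompose_of_mem_same 𝒜 r.2]
    rwa [h6, h6] at h5
  have h5 : z ∈ 𝒜 0 := by
    have h6 : GradedRing.projZeroRingHom 𝒜 z = z := mul_left_cancel₀ hb0 (h4.trans h3.symm)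
    rw [← h6]
    exact SetLike.coe_mem _
  refine ⟨⟨z, h5⟩, ?_⟩
  apply (algebraMap (FractionRing (𝒜 0)) (FractionRing A)).injective
  rw [← hz, ← IsScalarTower.algebraMap_apply (𝒜 0) (FractionRing (𝒜 0)),
    IsScalarTower.algebraMap_apply (𝒜 0) A (FractionRing A)]
  rfl

end

end Vale.Agent.P266.H114.Grd
end

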