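import Mathlib
import Vale.Agent.P266.LZ.E2

/-!
# P266 (helper114): the obstruction at a derivation-stable point, over every field of
characteristic zero

Versions over an arbitrary field of characteristic zero of `not_projective_kaehler` and
`not_isRegularLocalRing` of `LZ/E2.lean` (there over `ℂ`, where residue fields are `ℂ`).
-/

universe u

namespace Vale.Agent.P266.H114.K

open Vale.Agent.P266.CE

section Point

variable {𝕜 : Type*} {A : Type*} [Field 𝕜] [CommRing A] [Algebra 𝕜 A]

/-- the derivation `a ↦ [a] - ψ(a)` with values in `A / m²` -/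
noncomputable def evDer (m : Ideal A) (ψ : A →ₐ[𝕜] A ⧸ m ^ 2)
    (hψ : ∀ a, Ideal.Quotient.mk (m ^ 2) a - ψ a ∈ m.map (Ideal.Quotient.mk (m ^ 2))) :
    Derivation 𝕜 A (A ⧸ m ^ 2) :=
  Derivation.mk' ((Ideal.Quotient.mkₐ 𝕜 (m ^ 2)).toLinearMap - ψ.toLinearMap) (by
    intro a b
    have h1 : (Ideal.Quotient.mk (m ^ 2) a - ψ a) * (Ideal.Quotient.mk (m ^ 2) b - ψ b) = 0 := by
      have h2 := Ideal.mul_mem_mul (hψ a) (hψ b)
      rw [← Ideal.map_mul, ← pow_two, Ideal.map_quotient_self] at h2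
      exact h2
    simp only [LinearMap.sub_apply, AlgHom.toLinearMap_apply, Ideal.Quotient.mkₐ_eq_mk, map_mul]
    simp only [Algebra.smul_def, Ideal.Quotient.algebraMap_eq]
    linear_combination (-1 : A ⧸ m ^ 2) * h1)

theorem evDer_apply (m : Ideal A) (ψ : A →ₐ[𝕜] A ⧸ m ^ 2) (hψ) (a : A) :
    evDer m ψ hψ a = Ideal.Quotient.mk (m ^ 2) a - ψ a := rfl

/-- a multiplicative section of `A → A / m`, modulo `m²` -/
theorem exists_section [CharZero 𝕜] [Algebra.FiniteType 𝕜 A] (m : Ideal A) [m.IsMaximal] :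
    ∃ ψ : A →ₐ[𝕜] A ⧸ m ^ 2,
      (∀ a, Ideal.Quotient.mk (m ^ 2) a - ψ a ∈ m.map (Ideal.Quotient.mk (m ^ 2))) ∧
      ∀ a ∈ m, ψ a = 0 := by
  let _ : Field (A ⧸ m) := Ideal.Quotient.field m
  have hfin : Module.Finite 𝕜 (A ⧸ m) := finite_of_finite_type_of_isJacobsonRing 𝕜 (A ⧸ m)
  have hs : Algebra.FormallyEtale 𝕜 (A ⧸ m) := Algebra.FormallyEtale.of_isSeparable 𝕜 (A ⧸ m)
  let I : Ideal (A ⧸ m ^ 2) := m.map (Ideal.Quotient.mk (m ^ 2))
  have hI : IsNilpotent I := ⟨2, by
    rw [← Ideal.map_pow, Ideal.map_quotient_self]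
    rfl⟩
  let g : (A ⧸ m) →ₐ[𝕜] (A ⧸ m ^ 2) ⧸ I :=
    Ideal.quotientMapₐ I (Ideal.Quotient.mkₐ 𝕜 (m ^ 2)) Ideal.le_comap_map
  obtain ⟨f, hf⟩ := Algebra.FormallySmooth.exists_lift I hI g
  refine ⟨f.comp (Ideal.Quotient.mkₐ 𝕜 m), fun a => ?_, fun a ha => ?_⟩
  · rw [← Ideal.Quotient.eq]
    have h1 : Ideal.Quotient.mk I (f (Ideal.Quotient.mk m a)) = g (Ideal.Quotient.mk m a) :=
      AlgHom.congr_fun hf (Ideal.Quotient.mk m a)
    exact h1.symm
  · change f (Ideal.Quotient.mk m a) = 0
    rw [Ideal.Quotient.eq_zero_iff_mem.2 ha, map_zero]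

theorem not_projective_kaehler [CharZero 𝕜] [IsDomain A] [Algebra.FiniteType 𝕜 A] (m : Ideal A)
    [m.IsMaximal] (hm : m ≠ ⊥) (h : ∀ D : Derivation 𝕜 A A, ∀ f ∈ m, D f ∈ m) :
    ¬ Module.Projective A (Ω[A⁄𝕜]) := by
  intro hproj
  have hN : IsNoetherianRing A := Algebra.FiniteType.isNoetherianRing 𝕜 A
  obtain ⟨ψ, hψ, hψ'⟩ := exists_section (𝕜 := 𝕜) m
  let δ := evDer m ψ hψ
  have hδ : ∀ a, δ a ∈ m.map (Ideal.Quotient.mk (m ^ 2)) := hψ
  have hlift : ∀ w : Ω[A⁄𝕜], δ.liftKaehlerDifferential w ∈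
      m.map (Ideal.Quotient.mk (m ^ 2)) := by
    intro w
    have hw : w ∈ Submodule.span A (Set.range (KaehlerDifferential.D 𝕜 A)) := by
      rw [KaehlerDifferential.span_range_derivation]; trivial
    induction hw using Submodule.span_induction with
    | mem w hw =>
      obtain ⟨a, rfl⟩ := hw
      rw [Derivation.liftKaehlerDifferential_comp_D]
      exact hδ a
    | zero => rw [map_zero]; exact zero_mem _
    | add x y _ _ hx hy => rw [map_add]; exact add_mem hx hy
    | smul c x _ hx =>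
      rw [map_smul, Algebra.smul_def]
      exact Ideal.mul_mem_left _ _ hx
  have hsub : m ≤ m ^ 2 := by
    intro f hf
    have hDf : KaehlerDifferential.D 𝕜 A f ∈ m • (⊤ : Submodule A (Ω[A⁄𝕜])) := by
      refine mem_smul_top_of_forall_dual m _ fun φ => ?_
      exact h (φ.compDer (KaehlerDifferential.D 𝕜 A)) f hf
    have hzero : ∀ w ∈ m • (⊤ : Submodule A (Ω[A⁄𝕜])), δ.liftKaehlerDifferential w = 0 := by
      intro w hw
      induction hw using Submodule.smul_induction_on' with
      | smul a ha w _ =>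
        rw [map_smul, Algebra.smul_def]
        have h1 : algebraMap A (A ⧸ m ^ 2) a * δ.liftKaehlerDifferential w ∈
            m.map (Ideal.Quotient.mk (m ^ 2)) * m.map (Ideal.Quotient.mk (m ^ 2)) :=
          Ideal.mul_mem_mul (Ideal.mem_map_of_mem _ ha) (hlift w)
        have h2 : m.map (Ideal.Quotient.mk (m ^ 2)) * m.map (Ideal.Quotient.mk (m ^ 2)) = ⊥ := by
          rw [← Ideal.map_mul, ← pow_two, Ideal.map_quotient_self]
        rw [h2] at h1
        exact h1
      | add x _ y _ hx hy => rw [map_add, hx, hy, add_zero]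
    have h1 := hzero _ hDf
    rw [Derivation.liftKaehlerDifferential_comp_D] at h1
    have h2 : Ideal.Quotient.mk (m ^ 2) f - ψ f = 0 := h1
    rw [hψ' f hf, sub_zero] at h2
    exact Ideal.Quotient.eq_zero_iff_mem.1 h2
  have hid : IsIdempotentElem m := by
    apply le_antisymm Ideal.mul_le_left
    rw [← pow_two]; exact hsub
  rcases (Ideal.isIdempotentElem_iff_eq_bot_or_top m (IsNoetherian.noetherian m)).1 hid with h1 | h1
  · exact hm h1
  · exact (Ideal.IsMaximal.ne_top ‹_›) h1

end Point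

section Regular

open IsLocalRing

theorem not_isRegularLocalRing {𝕜 A : Type*} [Field 𝕜] [CharZero 𝕜] [CommRing A] [IsDomain A]
    [Algebra 𝕜 A]
    [Algebra.FiniteType 𝕜 A] (hdim : ringKrullDim A ≤ 2) (m : Ideal A) [hm : m.IsMaximal]
    (E₁ E₂ : Derivation 𝕜 A A) {c : A} (hc : c ∈ minors E₁ E₂) (hc0 : c ≠ 0)
    (h : ∀ D : Derivation 𝕜 A A, ∀ f ∈ m, D f ∈ m) :
    ¬ IsRegularLocalRing (Localization.AtPrime m) := by
  classical
  intro hreg
  have hN : IsNoetherianRing A := Algebra.FiniteType.isNoetherianRing 𝕜 A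
  let V := Localization.AtPrime m
  have hAV : Function.Injective (algebraMap A V) :=
    IsLocalization.injective V m.primeCompl_le_nonZeroDivisors
  have hVdom : IsDomain V := IsLocalization.isDomain_localization m.primeCompl_le_nonZeroDivisors
  have hess : Algebra.EssFiniteType 𝕜 V :=
    have := Algebra.EssFiniteType.of_isLocalization V m.primeCompl
    Algebra.EssFiniteType.comp 𝕜 A V
  have hd : ringKrullDim V ≤ 2 := by
    have h1 : ringKrullDim V = m.height := IsLocalization.AtPrime.ringKrullDim_eq_height m V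
    rw [h1]
    exact (Ideal.height_le_ringKrullDim_of_ne_top hm.ne_top).trans hdim
  have hs : ((maximalIdeal V).spanFinrank : WithBot ℕ∞) ≤ 2 := by
    rw [IsRegularLocalRing.spanFinrank_maximalIdeal]
    exact hd
  have hs2 : (maximalIdeal V).spanFinrank ≤ 2 := by exact_mod_cast hs
  have hfg : (maximalIdeal V).FG := IsNoetherian.noetherian _
  obtain ⟨g, hgc, hg⟩ := Submodule.FG.exists_span_finset_card_eq_spanFinrank hfg
  obtain ⟨f₁, f₂, hgf, hf₁, hf₂⟩ := exists_pair_of_card_le_two g (by omega)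
  have hgm : ∀ f : V, f = 0 ∨ f ∈ g → f ∈ maximalIdeal V := by
    rintro f (rfl | hf)
    · exact zero_mem _
    · rw [← hg]; exact Submodule.subset_span hf
  have hspan : ∀ v ∈ maximalIdeal V, ∃ a b : V, a * f₁ + b * f₂ = v := by
    intro v hv
    have h1 : v ∈ Submodule.span V ({f₁, f₂} : Set V) := by
      rw [← hg] at hv
      exact Submodule.span_mono hgf hv
    exact Submodule.mem_span_pair.1 h1
  have hmV : ∀ a : A, algebraMap A V a ∈ maximalIdeal V ↔ a ∈ m := fun a =>
    IsLocalization.AtPrime.to_map_mem_maximal_iff V m a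
  -- every element of the local ring is a simple root of a polynomial modulo the maximal ideal
  have hres : ∀ v : V, ∃ p : Polynomial 𝕜, Polynomial.aeval v p ∈ maximalIdeal V ∧
      IsUnit (Polynomial.aeval v (Polynomial.derivative p)) := by
    have h1 : Algebra.FiniteType 𝕜 (ResidueField V) := by
      have : Algebra.FiniteType A m.ResidueField := inferInstance
      exact Algebra.FiniteType.trans (S := A) inferInstance this
    have h2 : Module.Finite 𝕜 (ResidueField V) := finite_of_finite_type_of_isJacobsonRing _ _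
    intro v
    have hint : IsIntegral 𝕜 (residue V v) := Algebra.IsIntegral.isIntegral _
    let r : V →ₐ[𝕜] ResidueField V := IsScalarTower.toAlgHom 𝕜 V (ResidueField V)
    have hr : ∀ p : Polynomial 𝕜, residue V (Polynomial.aeval v p) =
        Polynomial.aeval (residue V v) p := fun p => by
      change r (Polynomial.aeval v p) = Polynomial.aeval (r v) p
      exact (Polynomial.aeval_algHom_apply r v p).symm
    refine ⟨minpoly 𝕜 (residue V v), ?_, ?_⟩
    · rw [← residue_eq_zero_iff, hr, minpoly.aeval]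
    · by_contra hu
      have h3 : Polynomial.aeval v (Polynomial.derivative (minpoly 𝕜 (residue V v))) ∈
          maximalIdeal V := (mem_maximalIdeal _).2 hu
      rw [← residue_eq_zero_iff, hr] at h3
      exact (minpoly.irreducible hint).separable.aeval_derivative_ne_zero (minpoly.aeval _ _) h3
  let d := KaehlerDifferential.D 𝕜 V
  have hfinΩ : Module.Finite V (Ω[V⁄𝕜]) := inferInstance
  have htop : Submodule.span V {d f₁, d f₂} = (⊤ : Submodule V (Ω[V⁄𝕜])) := by
    rw [eq_top_iff]
    refine Submodule.le_of_le_smul_of_le_jacobson_bot (I := maximalIdeal V)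
      (IsNoetherian.noetherian _) (maximalIdeal_le_jacobson ⊥) ?_
    rw [← KaehlerDifferential.span_range_derivation 𝕜 V, Submodule.span_le]
    rintro _ ⟨v, rfl⟩
    obtain ⟨p, hp, hpu⟩ := hres v
    obtain ⟨a, b, hab⟩ := hspan _ hp
    have e1 : d (Polynomial.aeval v p) = a • d f₁ + b • d f₂ + (f₁ • d a + f₂ • d b) := by
      rw [← hab, map_add, Derivation.leibniz, Derivation.leibniz]
      abel
    have e2 : d (Polynomial.aeval v p) =
        Polynomial.aeval v (Polynomial.derivative p) • d v := d.map_aeval p v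
    have e3 : Polynomial.aeval v (Polynomial.derivative p) • d v ∈
        Submodule.span V {d f₁, d f₂} ⊔ maximalIdeal V • Submodule.span V (Set.range d) := by
      rw [← e2, e1]
      refine Submodule.add_mem_sup ?_ ?_
      · exact add_mem (Submodule.smul_mem _ _ (Submodule.subset_span (by simp)))
          (Submodule.smul_mem _ _ (Submodule.subset_span (by simp)))
      · rw [KaehlerDifferential.span_range_derivation]
        exact add_mem (Submodule.smul_mem_smul (hgm _ hf₁) trivial)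
          (Submodule.smul_mem_smul (hgm _ hf₂) trivial)
    obtain ⟨w, hw⟩ := hpu
    have e4 : d v = ((w⁻¹ : Vˣ) : V) • (Polynomial.aeval v (Polynomial.derivative p) • d v) := by
      rw [smul_smul, ← hw, Units.inv_mul, one_smul]
    change d v ∈ _
    rw [e4]
    exact Submodule.smul_mem _ _ e3
  have hpair : ∀ w : Ω[V⁄𝕜], ∃ a b : V, a • d f₁ + b • d f₂ = w := by
    intro w
    have : w ∈ Submodule.span V {d f₁, d f₂} := by rw [htop]; trivial
    exact Submodule.mem_span_pair.1 this
  have hfe : Algebra.FormallyEtale A V := .of_isLocalization m.primeCompl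
  obtain ⟨F₁, hF₁⟩ := exists_der_ext 𝕜 ((Algebra.linearMap A V).compDer E₁)
  obtain ⟨F₂, hF₂⟩ := exists_der_ext 𝕜 ((Algebra.linearMap A V).compDer E₂)
  have hcV : algebraMap A V c ∈ minors F₁ F₂ := minors_map (algebraMap A V) E₁ E₂ F₁ F₂ hF₁ hF₂ hc
  have hcV0 : algebraMap A V c ≠ 0 := fun h0 => hc0 (hAV (by rw [h0, map_zero]))
  have hexp : ∀ (F : Derivation 𝕜 V V) (u a b : V), a • d f₁ + b • d f₂ = d u →
      F u = a * F f₁ + b * F f₂ := by
    intro F u a b hu
    have h1 := congrArg F.liftKaehlerDifferential hu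
    rw [map_add, map_smul, map_smul, Derivation.liftKaehlerDifferential_comp_D,
      Derivation.liftKaehlerDifferential_comp_D, Derivation.liftKaehlerDifferential_comp_D] at h1
    rw [← h1, smul_eq_mul, smul_eq_mul]
  have hΔ : F₁ f₁ * F₂ f₂ - F₁ f₂ * F₂ f₁ ≠ 0 := by
    intro h0
    apply hcV0
    have hle : minors F₁ F₂ ≤ ⊥ := by
      rw [minors, Ideal.span_le]
      rintro _ ⟨u, v, rfl⟩
      obtain ⟨a, b, hu⟩ := hpair (d u)
      obtain ⟨a', b', hv⟩ := hpair (d v)
      change _ ∈ (⊥ : Ideal V)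
      rw [Ideal.mem_bot, hexp F₁ u a b hu, hexp F₂ u a b hu, hexp F₁ v a' b' hv,
        hexp F₂ v a' b' hv]
      linear_combination (a * b' - b * a') * h0
    exact hle hcV
  have hli : LinearIndependent V ![d f₁, d f₂] := by
    rw [LinearIndependent.pair_iff]
    intro a b hab
    have h1 : 0 = a * F₁ f₁ + b * F₁ f₂ := by
      have := hexp F₁ 0 a b (by rw [hab, map_zero])
      rwa [map_zero] at this
    have h2 : 0 = a * F₂ f₁ + b * F₂ f₂ := by
      have := hexp F₂ 0 a b (by rw [hab, map_zero])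
      rwa [map_zero] at this
    constructor
    · apply (mul_eq_zero.1 (?_ : a * (F₁ f₁ * F₂ f₂ - F₁ f₂ * F₂ f₁) = 0)).resolve_right hΔ
      linear_combination (-F₂ f₂) * h1 + F₁ f₂ * h2
    · apply (mul_eq_zero.1 (?_ : b * (F₁ f₁ * F₂ f₂ - F₁ f₂ * F₂ f₁) = 0)).resolve_right hΔ
      linear_combination F₂ f₁ * h1 - F₁ f₁ * h2
  let B := Module.Basis.mk hli (by
    rw [← htop]
    refine Submodule.span_mono ?_
    rintro w (rfl | rfl)
    · exact ⟨0, rfl⟩
    · exact ⟨1, rfl⟩)
  let φ : Ω[V⁄𝕜] →ₗ[V] V := B.coord 0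
  have hφ : φ (d f₁) = 1 := by
    have hB : B 0 = d f₁ := by simp [B]
    rw [← hB]
    simp [φ]
  have hfp : Module.FinitePresentation A (Ω[A⁄𝕜]) := Module.finitePresentation_of_finite A _
  let g' : Ω[A⁄𝕜] →ₗ[A] V := (φ.restrictScalars A) ∘ₗ KaehlerDifferential.map 𝕜 𝕜 A V
  obtain ⟨ψ, s, hψs⟩ := Module.FinitePresentation.exists_lift_of_isLocalizedModule m.primeCompl
    (Algebra.linearMap A V) g'
  let D : Derivation 𝕜 A A := ψ.compDer (KaehlerDifferential.D 𝕜 A)
  have hD : ∀ a, algebraMap A V (D a) = algebraMap A V s * φ (d (algebraMap A V a)) := by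
    intro a
    have h1 := LinearMap.congr_fun hψs (KaehlerDifferential.D 𝕜 A a)
    have h2 : algebraMap A V (ψ (KaehlerDifferential.D 𝕜 A a)) = algebraMap A V s *
        φ (KaehlerDifferential.D 𝕜 V (algebraMap A V a)) := by
      simpa [g', Submonoid.smul_def, Algebra.smul_def] using h1
    exact h2
  obtain ⟨⟨a, t⟩, hat⟩ := IsLocalization.surj m.primeCompl f₁
  have hat' : f₁ * algebraMap A V (t : A) = algebraMap A V a := hat
  have hf₁m : f₁ ∈ maximalIdeal V := hgm _ hf₁
  have ham : a ∈ m := by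
    rw [← hmV, ← hat']
    exact Ideal.mul_mem_right _ _ hf₁m
  have h1 : algebraMap A V (D a) ∈ maximalIdeal V := (hmV _).2 (h D a ham)
  rw [hD, ← hat', Derivation.leibniz, map_add, map_smul, map_smul, hφ, smul_eq_mul, smul_eq_mul,
    mul_one, mul_add] at h1
  have h2 : algebraMap A V (s : A) * algebraMap A V (t : A) ∈ maximalIdeal V := by
    have h3 : algebraMap A V (s : A) * (f₁ * φ (d (algebraMap A V (t : A)))) ∈ maximalIdeal V :=
      Ideal.mul_mem_left _ _ (Ideal.mul_mem_right _ _ hf₁m)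
    exact (Ideal.add_mem_iff_right _ h3).1 h1
  rw [← map_mul, hmV] at h2
  rcases Ideal.IsPrime.mem_or_mem hm.isPrime h2 with h3 | h3
  · exact s.2 h3
  · exact t.2 h3

end Regular

end Vale.Agent.P266.H114.K
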