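import Mathlib
import Vale.Agent.P266.LZ.E2
import Vale.Agent.P266.H114.K1

/-!
# P266 (helper114): the construction of `LZ/E2.lean` over every field of characteristic zero

The text follows `LZ/E2.lean` (a file of the starting point, written over `ℂ`), with `ℂ` replaced by
an arbitrary field `𝕜` of characteristic zero; the two places where `ℂ` algebraically closed was
used are replaced by `K1.lean`.
-/

universe u

namespace Vale.Agent.P266.H114.K

open Vale.Agent.P266.CE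

variable {𝕜 : Type u} [Field 𝕜] [CharZero 𝕜]

omit [CharZero 𝕜] in
theorem ringKrullDim_le_two {S : Type*} [CommRing S] [Algebra 𝕜 S] {x y : S}
    (hxy : Algebra.adjoin 𝕜 {x, y} = ⊤) : ringKrullDim S ≤ 2 := by
  let f : MvPolynomial (Fin 2) 𝕜 →ₐ[𝕜] S := MvPolynomial.aeval ![x, y]
  have hf : Function.Surjective f := by
    rw [← AlgHom.range_eq_top, eq_top_iff, ← hxy, Algebra.adjoin_le_iff]
    rintro s (rfl | rfl)
    · exact ⟨MvPolynomial.X 0, by simp [f]⟩
    · exact ⟨MvPolynomial.X 1, by simp [f]⟩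
  refine (ringKrullDim_le_of_surjective f.toRingHom hf).trans ?_
  rw [MvPolynomial.ringKrullDim_of_isNoetherianRing, ringKrullDim_eq_zero_of_field]
  simp

/-- the properties of the example -/
def IsCE (𝕜 : Type u) [Field 𝕜] (A : Type u) [CommRing A] [Algebra 𝕜 A] : Prop :=
  IsDomain A ∧ Algebra.FiniteType 𝕜 A ∧ Module.Free A (Derivation 𝕜 A A) ∧
    ¬ Module.Projective A (Ω[A⁄𝕜]) ∧ ¬ IsRegularRing A ∧ ringKrullDim A ≤ 2 ∧
    Module.finrank A (Derivation 𝕜 A A) = 2 ∧ IsIntegrallyClosed A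

section

open Polynomial

section
variable {S C : Type u} [CommRing S] [IsDomain S] [UniqueFactorizationMonoid S] [Algebra 𝕜 S]
  [Algebra.FiniteType 𝕜 S] [CommRing C] [IsDomain C] [Algebra 𝕜 C] [Algebra S C]
  [IsScalarTower 𝕜 S C] [Module.Finite S C]
omit [UniqueFactorizationMonoid S] in
theorem exists_of_integrallyClosed [IsIntegrallyClosed C]
    (hinj : Function.Injective (algebraMap S C))
    {x y : S} (hxy : Algebra.adjoin 𝕜 {x, y} = ⊤)
    (hclosed : ∀ (c : C) (n₁ n₂ : S), n₁ ≠ 0 → n₂ ≠ 0 → IsRelPrime n₁ n₂ →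
      algebraMap S C n₁ ∣ c * algebraMap S C n₂ → algebraMap S C n₁ ∣ c)
    (D₁ D₂ : Derivation 𝕜 C C) (q : Ideal C) [q.IsMaximal] (hq0 : q ≠ ⊥)
    (hD₁ : ∀ c ∈ q, D₁ c ∈ q) (hD₂ : ∀ c ∈ q, D₂ c ∈ q)
    (g n₁ n₂ : S) (hg : algebraMap S C g ∉ q) (hn₁ : n₁ ≠ 0) (hn₂ : n₂ ≠ 0)
    (hrel : IsRelPrime n₁ n₂)
    (h₁ : algebraMap S C (g * n₁) ∈ minors D₁ D₂)
    (h₂ : algebraMap S C (g * n₂) ∈ minors D₁ D₂) :
    ∃ (A : Type u) (_ : CommRing A) (_ : Algebra 𝕜 A), IsCE 𝕜 A := by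
  classical
  let γ : C := algebraMap S C g
  let A := Localization.Away γ
  have hγ0 : γ ≠ 0 := fun h => hg (by
    change γ ∈ q
    rw [h]; exact zero_mem _)
  have hCA : Function.Injective (algebraMap C A) :=
    IsLocalization.injective A (powers_le_nonZeroDivisors_of_noZeroDivisors hγ0)
  have hAdom : IsDomain A :=
    IsLocalization.isDomain_localization (powers_le_nonZeroDivisors_of_noZeroDivisors hγ0)
  have hCft : Algebra.FiniteType 𝕜 C := Algebra.FiniteType.trans (S := S) inferInstance inferInstance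
  have hCAft : Algebra.FiniteType C A := IsLocalization.finiteType_of_monoid_fg (.powers γ) A
  have hAft : Algebra.FiniteType 𝕜 A := Algebra.FiniteType.trans (S := C) inferInstance inferInstance
  have hγu : IsUnit (algebraMap C A γ) := IsLocalization.Away.algebraMap_isUnit γ
  have hfe : Algebra.FormallyEtale C A := .of_isLocalization (.powers γ)
  obtain ⟨E₁, hE₁⟩ := exists_der_ext 𝕜 ((Algebra.linearMap C A).compDer D₁)
  obtain ⟨E₂, hE₂⟩ := exists_der_ext 𝕜 ((Algebra.linearMap C A).compDer D₂)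
  have hE₁' : ∀ c : C, E₁ (algebraMap C A c) = algebraMap C A (D₁ c) := hE₁
  have hE₂' : ∀ c : C, E₂ (algebraMap C A c) = algebraMap C A (D₂ c) := hE₂
  have hmin : ∀ n : S, algebraMap S C (g * n) ∈ minors D₁ D₂ →
      algebraMap C A (algebraMap S C n) ∈ minors E₁ E₂ := by
    intro n hn
    have h3 := minors_map (algebraMap C A) D₁ D₂ E₁ E₂ hE₁' hE₂' hn
    rw [map_mul, map_mul] at h3
    obtain ⟨u, hu⟩ := hγu
    have h4 : algebraMap C A (algebraMap S C n) =
        ((u⁻¹ : Aˣ) : A) * (algebraMap C A γ * algebraMap C A (algebraMap S C n)) := by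
      rw [← hu, Units.inv_mul_cancel_left]
    rw [h4]
    exact Ideal.mul_mem_left _ _ h3
  have hm₁ := hmin n₁ h₁
  have hm₂ := hmin n₂ h₂
  have hSA : Function.Injective (algebraMap S A) := by
    rw [IsScalarTower.algebraMap_eq S C A]
    exact hCA.comp hinj
  have hn₁' : algebraMap C A (algebraMap S C n₁) ≠ 0 := by
    intro h
    exact hn₁ (hinj (hCA (by rw [h, map_zero, map_zero])))
  have hCalg : Algebra.IsAlgebraic S C := Algebra.IsIntegral.isAlgebraic
  have hAalg : Algebra.IsAlgebraic S A := by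
    have : Algebra.IsAlgebraic C A := IsLocalization.isAlgebraic A (Submonoid.powers γ)
    exact Algebra.IsAlgebraic.trans S C A
  have h0 : ∀ D : Derivation 𝕜 A A, D (algebraMap S A x) = 0 → D (algebraMap S A y) = 0 →
      D = 0 := fun D hx hy => der_eq_zero_of_two hSA hxy D hx hy
  have hΔ := minor_ne_zero _ _ h0 E₁ E₂ hm₁ hn₁'
  have hspan : ∀ D : Derivation 𝕜 A A, ∃ d u v : A, d ≠ 0 ∧ d • D = u • E₁ + v • E₂ := by
    intro D
    refine ⟨_, D (algebraMap S A x) * E₂ (algebraMap S A y) -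
      D (algebraMap S A y) * E₂ (algebraMap S A x),
      E₁ (algebraMap S A x) * D (algebraMap S A y) -
      E₁ (algebraMap S A y) * D (algebraMap S A x), hΔ, ?_⟩
    rw [← sub_eq_zero]
    apply h0
    · simp; ring
    · simp; ring
  have hab : ∀ c : A, algebraMap C A (algebraMap S C n₁) ∣
      c * algebraMap C A (algebraMap S C n₂) → algebraMap C A (algebraMap S C n₁) ∣ c := by
    rintro c ⟨d, hd⟩
    obtain ⟨k, c₀, hc₀⟩ := IsLocalization.Away.surj γ c
    obtain ⟨l, d₀, hd₀⟩ := IsLocalization.Away.surj γ d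
    have h5 : algebraMap S C n₁ ∣ (γ ^ l * c₀) * algebraMap S C n₂ := by
      refine ⟨γ ^ k * d₀, hCA ?_⟩
      simp only [map_mul, map_pow]
      rw [← hc₀, ← hd₀]
      linear_combination (algebraMap C A γ ^ k * algebraMap C A γ ^ l) * hd
    obtain ⟨e, he⟩ := hclosed _ n₁ n₂ hn₁ hn₂ hrel h5
    obtain ⟨u, hu⟩ := hγu
    refine ⟨((u⁻¹ : Aˣ) : A) ^ (k + l) * algebraMap C A e, ?_⟩
    have h6 := congrArg (algebraMap C A) he
    simp only [map_mul, map_pow] at h6
    rw [← hc₀, ← hu] at h6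
    have h7 : ((u⁻¹ : Aˣ) : A) * (u : A) = 1 := Units.inv_mul u
    have h8 : ((u⁻¹ : Aˣ) : A) ^ (k + l) * (u : A) ^ (k + l) = 1 := by
      rw [← mul_pow, h7, one_pow]
    calc c = (((u⁻¹ : Aˣ) : A) ^ (k + l) * (u : A) ^ (k + l)) * c := by rw [h8, one_mul]
      _ = ((u⁻¹ : Aˣ) : A) ^ (k + l) * ((u : A) ^ l * (c * (u : A) ^ k)) := by ring
      _ = _ := by rw [h6]; ring
  obtain ⟨b, hb0, hb1⟩ := exists_basis E₁ E₂ hspan hm₁ hm₂ hn₁' hab
  have hjac : IsJacobsonRing C := isJacobsonRing_of_finiteType (A := 𝕜)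
  let m : Ideal A := q.map (algebraMap C A)
  have hm : m.IsMaximal := IsLocalization.isMaximal_of_isMaximal_disjoint γ q ‹_› hg
  have hmbot : m ≠ ⊥ := by
    intro h
    apply hq0
    rw [eq_bot_iff]
    intro c hc
    have h3 : algebraMap C A c ∈ m := Ideal.mem_map_of_mem _ hc
    rw [h, Ideal.mem_bot] at h3
    rw [Ideal.mem_bot]
    exact hCA (by rw [h3, map_zero])
  have hstab : ∀ (D : Derivation 𝕜 C C) (E : Derivation 𝕜 A A)
      (_ : ∀ c : C, E (algebraMap C A c) = algebraMap C A (D c)) (_ : ∀ c ∈ q, D c ∈ q),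
      ∀ a ∈ m, E a ∈ m := by
    intro D E hE hD a ha
    induction ha using Submodule.span_induction with
    | mem a ha =>
      obtain ⟨c, hc, rfl⟩ := ha
      rw [hE]
      exact Ideal.mem_map_of_mem _ (hD c hc)
    | zero => rw [map_zero]; exact zero_mem _
    | add a b _ _ ha hb => rw [map_add]; exact add_mem ha hb
    | smul t a hta ih =>
      rw [smul_eq_mul, Derivation.leibniz, smul_eq_mul, smul_eq_mul]
      exact add_mem (Ideal.mul_mem_left _ _ ih) (Ideal.mul_mem_right _ _ hta)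
  have hall : ∀ D : Derivation 𝕜 A A, ∀ f ∈ m, D f ∈ m := by
    intro D f hf
    rw [← b.sum_repr D]
    simp only [Fin.sum_univ_two, hb0, hb1]
    rw [Derivation.add_apply, Derivation.smul_apply, Derivation.smul_apply, smul_eq_mul,
      smul_eq_mul]
    exact add_mem (Ideal.mul_mem_left _ _ (hstab D₁ E₁ hE₁' hD₁ f hf))
      (Ideal.mul_mem_left _ _ (hstab D₂ E₂ hE₂' hD₂ f hf))
  have hdim : ringKrullDim A ≤ 2 :=
    (ringKrullDim_le_of_loc (.powers γ)).trans
      ((ringKrullDim_le_of_isIntegral S C).trans (ringKrullDim_le_two hxy))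
  exact ⟨A, inferInstance, inferInstance, hAdom, hAft, Module.Free.of_basis b,
    not_projective_kaehler m hmbot hall, fun hreg =>
      not_isRegularLocalRing hdim m E₁ E₂ hm₁ hn₁' hall
        (hreg.isRegularLocalRing_localization m), hdim,
    by simpa using Module.finrank_eq_card_basis b,
    isIntegrallyClosed_of_isLocalization _ (.powers γ)
      (powers_le_nonZeroDivisors_of_noZeroDivisors hγ0)⟩
end

end

section

open Polynomial

section
variable {S B : Type u} [CommRing S] [IsDomain S] [UniqueFactorizationMonoid S] [Algebra 𝕜 S]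
  [Algebra.FiniteType 𝕜 S] [CommRing B] [IsDomain B] [Algebra 𝕜 B] [Algebra S B]
  [IsScalarTower 𝕜 S B] [Module.Finite S B]
theorem isUnit_natCast (𝕜 : Type u) [Field 𝕜] [CharZero 𝕜] (T : Type u) [CommRing T] [Algebra 𝕜 T] (n : ℕ) (hn : n ≠ 0) :
    IsUnit (n : T) := by
  have h1 : IsUnit (n : 𝕜) := isUnit_iff_ne_zero.2 (Nat.cast_ne_zero.2 hn)
  have h2 := h1.map (algebraMap 𝕜 T)
  rwa [map_natCast] at h2
theorem exists_of_domain (hinj : Function.Injective (algebraMap S B))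
    {x y : S} (hxy : Algebra.adjoin 𝕜 {x, y} = ⊤)
    (D₁ D₂ : Derivation 𝕜 B B) (m : Ideal B) [m.IsMaximal] (hm0 : m ≠ ⊥)
    (hD₁ : ∀ c ∈ m, D₁ c ∈ m) (hD₂ : ∀ c ∈ m, D₂ c ∈ m)
    (g n₁ n₂ : S) (hg : algebraMap S B g ∉ m) (hn₁ : n₁ ≠ 0) (hn₂ : n₂ ≠ 0)
    (hrel : IsRelPrime n₁ n₂)
    (h₁ : algebraMap S B (g * n₁) ∈ minors D₁ D₂)
    (h₂ : algebraMap S B (g * n₂) ∈ minors D₁ D₂) :
    ∃ (A : Type u) (_ : CommRing A) (_ : Algebra 𝕜 A), IsCE 𝕜 A := by
  classical
  have hSN : IsNoetherianRing S := Algebra.FiniteType.isNoetherianRing 𝕜 S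
  have hBft : Algebra.FiniteType 𝕜 B := Algebra.FiniteType.trans (S := S) inferInstance inferInstance
  have hBN : IsNoetherianRing B := Algebra.FiniteType.isNoetherianRing 𝕜 B
  let K := FractionRing B
  let L := FractionRing S
  have hfs : FaithfulSMul S K := by
    rw [faithfulSMul_iff_algebraMap_injective, IsScalarTower.algebraMap_eq S B K]
    exact (IsFractionRing.injective B K).comp hinj
  let _ : Algebra L K := FractionRing.liftAlgebra S K
  have hSLK : IsScalarTower S L K := inferInstance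
  have hfd : FiniteDimensional L K := by
    have h1 : Algebra.IsAlgebraic L K := isAlgebraic_of_isFractionRing S B ..
    have h2 : Algebra.EssFiniteType B K := .of_isLocalization K (nonZeroDivisors B)
    have h3 : Algebra.EssFiniteType S K := .comp S B K
    have h4 : Algebra.EssFiniteType L K := .of_comp S L K
    exact Algebra.finite_of_essFiniteType_of_isAlgebraic
  have hcz : CharZero L := by
    have : CharZero S := charZero_of_injective_algebraMap (algebraMap 𝕜 S).injective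
    exact charZero_of_injective_algebraMap (IsFractionRing.injective S L)
  let C := integralClosure S K
  have hCfin : Module.Finite S C := IsIntegralClosure.finite S L K C
  have hCic : IsIntegrallyClosed C := integralClosure.isIntegrallyClosedOfFiniteExtension L
  obtain ⟨E₁, hE₁⟩ := exists_der_integralClosure (k := 𝕜) (S := S) (B := B) (K := K)
    (isUnit_natCast 𝕜 B) D₁
  obtain ⟨E₂, hE₂⟩ := exists_der_integralClosure (k := 𝕜) (S := S) (B := B) (K := K)
    (isUnit_natCast 𝕜 B) D₂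
  have hBC : ∀ b : B, algebraMap B K b ∈ C := fun b =>
    (Algebra.IsIntegral.isIntegral (R := S) b).map (IsScalarTower.toAlgHom S B K)
  let f : B →ₐ[S] C := (IsScalarTower.toAlgHom S B K).codRestrict C hBC
  have hf : ∀ b, ((f b : C) : K) = algebraMap B K b := fun b => rfl
  have hfE₁ : ∀ b, E₁ (f b) = f (D₁ b) := fun b => Subtype.ext (hE₁ b (hBC b))
  have hfE₂ : ∀ b, E₂ (f b) = f (D₂ b) := fun b => Subtype.ext (hE₂ b (hBC b))
  have hfinj : Function.Injective f := by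
    intro a b hab
    apply IsFractionRing.injective B K
    rw [← hf, ← hf, hab]
  let _ : Algebra B C := f.toRingHom.toAlgebra
  have hSBC : IsScalarTower S B C := .of_algebraMap_eq' f.comp_algebraMap.symm
  have hBCint : Algebra.IsIntegral B C := Algebra.IsIntegral.tower_top S
  have hfa : ∀ b, algebraMap B C b = f b := fun b => rfl
  have hSC : Function.Injective (algebraMap S C) := by
    rw [IsScalarTower.algebraMap_eq S B C]
    exact hfinj.comp hinj
  obtain ⟨q, -, hq, hqm⟩ := Ideal.exists_ideal_over_prime_of_isIntegral m (⊥ : Ideal C) (by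
    intro b hb
    have h1 : algebraMap B C b = 0 := hb
    have h2 : b = 0 := hfinj (by rw [← hfa, h1, map_zero])
    rw [h2]; exact zero_mem _)
  have hqmax : q.IsMaximal := Ideal.isMaximal_of_isIntegral_of_isMaximal_comap q (by rw [hqm]; infer_instance)
  have hq0 : q ≠ ⊥ := by
    rintro rfl
    apply hm0
    rw [← hqm, eq_bot_iff]
    intro b hb
    have h1 : algebraMap B C b = 0 := hb
    exact hfinj (by rw [← hfa, h1, map_zero])
  have hstab : ∀ (D : Derivation 𝕜 B B) (E : Derivation 𝕜 C C)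
      (_ : ∀ b : B, E (f b) = f (D b)) (_ : ∀ b ∈ m, D b ∈ m), ∀ c ∈ q, E c ∈ q := by
    intro D E hE hD
    have hmin : q ∈ ((q.under B).map (algebraMap B C)).minimalPrimes :=
      Ideal.IsIntegral.mem_minimalPrimes_map_under q
    have hqm' : q.under B = m := hqm
    rw [hqm'] at hmin
    refine stable_of_mem_minimalPrimes (R := 𝕜) (isUnit_natCast 𝕜 C) E ?_ hmin
    intro a ha
    induction ha using Submodule.span_induction with
    | mem a ha =>
      obtain ⟨b, hb, rfl⟩ := ha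
      rw [hfa, hE, ← hfa]
      exact Ideal.mem_map_of_mem _ (hD b hb)
    | zero => rw [map_zero]; exact zero_mem _
    | add a b _ _ ha hb => rw [map_add]; exact add_mem ha hb
    | smul t a hta ih =>
      rw [smul_eq_mul, Derivation.leibniz, smul_eq_mul, smul_eq_mul]
      exact add_mem (Ideal.mul_mem_left _ _ ih) (Ideal.mul_mem_right _ _ hta)
  have hgq : algebraMap S C g ∉ q := by
    intro h
    apply hg
    rw [← hqm]
    rw [IsScalarTower.algebraMap_apply S B C] at h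
    exact h
  have hclosed : ∀ (c : C) (n₁ n₂ : S), n₁ ≠ 0 → n₂ ≠ 0 → IsRelPrime n₁ n₂ →
      algebraMap S C n₁ ∣ c * algebraMap S C n₂ → algebraMap S C n₁ ∣ c := by
    rintro c n₁ n₂ h1 h2 h3 ⟨d, hd⟩
    have hSK : ∀ s : S, ((algebraMap S C s : C) : K) = algebraMap S K s := fun s => rfl
    have h4 : algebraMap S K n₁ ≠ 0 := by
      rw [Ne, FaithfulSMul.algebraMap_eq_zero_iff]
      exact h1
    let u : K := (c : K) / algebraMap S K n₁
    have h5 : algebraMap S K n₁ * u = c := by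
      change algebraMap S K n₁ * ((c : K) / algebraMap S K n₁) = c
      rw [mul_comm, div_mul_cancel₀ _ h4]
    have h6 : algebraMap S K n₂ * u = d := by
      have h7 := congrArg (fun z : C => (z : K)) hd
      have h8 : (c : K) * algebraMap S K n₂ = algebraMap S K n₁ * d := h7
      change algebraMap S K n₂ * ((c : K) / algebraMap S K n₁) = d
      rw [← mul_div_assoc, div_eq_iff h4]
      linear_combination h8
    have hu : IsIntegral S u := by
      refine isIntegral_of_relPrime (S := S) (L := L) (K := K)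
        (Algebra.IsIntegral.isIntegral u) h1 h2 h3 ?_ ?_
      · rw [h5]; exact c.2
      · rw [h6]; exact d.2
    refine ⟨⟨u, hu⟩, Subtype.ext ?_⟩
    change (c : K) = algebraMap S K n₁ * u
    exact h5.symm
  have hmin : ∀ n : S, algebraMap S B n ∈ minors D₁ D₂ → algebraMap S C n ∈ minors E₁ E₂ := by
    intro n hn
    have h3 := minors_map (algebraMap B C) D₁ D₂ E₁ E₂ hfE₁ hfE₂ hn
    rwa [← IsScalarTower.algebraMap_apply S B C] at h3
  exact exists_of_integrallyClosed hSC hxy hclosed E₁ E₂ q hq0 (hstab D₁ E₁ hfE₁ hD₁)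
    (hstab D₂ E₂ hfE₂ hD₂) g n₁ n₂ hgq hn₁ hn₂ hrel (hmin _ h₁) (hmin _ h₂)
end

end

/-- the polynomial ring in two variables -/
abbrev S2 (𝕜 : Type u) [Field 𝕜] := MvPolynomial (Fin 2) 𝕜

/-- an algebraic closure of the field of rational functions in two variables -/
abbrev Om (𝕜 : Type u) [Field 𝕜] := AlgebraicClosure (FractionRing (S2 𝕜))

namespace FieldMain

open MvPolynomial
def InL {n : ℕ} (b : Fin n → (Om 𝕜)) (v : (Om 𝕜)) : Prop :=
  ∃ (c0 : (S2 𝕜)) (c : Fin n → (S2 𝕜)), constantCoeff c0 = 0 ∧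
    v = algebraMap (S2 𝕜) (Om 𝕜) c0 + ∑ j, algebraMap (S2 𝕜) (Om 𝕜) (c j) * b j
theorem exists_of_field {n : ℕ} (b : Fin n → (Om 𝕜)) (D₁ D₂ : Derivation 𝕜 (Om 𝕜) (Om 𝕜))
    (hint : ∀ i, ∃ m : ℕ, 0 < m ∧ ∃ (c0 : (S2 𝕜)) (c : Fin n → (S2 𝕜)), constantCoeff c0 = 0 ∧
      (∀ j, i ≤ j → c j = 0) ∧ b i ^ m = algebraMap (S2 𝕜) (Om 𝕜) c0 + ∑ j, algebraMap (S2 𝕜) (Om 𝕜) (c j) * b j)
    (hx₁ : InL b (D₁ (algebraMap (S2 𝕜) (Om 𝕜) (X 0)))) (hr₁ : InL b (D₁ (algebraMap (S2 𝕜) (Om 𝕜) (X 1))))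
    (hb₁ : ∀ i, InL b (D₁ (b i)))
    (hx₂ : InL b (D₂ (algebraMap (S2 𝕜) (Om 𝕜) (X 0)))) (hr₂ : InL b (D₂ (algebraMap (S2 𝕜) (Om 𝕜) (X 1))))
    (hb₂ : ∀ i, InL b (D₂ (b i)))
    (g n₁ n₂ : (S2 𝕜)) (hg : constantCoeff g ≠ 0) (hn₁ : n₁ ≠ 0) (hn₂ : n₂ ≠ 0)
    (hrel : IsRelPrime n₁ n₂)
    (h₁ : ∃ c u v : (Om 𝕜), c ∈ Algebra.adjoin (S2 𝕜) (Set.range b) ∧
      u ∈ Algebra.adjoin (S2 𝕜) (Set.range b) ∧ v ∈ Algebra.adjoin (S2 𝕜) (Set.range b) ∧
      algebraMap (S2 𝕜) (Om 𝕜) (g * n₁) = c * (D₁ u * D₂ v - D₁ v * D₂ u))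
    (h₂ : ∃ c u v : (Om 𝕜), c ∈ Algebra.adjoin (S2 𝕜) (Set.range b) ∧
      u ∈ Algebra.adjoin (S2 𝕜) (Set.range b) ∧ v ∈ Algebra.adjoin (S2 𝕜) (Set.range b) ∧
      algebraMap (S2 𝕜) (Om 𝕜) (g * n₂) = c * (D₁ u * D₂ v - D₁ v * D₂ u)) :
    ∃ (A : Type u) (_ : CommRing A) (_ : Algebra 𝕜 A), IsCE 𝕜 A := by
  classical
  let R : Subalgebra (S2 𝕜) (Om 𝕜) := Algebra.adjoin (S2 𝕜) (Set.range b)
  have hbR : ∀ i, b i ∈ R := fun i => Algebra.subset_adjoin ⟨i, rfl⟩
  have hSR : ∀ s : (S2 𝕜), algebraMap (S2 𝕜) (Om 𝕜) s ∈ R := fun s => R.algebraMap_mem s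
  have hSOm : Function.Injective (algebraMap (S2 𝕜) (Om 𝕜)) := by
    rw [IsScalarTower.algebraMap_eq (S2 𝕜) (FractionRing (S2 𝕜)) (Om 𝕜)]
    exact (algebraMap (FractionRing (S2 𝕜)) (Om 𝕜)).injective.comp (IsFractionRing.injective (S2 𝕜) _)
  have hbint : ∀ i, IsIntegral (S2 𝕜) (b i) := by
    intro i
    induction i using WellFoundedLT.induction with
    | _ i ih =>
      obtain ⟨m, hm, c0, c, -, hc, hb⟩ := hint i
      refine IsIntegral.of_pow hm ?_
      rw [hb]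
      refine isIntegral_algebraMap.add (IsIntegral.sum _ fun j _ => ?_)
      by_cases hij : i ≤ j
      · rw [hc j hij, map_zero, zero_mul]
        exact isIntegral_zero
      · exact isIntegral_algebraMap.mul (ih j (not_le.1 hij))
  have hRfin : Module.Finite (S2 𝕜) R :=
    Algebra.finite_adjoin_of_finite_of_isIntegral (Set.finite_range b) (by
      rintro _ ⟨i, rfl⟩
      exact hbint i)
  have hinj : Function.Injective (algebraMap (S2 𝕜) R) := by
    intro s t hst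
    exact hSOm (congrArg Subtype.val hst)
  have hind : ∀ (p : (Om 𝕜) → Prop), (∀ z : 𝕜, p (algebraMap 𝕜 (Om 𝕜) z)) →
      p (algebraMap (S2 𝕜) (Om 𝕜) (X 0)) → p (algebraMap (S2 𝕜) (Om 𝕜) (X 1)) → (∀ i, p (b i)) →
      (∀ u ∈ R, ∀ v ∈ R, p u → p v → p (u + v)) → (∀ u ∈ R, ∀ v ∈ R, p u → p v → p (u * v)) →
      ∀ u ∈ R, p u := by
    intro p hz hX0 hX1 hb hadd hmul u hu
    have hpS : ∀ s : (S2 𝕜), p (algebraMap (S2 𝕜) (Om 𝕜) s) := by
      intro s
      induction s using MvPolynomial.induction_on with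
      | C z =>
        have := hz z
        rwa [IsScalarTower.algebraMap_apply 𝕜 (S2 𝕜) (Om 𝕜)] at this
      | add f g hf hg =>
        rw [map_add]
        exact hadd _ (hSR f) _ (hSR g) hf hg
      | mul_X f i hf =>
        rw [map_mul]
        refine hmul _ (hSR f) _ (hSR _) hf ?_
        fin_cases i
        · exact hX0
        · exact hX1
    induction hu using Algebra.adjoin_induction with
    | mem u hu =>
      obtain ⟨i, rfl⟩ := hu
      exact hb i
    | algebraMap s => exact hpS s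
    | add u v hu hv h1 h2 => exact hadd u hu v hv h1 h2
    | mul u v hu hv h1 h2 => exact hmul u hu v hv h1 h2
  let n0 : Ideal (S2 𝕜) := RingHom.ker (constantCoeff : (S2 𝕜) →+* 𝕜)
  have hn0 : n0.IsMaximal := RingHom.ker_isMaximal_of_surjective _ fun z => ⟨C z, by simp⟩
  obtain ⟨q, -, hq, hqn⟩ := Ideal.exists_ideal_over_prime_of_isIntegral n0 (⊥ : Ideal R) (by
    intro s hs
    have h3 : algebraMap (S2 𝕜) R s = 0 := hs
    have h4 : s = 0 := hinj (by rw [h3, map_zero])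
    rw [h4]
    exact zero_mem _)
  have hqmax : q.IsMaximal :=
    Ideal.isMaximal_of_isIntegral_of_isMaximal_comap q (by rw [hqn]; exact hn0)
  have hqS : ∀ s : (S2 𝕜), algebraMap (S2 𝕜) R s ∈ q ↔ constantCoeff s = 0 := by
    intro s
    have h3 : s ∈ q.comap (algebraMap (S2 𝕜) R) ↔ s ∈ n0 := by rw [hqn]
    exact h3
  have hmemq : ∀ (c0 : (S2 𝕜)) (c : Fin n → (S2 𝕜)), constantCoeff c0 = 0 →
      (∀ j, c j = 0 ∨ (⟨b j, hbR j⟩ : R) ∈ q) → ∀ (v : R),
      (v : (Om 𝕜)) = algebraMap (S2 𝕜) (Om 𝕜) c0 + ∑ j, algebraMap (S2 𝕜) (Om 𝕜) (c j) * b j → v ∈ q := by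
    intro c0 c h3 h4 v hv
    have h5 : v = algebraMap (S2 𝕜) R c0 + ∑ j, algebraMap (S2 𝕜) R (c j) * ⟨b j, hbR j⟩ := by
      apply Subtype.ext
      rw [hv]
      simp only [Subalgebra.coe_add, AddSubmonoidClass.coe_finsetSum, Subalgebra.coe_mul,
        Subalgebra.coe_algebraMap]
    rw [h5]
    refine add_mem ((hqS _).2 h3) (sum_mem fun j _ => ?_)
    rcases h4 j with h6 | h6
    · rw [h6, map_zero, zero_mul]
      exact zero_mem _
    · exact Ideal.mul_mem_left _ _ h6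
  have hbq : ∀ i, (⟨b i, hbR i⟩ : R) ∈ q := by
    intro i
    induction i using WellFoundedLT.induction with
    | _ i ih =>
      obtain ⟨m, hm, c0, c, hc0, hc, hb⟩ := hint i
      refine hq.mem_of_pow_mem m ?_
      refine hmemq c0 c hc0 (fun j => ?_) _ hb
      by_cases hij : i ≤ j
      · exact Or.inl (hc j hij)
      · exact Or.inr (ih j (not_le.1 hij))
  have hInL : ∀ v : (Om 𝕜), InL b v → ∃ hv : v ∈ R, (⟨v, hv⟩ : R) ∈ q := by
    rintro v ⟨c0, c, hc0, hv⟩
    have hvR : v ∈ R := by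
      rw [hv]
      exact add_mem (hSR _) (sum_mem fun j _ => mul_mem (hSR _) (hbR j))
    exact ⟨hvR, hmemq c0 c hc0 (fun j => Or.inr (hbq j)) ⟨v, hvR⟩ hv⟩
  have hres : ∀ D : Derivation 𝕜 (Om 𝕜) (Om 𝕜), InL b (D (algebraMap (S2 𝕜) (Om 𝕜) (X 0))) →
      InL b (D (algebraMap (S2 𝕜) (Om 𝕜) (X 1))) → (∀ i, InL b (D (b i))) →
      ∃ E : Derivation 𝕜 R R, (∀ a : R, ((E a : R) : (Om 𝕜)) = D a) ∧ ∀ a : R, E a ∈ q := by
    intro D hx hr hb
    have key : ∀ u ∈ R, ∃ hv : D u ∈ R, (⟨D u, hv⟩ : R) ∈ q := by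
      refine hind (fun u => ∃ hv : D u ∈ R, (⟨D u, hv⟩ : R) ∈ q) ?_ (hInL _ hx) (hInL _ hr)
        (fun i => hInL _ (hb i)) ?_ ?_
      · intro z
        have h3 : D (algebraMap 𝕜 (Om 𝕜) z) = 0 := D.map_algebraMap z
        refine ⟨by rw [h3]; exact zero_mem _, ?_⟩
        have h4 : (⟨D (algebraMap 𝕜 (Om 𝕜) z), by rw [h3]; exact zero_mem _⟩ : R) = 0 :=
          Subtype.ext h3
        rw [h4]
        exact zero_mem _
      · rintro u hu v hv ⟨h3, h3'⟩ ⟨h4, h4'⟩
        have h5 : D (u + v) = D u + D v := map_add D u v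
        refine ⟨by rw [h5]; exact add_mem h3 h4, ?_⟩
        have h6 : (⟨D (u + v), by rw [h5]; exact add_mem h3 h4⟩ : R) = ⟨D u, h3⟩ + ⟨D v, h4⟩ :=
          Subtype.ext h5
        rw [h6]
        exact add_mem h3' h4'
      · rintro u hu v hv ⟨h3, h3'⟩ ⟨h4, h4'⟩
        have h5 : D (u * v) = u * D v + v * D u := by
          rw [Derivation.leibniz, smul_eq_mul, smul_eq_mul]
        have h5' : D (u * v) ∈ R := by
          rw [h5]; exact add_mem (mul_mem hu h4) (mul_mem hv h3)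
        refine ⟨h5', ?_⟩
        have h6 : (⟨D (u * v), h5'⟩ : R) = ⟨u, hu⟩ * ⟨D v, h4⟩ + ⟨v, hv⟩ * ⟨D u, h3⟩ :=
          Subtype.ext h5
        rw [h6]
        exact add_mem (Ideal.mul_mem_left _ _ h4') (Ideal.mul_mem_left _ _ h3')
    choose hv hvq using key
    refine ⟨Derivation.mk'
      { toFun := fun a => ⟨D a, hv a a.2⟩
        map_add' := fun a c => Subtype.ext (map_add D (a : (Om 𝕜)) (c : (Om 𝕜)))
        map_smul' := fun z a => Subtype.ext (by
          have h3 : ((z • a : R) : (Om 𝕜)) = z • (a : (Om 𝕜)) := rfl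
          change D ((z • a : R) : (Om 𝕜)) = _
          rw [h3, D.map_smul]
          rfl) }
      (fun a c => Subtype.ext ?_), fun a => rfl, fun a => hvq a a.2⟩
    change D ((a * c : R) : (Om 𝕜)) = _
    have h3 : ((a * c : R) : (Om 𝕜)) = (a : (Om 𝕜)) * (c : (Om 𝕜)) := rfl
    rw [h3, Derivation.leibniz]
    rfl
  obtain ⟨E₁, hE₁, hE₁q⟩ := hres D₁ hx₁ hr₁ hb₁
  obtain ⟨E₂, hE₂, hE₂q⟩ := hres D₂ hx₂ hr₂ hb₂
  have hmin : ∀ s : (S2 𝕜), (∃ c u v : (Om 𝕜), c ∈ Algebra.adjoin (S2 𝕜) (Set.range b) ∧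
      u ∈ Algebra.adjoin (S2 𝕜) (Set.range b) ∧ v ∈ Algebra.adjoin (S2 𝕜) (Set.range b) ∧
      algebraMap (S2 𝕜) (Om 𝕜) s = c * (D₁ u * D₂ v - D₁ v * D₂ u)) →
      algebraMap (S2 𝕜) R s ∈ minors E₁ E₂ := by
    rintro s ⟨c, u, v, hc, hu, hv, h⟩
    have h3 : algebraMap (S2 𝕜) R s = ⟨c, hc⟩ * (E₁ ⟨u, hu⟩ * E₂ ⟨v, hv⟩ - E₁ ⟨v, hv⟩ * E₂ ⟨u, hu⟩) := by
      apply Subtype.ext
      rw [Subalgebra.coe_mul, Subalgebra.coe_sub, Subalgebra.coe_mul, Subalgebra.coe_mul, hE₁,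
        hE₁, hE₂, hE₂]
      exact h
    rw [h3]
    exact Ideal.mul_mem_left _ _ (minor_mem E₁ E₂ _ _)
  have hxy : Algebra.adjoin 𝕜 {(X 0 : (S2 𝕜)), X 1} = ⊤ := by
    have h3 := MvPolynomial.adjoin_range_X (R := 𝕜) (σ := Fin 2)
    rw [← h3]
    congr 1
    ext s
    constructor
    · rintro (rfl | rfl)
      · exact ⟨0, rfl⟩
      · exact ⟨1, rfl⟩
    · rintro ⟨i, rfl⟩
      fin_cases i
      · exact Or.inl rfl
      · exact Or.inr rfl
  have hq0 : q ≠ ⊥ := by
    intro h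
    have h3 : algebraMap (S2 𝕜) R (X 0) ∈ q := (hqS _).2 (by simp)
    rw [h, Ideal.mem_bot] at h3
    have h4 : (X 0 : (S2 𝕜)) = 0 := hinj (by rw [h3, map_zero])
    exact MvPolynomial.X_ne_zero (R := 𝕜) (0 : Fin 2) h4
  exact exists_of_domain hinj hxy E₁ E₂ q hq0 (fun a _ => hE₁q a) (fun a _ => hE₂q a)
    g n₁ n₂ (fun h => hg ((hqS g).1 h)) hn₁ hn₂ hrel (hmin _ h₁) (hmin _ h₂)

end FieldMain

end Vale.Agent.P266.H114.K
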