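import Mathlib
import Vale.Agent.P266.LZ.E3
import Vale.Agent.P266.LZ.E6
import Vale.Agent.P266.H114.K2

/-!
# P266 (helper114): the certificate of `LZ/E3.lean`, `LZ/E6.lean` over every field of
characteristic zero

The text follows `LZ/E3.lean` and `LZ/E6.lean` (files of the starting point, written over `ℂ`), with
`ℂ` replaced by an arbitrary field `𝕜` of characteristic zero. The numerical certificates have
integer coefficients and are taken from `LZ/E4.lean` - `LZ/E6.lean` without change.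
-/

universe u

namespace Vale.Agent.P266.H114.K

open Vale.Agent.P266.CE

section Ground

variable (𝕜 : Type u) [Field 𝕜]

open MvPolynomial

noncomputable def xK : (Om 𝕜) := algebraMap (S2 𝕜) (Om 𝕜) (X 0)
noncomputable def rK : (Om 𝕜) := algebraMap (S2 𝕜) (Om 𝕜) (X 1)
noncomputable def envK : ℕ → (S2 𝕜)
  | 0 => X 0
  | 1 => X 1
  | _ => 0

end Ground

variable {𝕜 : Type u} [Field 𝕜] [CharZero 𝕜]


section

open MvPolynomial

omit [CharZero 𝕜] in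
theorem algebraMap_S2_Om_injective : Function.Injective (algebraMap (S2 𝕜) (Om 𝕜)) := by
  rw [IsScalarTower.algebraMap_eq (S2 𝕜) (FractionRing (S2 𝕜)) (Om 𝕜)]
  exact (algebraMap (FractionRing (S2 𝕜)) (Om 𝕜)).injective.comp (IsFractionRing.injective (S2 𝕜) _)
omit [CharZero 𝕜] in
theorem ev_eq_algebraMap (e : E) (hv : e.vb 2 = true) (ρ : ℕ → (Om 𝕜)) (h0 : ρ 0 = (xK 𝕜))
    (h1 : ρ 1 = (rK 𝕜)) : e.ev ρ = algebraMap (S2 𝕜) (Om 𝕜) (e.ev (envK 𝕜)) := by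
  rw [map_ev]
  refine ev_congr 2 _ _ e hv fun i hi => ?_
  match i, hi with
  | 0, _ => exact h0
  | 1, _ => exact h1
theorem ev_envS_ne_zero (e : E) (hv : e.vb 2 = true) (pt : ℕ → ℤ) (h : e.evZ pt ≠ 0) :
    e.ev (envK 𝕜) ≠ 0 := by
  intro h2
  apply h
  have h3 := map_ev (MvPolynomial.eval (fun i : Fin 2 => ((pt i : ℤ) : 𝕜))) (envK 𝕜) e
  rw [h2, map_zero] at h3
  have h4 := map_ev (Int.castRingHom 𝕜) pt e
  have h5 : e.ev (fun i => (MvPolynomial.eval (fun i : Fin 2 => ((pt i : ℤ) : 𝕜))) ((envK 𝕜) i)) =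
      e.ev (fun i => (Int.castRingHom 𝕜) (pt i)) := by
    refine ev_congr 2 _ _ e hv fun i hi => ?_
    match i, hi with
    | 0, _ => simp [envK]
    | 1, _ => simp [envK]
  rw [← h5, ← h3] at h4
  rw [evZ_eq_ev]
  have h6 : ((e.ev pt : ℤ) : 𝕜) = 0 := h4
  exact_mod_cast h6
theorem ev_ne_zero (e : E) (hv : e.vb 2 = true) (pt : ℕ → ℤ) (h : e.evZ pt ≠ 0)
    (ρ : ℕ → (Om 𝕜)) (h0 : ρ 0 = (xK 𝕜)) (h1 : ρ 1 = (rK 𝕜)) : e.ev ρ ≠ 0 := by
  rw [ev_eq_algebraMap e hv ρ h0 h1]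
  intro h2
  exact ev_envS_ne_zero e hv pt h
    (algebraMap_S2_Om_injective (h2.trans (map_zero _).symm))
theorem exists_point (F P0 P1 Q0 Q1 b0 b1 : E) (κ : ℤ) (_hκ : κ ≠ 0)
    (hv : ∀ e ∈ [F, P0, P1, Q0, Q1, b0, b1], e.vb 2 = true)
    (pt : ℕ → ℤ) (hF : F.evZ pt ≠ 0)
    (hP : (E.sub (E.mul P0 P0) (E.mul F (E.mul P1 P1))).evZ pt ≠ 0)
    (hb : (E.sub (E.mul b0 b0) (E.mul F (E.mul b1 b1))).evZ pt ≠ 0)
    (hid : ∀ (k : Type u) [Field k] (ρ : ℕ → k), ρ 2 ^ 2 = F.ev ρ →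
      (Q0.ev ρ + Q1.ev ρ * ρ 2) ^ 2 - (P0.ev ρ + P1.ev ρ * ρ 2) ^ 3 =
        (κ : k) ^ 2 * ρ 1 ^ 2 * (b0.ev ρ + b1.ev ρ * ρ 2)) :
    ∃ z w h1 h2 : (Om 𝕜), BaseRel F P0 P1 Q0 Q1 b0 b1 κ (env (xK 𝕜) (rK 𝕜) z w h1 h2) ∧
      BaseRel F P0 P1 Q0 Q1 b0 b1 κ (env (xK 𝕜) (rK 𝕜) z (-w) h2 h1) ∧
      z ≠ 0 ∧ w ≠ 0 ∧ h1 ≠ 0 ∧ h2 ≠ 0 := by
  have hvF : F.vb 2 = true := hv F (by simp)
  have hvP0 : P0.vb 2 = true := hv P0 (by simp)
  have hvP1 : P1.vb 2 = true := hv P1 (by simp)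
  have hvQ0 : Q0.vb 2 = true := hv Q0 (by simp)
  have hvQ1 : Q1.vb 2 = true := hv Q1 (by simp)
  have hvb0 : b0.vb 2 = true := hv b0 (by simp)
  have hvb1 : b1.vb 2 = true := hv b1 (by simp)
  have hcongr : ∀ (e : E), e.vb 2 = true → ∀ z w h1 h2 : (Om 𝕜),
      e.ev (env (xK 𝕜) (rK 𝕜) z w h1 h2) = e.ev (env (xK 𝕜) (rK 𝕜) 0 0 0 0) := by
    intro e he z w h1 h2
    refine ev_congr 2 _ _ e he fun i hi => ?_
    match i, hi with
    | 0, _ => rfl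
    | 1, _ => rfl
  obtain ⟨z, hz⟩ := IsAlgClosed.exists_pow_nat_eq (F.ev (env (xK 𝕜) (rK 𝕜) 0 0 0 0)) (n := 2) (by norm_num)
  set f := F.ev (env (xK 𝕜) (rK 𝕜) 0 0 0 0) with hf
  set p0 := P0.ev (env (xK 𝕜) (rK 𝕜) 0 0 0 0) with hp0
  set p1 := P1.ev (env (xK 𝕜) (rK 𝕜) 0 0 0 0) with hp1
  set q0 := Q0.ev (env (xK 𝕜) (rK 𝕜) 0 0 0 0) with hq0
  set q1 := Q1.ev (env (xK 𝕜) (rK 𝕜) 0 0 0 0) with hq1
  set c0 := b0.ev (env (xK 𝕜) (rK 𝕜) 0 0 0 0) with hc0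
  set c1 := b1.ev (env (xK 𝕜) (rK 𝕜) 0 0 0 0) with hc1
  have hf0 : f ≠ 0 := ev_ne_zero F hvF pt hF _ rfl rfl
  have hz0 : z ≠ 0 := by
    rintro rfl
    exact hf0 (by rw [← hz]; simp)
  have hPn : p0 ^ 2 - f * p1 ^ 2 ≠ 0 := by
    have h := ev_ne_zero (E.sub (E.mul P0 P0) (E.mul F (E.mul P1 P1)))
      (by simp [E.vb, hvP0, hvP1, hvF]) pt hP (env (xK 𝕜) (rK 𝕜) 0 0 0 0) rfl rfl
    intro h2
    apply h
    simp only [E.ev]
    rw [← hf, ← hp0, ← hp1]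
    linear_combination h2
  have hbn : c0 ^ 2 - f * c1 ^ 2 ≠ 0 := by
    have h := ev_ne_zero (E.sub (E.mul b0 b0) (E.mul F (E.mul b1 b1)))
      (by simp [E.vb, hvb0, hvb1, hvF]) pt hb (env (xK 𝕜) (rK 𝕜) 0 0 0 0) rfl rfl
    intro h2
    apply h
    simp only [E.ev]
    rw [← hf, ← hc0, ← hc1]
    linear_combination h2
  have hP0 : p0 + p1 * z ≠ 0 := by
    intro h
    apply hPn
    rw [← hz]
    linear_combination (p0 - p1 * z) * h
  have hB0 : c0 + c1 * z ≠ 0 := by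
    intro h
    apply hbn
    rw [← hz]
    linear_combination (c0 - c1 * z) * h
  obtain ⟨w, hw⟩ := IsAlgClosed.exists_pow_nat_eq (c0 + c1 * z) (n := 2) (by norm_num)
  have hw0 : w ≠ 0 := by
    rintro rfl
    exact hB0 (by rw [← hw]; simp)
  have hid' : (q0 + q1 * z) ^ 2 - (p0 + p1 * z) ^ 3 = (κ : (Om 𝕜)) ^ 2 * (rK 𝕜) ^ 2 * (c0 + c1 * z) := by
    have h := hid (Om 𝕜) (env (xK 𝕜) (rK 𝕜) z w 0 0) (by
      rw [hcongr F hvF]
      exact hz)
    rw [hcongr Q0 hvQ0, hcongr Q1 hvQ1, hcongr P0 hvP0, hcongr P1 hvP1, hcongr b0 hvb0,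
      hcongr b1 hvb1] at h
    exact h
  have hT : (q0 + q1 * z + κ * (rK 𝕜) * w) * (q0 + q1 * z - κ * (rK 𝕜) * w) = (p0 + p1 * z) ^ 3 := by
    linear_combination hid' - (κ : (Om 𝕜)) ^ 2 * (rK 𝕜) ^ 2 * hw
  obtain ⟨h1, hh1⟩ := IsAlgClosed.exists_pow_nat_eq (q0 + q1 * z + κ * (rK 𝕜) * w) (n := 3)
    (by norm_num)
  have hT0 : q0 + q1 * z + κ * (rK 𝕜) * w ≠ 0 := by
    intro h
    rw [h, zero_mul] at hT
    exact hP0 (pow_eq_zero_iff (by norm_num) |>.1 hT.symm)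
  have hh10 : h1 ≠ 0 := by
    rintro rfl
    exact hT0 (by rw [← hh1]; simp)
  have hh2 : h1 * ((p0 + p1 * z) / h1) = p0 + p1 * z := mul_div_cancel₀ _ hh10
  set h2 := (p0 + p1 * z) / h1 with hh2def
  have hh20 : h2 ≠ 0 := by
    intro h
    rw [h, mul_zero] at hh2
    exact hP0 hh2.symm
  have hh23 : h2 ^ 3 = q0 + q1 * z - κ * (rK 𝕜) * w := by
    have h3 : h1 ^ 3 * h2 ^ 3 = h1 ^ 3 * (q0 + q1 * z - κ * (rK 𝕜) * w) := by
      rw [← mul_pow, hh2, hh1, hT]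
    exact mul_left_cancel₀ (pow_ne_zero 3 hh10) h3
  refine ⟨z, w, h1, h2, ⟨?_, ?_, ?_, ?_, ?_⟩, ⟨?_, ?_, ?_, ?_, ?_⟩, hz0, hw0, hh10, hh20⟩
  · rw [hcongr F hvF]; exact hz
  · rw [hcongr b0 hvb0, hcongr b1 hvb1]; exact hw
  · rw [hcongr P0 hvP0, hcongr P1 hvP1]; exact hh2
  · rw [hcongr Q0 hvQ0, hcongr Q1 hvQ1]; exact hh1
  · rw [hcongr Q0 hvQ0, hcongr Q1 hvQ1]; exact hh23
  · rw [hcongr F hvF]; exact hz
  · rw [hcongr b0 hvb0, hcongr b1 hvb1]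
    change (-w) ^ 2 = c0 + c1 * z
    rw [neg_sq]; exact hw
  · rw [hcongr P0 hvP0, hcongr P1 hvP1]
    change h2 * h1 = p0 + p1 * z
    rw [mul_comm]; exact hh2
  · rw [hcongr Q0 hvQ0, hcongr Q1 hvQ1]
    change h2 ^ 3 = q0 + q1 * z + κ * (rK 𝕜) * (-w)
    rw [hh23]; ring
  · rw [hcongr Q0 hvQ0, hcongr Q1 hvQ1]
    change h1 ^ 3 = q0 + q1 * z - κ * (rK 𝕜) * (-w)
    rw [hh1]; ring
variable (𝕜) in
theorem formallyEtale_Om : Algebra.FormallyEtale (S2 𝕜) (Om 𝕜) := by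
  have h1 : Algebra.FormallyEtale (S2 𝕜) (FractionRing (S2 𝕜)) :=
    Algebra.FormallyEtale.of_isLocalization (nonZeroDivisors (S2 𝕜))
  have h2 : Algebra.FormallyEtale (FractionRing (S2 𝕜)) (Om 𝕜) :=
    Algebra.FormallyEtale.of_isSeparable (FractionRing (S2 𝕜)) (Om 𝕜)
  exact Algebra.FormallyEtale.comp (S2 𝕜) (FractionRing (S2 𝕜)) (Om 𝕜)
theorem exists_der (X Y : (Om 𝕜)) : ∃ D : Derivation 𝕜 (Om 𝕜) (Om 𝕜), D (xK 𝕜) = X ∧ D (rK 𝕜) = Y := by
  have := formallyEtale_Om 𝕜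
  obtain ⟨D, hD⟩ := exists_der_ext 𝕜 (MvPolynomial.mkDerivation 𝕜 (A := (Om 𝕜)) (σ := Fin 2) ![X, Y])
  refine ⟨D, ?_, ?_⟩
  · rw [xK, hD, MvPolynomial.mkDerivation_X]; rfl
  · rw [rK, hD, MvPolynomial.mkDerivation_X]; rfl

end

section Closed

variable {F : Type u} [Field F] [CharZero F]

open MvPolynomial

omit [CharZero F] in
open E in
theorem exists_isIntegral {c : ℤ} {ρ : ℕ → F} (h0 : IsIntegral ℤ ((c : F) * ρ 0))
    (h1 : ∀ i, i ≠ 0 → IsIntegral ℤ (ρ i)) (e : E) :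
    ∃ N : ℕ, IsIntegral ℤ ((c : F) ^ N * e.ev ρ) := by
  have hc : ∀ N : ℕ, IsIntegral ℤ ((c : F) ^ N) := fun N => (isIntegral_algebraMap (x := c)).pow N
  induction e with
  | var i =>
    by_cases hi : i = 0
    · subst hi; exact ⟨1, by simpa [ev] using h0⟩
    · exact ⟨0, by simpa [ev] using h1 i hi⟩
  | const d => exact ⟨0, by simpa [ev] using (isIntegral_algebraMap (R := ℤ) (A := F) (x := d))⟩
  | add a b ha hb =>
    obtain ⟨N, hN⟩ := ha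
    obtain ⟨M, hM⟩ := hb
    refine ⟨N + M, ?_⟩
    have : (c : F) ^ (N + M) * (add a b).ev ρ =
        (c : F) ^ M * ((c : F) ^ N * a.ev ρ) + (c : F) ^ N * ((c : F) ^ M * b.ev ρ) := by
      rw [ev]; ring
    rw [this]
    exact ((hc M).mul hN).add ((hc N).mul hM)
  | sub a b ha hb =>
    obtain ⟨N, hN⟩ := ha
    obtain ⟨M, hM⟩ := hb
    refine ⟨N + M, ?_⟩
    have : (c : F) ^ (N + M) * (sub a b).ev ρ =
        (c : F) ^ M * ((c : F) ^ N * a.ev ρ) - (c : F) ^ N * ((c : F) ^ M * b.ev ρ) := by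
      rw [ev]; ring
    rw [this]
    exact ((hc M).mul hN).sub ((hc N).mul hM)
  | mul a b ha hb =>
    obtain ⟨N, hN⟩ := ha
    obtain ⟨M, hM⟩ := hb
    refine ⟨N + M, ?_⟩
    have : (c : F) ^ (N + M) * (mul a b).ev ρ =
        ((c : F) ^ N * a.ev ρ) * ((c : F) ^ M * b.ev ρ) := by
      rw [ev]; ring
    rw [this]
    exact hN.mul hM
  | pow a n ha =>
    obtain ⟨N, hN⟩ := ha
    refine ⟨N * n, ?_⟩
    have : (c : F) ^ (N * n) * (pow a n).ev ρ = ((c : F) ^ N * a.ev ρ) ^ n := by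
      rw [ev, mul_pow, pow_mul]
    rw [this]
    exact hN.pow n

theorem not_dvd_of_integral {p : ℕ} (hp : p.Prime) {c : ℤ} (hc : ¬ (p : ℤ) ∣ c) {u : F}
    (hu : IsIntegral ℤ u) {N : ℕ} (h : (p : F) * u = (c : F) ^ N) : False := by
  have hp0 : (p : F) ≠ 0 := Nat.cast_ne_zero.2 hp.ne_zero
  have hu' : u = algebraMap ℚ F ((c : ℚ) ^ N / (p : ℚ)) := by
    rw [map_div₀, map_pow]
    simp only [eq_ratCast, Rat.cast_intCast, Rat.cast_natCast]
    rw [eq_div_iff hp0, mul_comm]; exact h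
  have h1 : IsIntegral ℤ ((c : ℚ) ^ N / (p : ℚ)) := by
    rw [hu'] at hu
    exact (isIntegral_algebraMap_iff (algebraMap ℚ F).injective).1 hu
  obtain ⟨d, hd⟩ := IsIntegrallyClosed.isIntegral_iff.1 h1
  have hd' : (c : ℚ) ^ N = (d : ℚ) * (p : ℚ) := by
    have hp1 : (p : ℚ) ≠ 0 := Nat.cast_ne_zero.2 hp.ne_zero
    rw [← div_eq_iff hp1]; exact hd.symm
  have hd2 : c ^ N = d * (p : ℤ) := by exact_mod_cast hd'
  exact hc ((Nat.prime_iff_prime_int.1 hp).dvd_of_dvd_pow (Dvd.intro_left d hd2.symm))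

theorem isRelPrime_of_cert [IsAlgClosed F] (e₁ e₂ rest a b h : E) (m : ℕ) (lc y₀ : ℤ) (p : ℕ) (hp : p.Prime)
    (hlc : ¬ (p : ℤ) ∣ lc) (hrest : rest.deg 0 < m)
    (hv : ∀ e ∈ [e₁, e₂, rest, a, b, h], e.vb 2 = true)
    (h₁ : ∀ (R : Type u) [CommRing R] (ρ : ℕ → R), e₁.ev ρ = (lc : R) * ρ 0 ^ m + rest.ev ρ)
    (h₁' : ∀ (R : Type) [CommRing R] (ρ : ℕ → R), e₁.ev ρ = (lc : R) * ρ 0 ^ m + rest.ev ρ)
    (h₂ : ∀ (R : Type u) [CommRing R] (ρ : ℕ → R), ρ 1 = (y₀ : R) →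
      a.ev ρ * e₁.ev ρ + b.ev ρ * e₂.ev ρ = 1 + (p : R) * h.ev ρ)
    (ρ : ℕ → MvPolynomial (Fin 2) F) (hρ0 : ρ 0 = X 0) (hρ1 : ρ 1 = X 1) :
    IsRelPrime (e₁.ev ρ) (e₂.ev ρ) := by
  classical
  let ρ' : ℕ → MvPolynomial (Fin 2) F := fun i => if i = 0 then X 0 else X 1
  have hcong : ∀ e : E, e.vb 2 = true → e.ev ρ = e.ev ρ' := fun e he =>
    e.ev_congr he (fun i hi => by
      interval_cases i
      · exact hρ0
      · exact hρ1)
  rw [hcong e₁ (hv _ (by simp)), hcong e₂ (hv _ (by simp))]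
  let φ := MvPolynomial.finSuccEquiv F 1
  let τ : ℕ → Polynomial (MvPolynomial (Fin 1) F) :=
    fun i => if i = 0 then Polynomial.X else Polynomial.C (X 0)
  have hφ : ∀ e : E, φ (e.ev ρ') = e.ev τ := by
    intro e
    have := E.ev_map (φ : MvPolynomial (Fin 2) F →+* Polynomial (MvPolynomial (Fin 1) F)) ρ' e
    refine this.trans ?_
    congr 1
    funext i
    by_cases hi : i = 0
    · subst hi
      simp only [ρ', τ, if_true]
      exact MvPolynomial.finSuccEquiv_X_zero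
    · simp only [ρ', τ, if_neg hi]
      exact MvPolynomial.finSuccEquiv_X_succ (j := 0)
  have hτ1 : ∀ i, i ≠ 0 → (τ i).natDegree = 0 := fun i hi => by
    simp only [τ, if_neg hi, Polynomial.natDegree_C]
  have hτ0 : (τ 0).natDegree ≤ 1 := by simp only [τ, if_true]; exact Polynomial.natDegree_X_le
  have hlc0 : lc ≠ 0 := fun h0 => hlc (h0 ▸ dvd_zero _)
  set f := e₁.ev τ with hf
  have hfm : f = Polynomial.C ((lc : MvPolynomial (Fin 1) F)) * Polynomial.X ^ m + rest.ev τ := by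
    rw [hf, h₁ _ τ]
    simp only [τ, if_true, Polynomial.C_eq_intCast]
  have hdr : (rest.ev τ).natDegree < m := (E.natDegree_le τ hτ0 hτ1 rest).trans_lt hrest
  have hlcT : ((lc : MvPolynomial (Fin 1) F)) ≠ 0 := by
    exact_mod_cast hlc0
  have hfc : f.coeff m = (lc : MvPolynomial (Fin 1) F) := by
    rw [hfm, Polynomial.coeff_add, Polynomial.coeff_C_mul_X_pow, if_pos rfl,
      Polynomial.coeff_eq_zero_of_natDegree_lt hdr, add_zero]
  have hfd : f.natDegree = m := by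
    apply le_antisymm
    · rw [hfm]
      exact (Polynomial.natDegree_add_le _ _).trans
        (max_le (Polynomial.natDegree_C_mul_X_pow_le _ _) hdr.le)
    · exact Polynomial.le_natDegree_of_ne_zero (by rw [hfc]; exact hlcT)
  have hunit : IsUnit (lc : MvPolynomial (Fin 1) F) := by
    have : (lc : MvPolynomial (Fin 1) F) = MvPolynomial.C (lc : F) := by simp
    rw [this]
    exact (IsUnit.mk0 (lc : F) (by exact_mod_cast hlc0)).map MvPolynomial.C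
  intro d hd1 hd2
  have hD1 : φ d ∣ f := by
    rw [hf, ← hφ e₁]; exact map_dvd φ hd1
  have hD2 : φ d ∣ e₂.ev τ := by
    rw [← hφ e₂]; exact map_dvd φ hd2
  have hlu : IsUnit (φ d).leadingCoeff := by
    obtain ⟨q, hq⟩ := hD1
    have : f.leadingCoeff = (φ d).leadingCoeff * q.leadingCoeff := by
      rw [hq, Polynomial.leadingCoeff_mul]
    have hfl : f.leadingCoeff = (lc : MvPolynomial (Fin 1) F) := by
      rw [Polynomial.leadingCoeff, hfd, hfc]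
    rw [hfl] at this
    exact isUnit_of_mul_isUnit_left (this ▸ hunit)
  let ψ : MvPolynomial (Fin 1) F →+* F := MvPolynomial.eval (fun _ => (y₀ : F))
  have hmapdeg : ((φ d).map ψ).natDegree = (φ d).natDegree :=
    Polynomial.natDegree_map_of_leadingCoeff_ne_zero ψ (hlu.map ψ).ne_zero
  suffices hz : (φ d).natDegree = 0 by
    have h3 : φ d = Polynomial.C (φ d).leadingCoeff := by
      conv_lhs => rw [Polynomial.eq_C_of_natDegree_eq_zero hz]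
      rw [Polynomial.leadingCoeff, hz]
    have h4 : IsUnit (φ d) := by rw [h3]; exact hlu.map Polynomial.C
    have h5 := h4.map φ.symm
    rwa [AlgEquiv.symm_apply_apply] at h5
  by_contra hne
  obtain ⟨θ, hθ⟩ := IsAlgClosed.exists_root ((φ d).map ψ) (by
    intro h0
    apply hne
    rw [← hmapdeg]
    exact Polynomial.natDegree_eq_zero_iff_degree_le_zero.2 h0.le)
  have hθ0 : ((φ d).map ψ).eval θ = 0 := hθ
  let χ : Polynomial (MvPolynomial (Fin 1) F) →+* F := Polynomial.eval₂RingHom ψ θ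
  have hχd : χ (φ d) = 0 := by
    simpa [χ, Polynomial.eval_map] using hθ0
  let σ : ℕ → F := fun i => if i = 0 then θ else (y₀ : F)
  have hχ : ∀ e : E, χ (e.ev τ) = e.ev σ := by
    intro e
    refine (E.ev_map χ τ e).trans ?_
    congr 1
    funext i
    by_cases hi : i = 0
    · subst hi; simp [τ, σ, χ]
    · simp [τ, σ, χ, ψ, hi]
  have z1 : e₁.ev σ = 0 := by
    rw [← hχ, ← hf]
    obtain ⟨q, hq⟩ := hD1
    rw [hq, map_mul, hχd, zero_mul]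
  have z2 : e₂.ev σ = 0 := by
    rw [← hχ]
    obtain ⟨q, hq⟩ := hD2
    rw [hq, map_mul, hχd, zero_mul]
  have hid := h₂ F σ (by simp [σ])
  rw [z1, z2, mul_zero, mul_zero, add_zero] at hid
  have hint : IsIntegral ℤ ((lc : F) * σ 0) := by
    have hm : 0 < m := Nat.lt_of_le_of_lt (Nat.zero_le _) hrest
    let τZ : ℕ → Polynomial ℤ := fun i => if i = 0 then Polynomial.X else Polynomial.C y₀
    have hz1 : ∀ i, i ≠ 0 → (τZ i).natDegree = 0 := fun i hi => by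
      simp only [τZ, if_neg hi, Polynomial.natDegree_C]
    have hz0 : (τZ 0).natDegree ≤ 1 := by
      simp only [τZ, if_true]; exact Polynomial.natDegree_X_le
    have hq : e₁.ev τZ = Polynomial.C lc * Polynomial.X ^ m + rest.ev τZ := by
      rw [h₁' _ τZ]; simp only [τZ, if_true]
      congr 1
    have hqr : (rest.ev τZ).natDegree < m := (E.natDegree_le τZ hz0 hz1 rest).trans_lt hrest
    have hqc : (e₁.ev τZ).coeff m = lc := by
      rw [hq, Polynomial.coeff_add, Polynomial.coeff_C_mul_X_pow, if_pos rfl,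
        Polynomial.coeff_eq_zero_of_natDegree_lt hqr, add_zero]
    have hqd : (e₁.ev τZ).natDegree = m := by
      apply le_antisymm
      · rw [hq]
        exact (Polynomial.natDegree_add_le _ _).trans
          (max_le (Polynomial.natDegree_C_mul_X_pow_le _ _) hqr.le)
      · exact Polynomial.le_natDegree_of_ne_zero (by rw [hqc]; exact hlc0)
    have hql : (e₁.ev τZ).leadingCoeff = lc := by rw [Polynomial.leadingCoeff, hqd, hqc]
    have hroot : Polynomial.aeval θ (e₁.ev τZ) = 0 := by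
      have h6 := E.ev_map ((Polynomial.aeval θ : Polynomial ℤ →ₐ[ℤ] F) : Polynomial ℤ →+* F) τZ e₁
      refine (h6.trans ?_).trans z1
      congr 1
      funext i
      by_cases hi : i = 0
      · subst hi; simp [τZ, σ]
      · simp [τZ, σ, hi]
    have h7 := isIntegral_leadingCoeff_smul (e₁.ev τZ) θ hroot
    rw [hql] at h7
    simpa [σ, zsmul_eq_mul] using h7
  obtain ⟨N, hN⟩ := exists_isIntegral hint (fun i hi => by
    simp only [σ, if_neg hi]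
    exact isIntegral_algebraMap (R := ℤ) (A := F) (x := y₀)) h
  refine not_dvd_of_integral hp hlc hN.neg (N := N) ?_
  linear_combination ((lc : F) ^ N) * hid
theorem isRelPrime_of_check [IsAlgClosed F] (e₁ e₂ rest a b h : E) (m : ℕ) (lc y₀ : ℤ) (p : ℕ) (hp : p.Prime)
    (hlc : lc % (p : ℤ) ≠ 0) (k₁ k₂ : ℕ) (D₁ D₂ : List ℕ)
    (hb : (Nat.blt (rest.deg 0) m && (e₁.vb 2 && (e₂.vb 2 && (rest.vb 2 &&
      (a.vb 2 && (b.vb 2 && h.vb 2)))))) = true)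
    (c₁ : E.check k₁ D₁
      (.sub e₁ (.add (.mul (.const lc) (.pow (.var 0) m)) rest)) = true)
    (c₂ : E.check k₂ D₂
      (.sub (.add (.mul a (E.spec y₀ e₁)) (.mul b (E.spec y₀ e₂)))
        (.add (.const 1) (.mul (.const (p : ℤ)) h))) = true)
    (ρ : ℕ → MvPolynomial (Fin 2) F) (hρ0 : ρ 0 = X 0) (hρ1 : ρ 1 = X 1) :
    IsRelPrime (e₁.ev ρ) (e₂.ev ρ) := by
  simp only [Bool.and_eq_true] at hb
  obtain ⟨hb0, hb1, hb2, hb3, hb4, hb5, hb6⟩ := hb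
  refine isRelPrime_of_cert e₁ e₂ rest a b h m lc y₀ p hp
    (fun hd => hlc (Int.emod_eq_zero_of_dvd hd)) (by simpa [Nat.blt] using hb0) ?_ ?_ ?_ ?_ ρ hρ0 hρ1
  · intro e he
    simp only [List.mem_cons, List.not_mem_nil, or_false] at he
    rcases he with rfl | rfl | rfl | rfl | rfl | rfl <;> assumption
  · intro R _ σ
    have := E.ev_eq_zero c₁ σ
    simp only [E.ev] at this
    linear_combination this
  · intro R _ σ
    have := E.ev_eq_zero c₁ σ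
    simp only [E.ev] at this
    linear_combination this
  · intro R _ σ hσ
    have := E.ev_eq_zero c₂ σ
    simp only [E.ev, E.ev_spec y₀ σ hσ] at this
    push_cast at this
    linear_combination this

end Closed

section Descent

open MvPolynomial

omit [CharZero 𝕜] in
/-- coprimality descends along an extension of fields -/
theorem isRelPrime_of_map {F : Type*} [Field F] [Algebra 𝕜 F] {p q : (S2 𝕜)}
    (h : IsRelPrime (map (algebraMap 𝕜 F) p) (map (algebraMap 𝕜 F) q)) : IsRelPrime p q := by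
  intro d hd1 hd2
  have hu := h (map_dvd (map (algebraMap 𝕜 F)) hd1) (map_dvd (map (algebraMap 𝕜 F)) hd2)
  rw [MvPolynomial.isUnit_iff_eq_C_of_isReduced] at hu
  obtain ⟨r, hr, hd⟩ := hu
  have hinj := map_injective (σ := Fin 2) (algebraMap 𝕜 F) (algebraMap 𝕜 F).injective
  have h1 : d = C (coeff 0 d) := by
    ext m
    rw [coeff_C]
    split_ifs with hm
    · rw [← hm]
    · apply (algebraMap 𝕜 F).injective
      rw [← coeff_map, hd, coeff_C, if_neg hm, map_zero]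
  have h2 : coeff 0 d ≠ 0 := by
    intro h0
    rw [h1, h0, C_0, map_zero] at hd
    have h3 : r = 0 := C_injective (Fin 2) F (by rw [← hd, C_0])
    exact hr.ne_zero h3
  rw [h1]
  exact (IsUnit.mk0 _ h2).map C

end Descent

section

open MvPolynomial Vale.Agent.P266.CE.E

omit [CharZero 𝕜] in
theorem envS_zero : (envK 𝕜) 0 = X 0 := rfl
omit [CharZero 𝕜] in
theorem envS_one : (envK 𝕜) 1 = X 1 := rfl
omit [CharZero 𝕜] in
theorem envS_add_two (n : ℕ) : (envK 𝕜) (n + 2) = 0 := rfl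
omit [CharZero 𝕜] in
theorem algebraMap_ev {A : Type*} [CommRing A] [Algebra (S2 𝕜) A] (e : E) (hv : e.vb 2 = true)
    (ρ : ℕ → A) (h0 : ρ 0 = algebraMap (S2 𝕜) A (X 0)) (h1 : ρ 1 = algebraMap (S2 𝕜) A (X 1)) :
    algebraMap (S2 𝕜) A (e.ev (envK 𝕜)) = e.ev ρ := by
  induction e with
  | var i =>
    have h1 : i < 2 := by simpa [vb, Nat.blt] using hv
    rcases (by omega : i = 0 ∨ i = 1) with rfl | rfl
    · simp [ev, envS_zero, h0]
    · simp [ev, envS_one, *]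
  | const c => simp [ev]
  | add a b ha hb =>
    simp only [vb, Bool.and_eq_true] at hv
    simp [ev, ha hv.1, hb hv.2]
  | sub a b ha hb =>
    simp only [vb, Bool.and_eq_true] at hv
    simp [ev, ha hv.1, hb hv.2]
  | mul a b ha hb =>
    simp only [vb, Bool.and_eq_true] at hv
    simp [ev, ha hv.1, hb hv.2]
  | pow a n ha =>
    simp only [vb] at hv
    simp [ev, ha hv]
omit [CharZero 𝕜] in
theorem constantCoeff_ev (e : E) :
    constantCoeff (e.ev (envK 𝕜)) = ((e.evZ (fun _ => 0) : ℤ) : 𝕜) := by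
  induction e with
  | var i =>
    match i with
    | 0 => simp [ev, envS_zero, evZ]
    | 1 => simp [ev, envS_one, evZ]
    | n + 2 => simp [ev, envS_add_two, evZ]
  | const c => simp [ev, evZ]
  | add a b ha hb => simp only [ev, evZ, map_add, ha, hb]; exact (Int.cast_add _ _).symm
  | sub a b ha hb => simp only [ev, evZ, map_sub, ha, hb]; exact (Int.cast_sub _ _).symm
  | mul a b ha hb => simp only [ev, evZ, map_mul, ha, hb]; exact (Int.cast_mul _ _).symm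
  | pow a n ha => simp only [ev, evZ, map_pow, ha]; exact (Int.cast_pow _ _).symm
omit [CharZero 𝕜] in
theorem exists_of_inLB {n : ℕ} (b : ℕ → (Om 𝕜)) (hb : b 0 = 1) {ρ : ℕ → (Om 𝕜)} (h0 : ρ 0 = (xK 𝕜))
    (h1 : ρ 1 = (rK 𝕜)) {v : List E} (hv : inLB (n + 1) v = true) :
    ∃ (c0 : (S2 𝕜)) (c : Fin n → (S2 𝕜)), constantCoeff c0 = 0 ∧
      (∀ j : Fin n, v.length ≤ j + 1 → c j = 0) ∧
      lin ρ b v 0 = algebraMap (S2 𝕜) (Om 𝕜) c0 + ∑ j, algebraMap (S2 𝕜) (Om 𝕜) (c j) * b (j + 1) := by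
  simp only [inLB, Bool.and_eq_true, decide_eq_true_eq] at hv
  obtain ⟨hl, hv, hz⟩ := hv
  have hl' : v.length ≤ n + 1 := Nat.le_of_ble_eq_true hl
  refine ⟨(v.getD 0 (const 0)).ev (envK 𝕜), fun j => (v.getD (j + 1) (const 0)).ev (envK 𝕜), ?_, ?_, ?_⟩
  · rw [constantCoeff_ev, hz, Int.cast_zero]
  · intro j hj
    have : v.getD (j + 1) (const 0) = const 0 := by
      rw [List.getD_eq_getElem?_getD, List.getElem?_eq_none hj]; rfl
    change (v.getD (j + 1) (const 0)).ev (envK 𝕜) = 0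
    rw [this]; simp [ev]
  · rw [lin_eq_sum ρ b v (n + 1) 0 hl', Finset.sum_range_succ', add_comm]
    congr 1
    · rw [algebraMap_ev _ (vb_getD hv 0) ρ h0 h1]
      simp [hb]
    · rw [Finset.sum_range]
      refine Finset.sum_congr rfl fun j _ => ?_
      rw [algebraMap_ev _ (vb_getD hv _) ρ h0 h1, zero_add]
omit [CharZero 𝕜] in
theorem inL_of_inLB {n : ℕ} (b : ℕ → (Om 𝕜)) (hb : b 0 = 1) {ρ : ℕ → (Om 𝕜)} (h0 : ρ 0 = (xK 𝕜))
    (h1 : ρ 1 = (rK 𝕜)) {v : List E} (hv : inLB (n + 1) v = true) {a : (Om 𝕜)}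
    (ha : a = lin ρ b v 0) :
    FieldMain.InL (fun j : Fin n => b (j + 1)) a := by
  obtain ⟨c0, c, h, _, h'⟩ := exists_of_inLB b hb h0 h1 hv
  exact ⟨c0, c, h, ha.trans h'⟩

end

section

open MvPolynomial Vale.Agent.P266.CE.E Vale.Agent.P266.CE.Dat

omit [CharZero 𝕜] in
theorem inL_neg {n : ℕ} {b : Fin n → (Om 𝕜)} {v : (Om 𝕜)} (h : FieldMain.InL b v) :
    FieldMain.InL b (-v) := by
  obtain ⟨c0, c, h0, hv⟩ := h
  refine ⟨-c0, fun j => - c j, by rw [map_neg, h0, neg_zero], ?_⟩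
  rw [hv, map_neg, neg_add, ← Finset.sum_neg_distrib]
  congr 1
  refine Finset.sum_congr rfl fun j _ => ?_
  rw [map_neg, neg_mul]
variable (𝕜) in
structure Full (d : Dat) (m : Mats) (t : DD) (q : ℕ → KB) (x4 x5 x6 x7 y4 y5 y6 y7 U0 U1 : E)
    (cb : ℕ → List E) (qw : KB) : Prop where
  hX : t.X = nv x4 x5 x6 x7
  hY : t.Y = nv y4 y5 y6 y7
  vbs : d.vbs = true
  κ0 : d.κ ≠ 0
  μ0 : d.μ ≠ 0
  ν0 : d.ν ≠ 0
  mats : ∀ (ρ : ℕ → (Om 𝕜)), d.Sat ρ → d.Dn.ev ρ ≠ 0 → d.MatsOK m ρ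
  dok : d.DOK m t q
  tX : vecTest t.X = true
  tY : vecTest t.Y = true
  tv : ∀ i < 12, vecTest (t.v i) = true
  cub : ∀ (ρ : ℕ → (Om 𝕜)), d.MatsOK m ρ → d.BasFacts ρ → ρ 1 ≠ 0 → ∀ i, 4 ≤ i → i < 12 →
    d.bas ρ i ^ 3 = lin ρ (d.bas ρ) (cb i) 0
  cbt : ∀ i, 4 ≤ i → i < 12 → and (inLB 12 (cb i)) (Nat.ble (cb i).length 4) = true
  ckw : Dat.ckw d m qw U0 (mul U1 d.F) x4 x5 x6 x7 y4 y5 y6 y7 = true
  vU0 : U0.vb 2 = true
  vU1 : U1.vb 2 = true
  F0 : d.F.evZ (fun _ => 0) = 0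
  b00 : d.b0.evZ (fun _ => 0) = 0
  U00 : (nrmE d.F U0 U1).evZ (fun _ => 0) ≠ 0
  pF : ∃ pt : ℕ → ℤ, pt 1 ≠ 0 ∧ d.F.evZ pt ≠ 0 ∧ (nrmE d.F d.P0 d.P1).evZ pt ≠ 0 ∧
    (nrmE d.F d.b0 d.b1).evZ pt ≠ 0
  id0 : ∀ {K : Type u} [Field K] (ρ : ℕ → K), d.Q0.ev ρ ^ 2 + d.F.ev ρ * d.Q1.ev ρ ^ 2 -
    (d.P0.ev ρ ^ 3 + 3 * d.P0.ev ρ * d.P1.ev ρ ^ 2 * d.F.ev ρ) =
      (d.κ : K) ^ 2 * ρ 1 ^ 2 * d.b0.ev ρ
  id1 : ∀ {K : Type u} [Field K] (ρ : ℕ → K), 2 * d.Q0.ev ρ * d.Q1.ev ρ -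
    (3 * d.P0.ev ρ ^ 2 * d.P1.ev ρ + d.P1.ev ρ ^ 3 * d.F.ev ρ) =
      (d.κ : K) ^ 2 * ρ 1 ^ 2 * d.b1.ev ρ
  n1 : (n1E d).ev (envK 𝕜) ≠ 0
  n2 : (n2E d).ev (envK 𝕜) ≠ 0
  rel : IsRelPrime ((n1E d).ev (envK 𝕜)) ((n2E d).ev (envK 𝕜))
theorem exists_of_full
    (hder : ∀ X Y : (Om 𝕜), ∃ D : Derivation 𝕜 (Om 𝕜) (Om 𝕜), D (xK 𝕜) = X ∧ D (rK 𝕜) = Y)
    {d : Dat} {m : Mats} {t : DD} {q : ℕ → KB} {x4 x5 x6 x7 y4 y5 y6 y7 U0 U1 : E}
    {cb : ℕ → List E} {qw : KB}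
    (h : Full 𝕜 d m t q x4 x5 x6 x7 y4 y5 y6 y7 U0 U1 cb qw) :
    ∃ (A : Type u) (_ : CommRing A) (_ : Algebra 𝕜 A), IsCE 𝕜 A := by
  obtain ⟨pt, hpt1, hptF, hptP, hptb⟩ := h.pF
  have hvbs := h.vbs
  simp only [Dat.vbs, Bool.and_eq_true] at hvbs
  obtain ⟨vF, vb0, vb1, vP0, vP1, vQ0, vQ1, vu0, vu1, vv0, vv1⟩ := hvbs
  obtain ⟨z, w, h1, h2, R1, -, hz, hw, hh1, hh2⟩ := exists_point (𝕜 := 𝕜) d.F d.P0 d.P1 d.Q0 d.Q1 d.b0
    d.b1 d.κ h.κ0 (by
      intro e he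
      simp only [List.mem_cons, List.not_mem_nil, or_false] at he
      rcases he with rfl | rfl | rfl | rfl | rfl | rfl | rfl <;> assumption) pt hptF hptP hptb
      (by
        intro K _ ρ hz
        linear_combination h.id0 ρ + ρ 2 * h.id1 ρ +
          (d.Q1.ev ρ ^ 2 - 3 * d.P0.ev ρ * d.P1.ev ρ ^ 2 - d.P1.ev ρ ^ 3 * ρ 2) * hz)
  set ρ : ℕ → (Om 𝕜) := env (xK 𝕜) (rK 𝕜) z w h1 h2 with hρ
  have hsat : d.Sat ρ := by
    refine ⟨?_, ?_, ?_, ?_, ?_⟩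
    · have := R1.z
      simp only [Dat.Rz, ev]
      linear_combination this
    · have := R1.w
      simp only [Dat.Rw, ev]
      linear_combination this
    · have := R1.P
      simp only [Dat.RP, ev]
      linear_combination this
    · have := R1.h1
      simp only [Dat.R1, ev]
      linear_combination this
    · have := R1.h2
      simp only [Dat.R2, ev]
      linear_combination this
  have hr : ρ 1 ≠ 0 := ev_ne_zero (var 1) rfl pt hpt1 ρ rfl rfl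
  have hsat' : d.Sat (swp ρ) := sat_swp h.vbs hsat
  have hDn : ∀ σ : ℕ → (Om 𝕜), σ 1 ≠ 0 → d.Dn.ev σ ≠ 0 := by
    intro σ hσ
    have hμ' : ((d.μ : ℤ) : (Om 𝕜)) ≠ 0 := by exact_mod_cast h.μ0
    have hν' : ((d.ν : ℤ) : (Om 𝕜)) ≠ 0 := by exact_mod_cast h.ν0
    exact mul_ne_zero (mul_ne_zero hμ' hν') (pow_ne_zero _ hσ)
  have hm : d.MatsOK m ρ := h.mats ρ hsat (hDn ρ hr)
  have hm' : d.MatsOK m (swp ρ) := h.mats (swp ρ) hsat' (hDn _ hr)
  have hB : d.BasFacts ρ := d.basFacts h.μ0 h.ν0 hr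
  obtain ⟨D₁, hD₁x, hD₁r⟩ := hder (lin ρ (d.bas ρ) t.X 0) (lin ρ (d.bas ρ) t.Y 0)
  obtain ⟨D₂, hD₂x, hD₂r⟩ := hder (lin (swp ρ) (d.bas (swp ρ)) t.X 0)
    (lin (swp ρ) (d.bas (swp ρ)) t.Y 0)
  have hDb₁ : ∀ i, D₁ (d.bas ρ i) = lin ρ (d.bas ρ) (t.v i) 0 :=
    d.D_bas hsat hm h.dok h.μ0 h.ν0 hr hz hw hh1 D₁ hD₁x hD₁r
  have hw' : swp ρ 3 ≠ 0 := neg_ne_zero.2 hw
  have hDb₂ : ∀ i, D₂ (d.bas (swp ρ) i) = lin (swp ρ) (d.bas (swp ρ)) (t.v i) 0 :=
    d.D_bas hsat' hm' h.dok h.μ0 h.ν0 hr hz hw' hh2 D₂ hD₂x hD₂r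
  have hlen : ∀ v : List E, inLB 12 v = true → v.length ≤ 12 ∧ vAll v = true := by
    intro v hv
    simp only [inLB, Bool.and_eq_true, decide_eq_true_eq] at hv
    exact ⟨Nat.le_of_ble_eq_true hv.1, hv.2.1⟩
  have hsw : ∀ v : List E, inLB 12 v = true →
      lin (swp ρ) (d.bas (swp ρ)) v 0 = lin ρ (d.bas ρ) (swv v) 0 := fun v hv =>
    lin_swv h.vbs h.μ0 h.ν0 hr (hlen v hv).1 (hlen v hv).2
  let b : Fin 11 → (Om 𝕜) := fun j => d.bas ρ (j + 1)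
  have hL : ∀ v : List E, inLB 12 v = true → ∀ a, a = lin ρ (d.bas ρ) v 0 →
      FieldMain.InL b a := fun v hv a ha =>
    inL_of_inLB (n := 11) (d.bas ρ) hB.b0 (ρ := ρ) rfl rfl hv ha
  have tX := h.tX
  have tY := h.tY
  simp only [vecTest, Bool.and_eq_true] at tX tY
  have hv12 : ∀ i < 12, inLB 12 (t.v i) = true ∧ inLB 12 (swv (t.v i)) = true := by
    intro i hi
    have := h.tv i hi
    simpa only [vecTest, Bool.and_eq_true] using this
  have hb₁ : ∀ j : Fin 11, FieldMain.InL b (D₁ (b j)) := fun j =>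
    hL _ (hv12 (j + 1) (by omega)).1 _ (hDb₁ _)
  have hs₂ : ∀ i < 12, FieldMain.InL b (D₂ (d.bas (swp ρ) i)) := fun i hi =>
    hL _ (hv12 i hi).2 _ ((hDb₂ i).trans (hsw _ (hv12 i hi).1))
  obtain ⟨s0, s1, s2, s3, s4, s5, s6, s7, s8, s9, s10, s11⟩ :=
    bas_swp h.vbs h.μ0 h.ν0 hr
  have hb₂ : ∀ j : Fin 11, FieldMain.InL b (D₂ (b j)) := by
    intro j
    have e1 : FieldMain.InL b (D₂ (d.bas ρ 1)) := by rw [← s1]; exact hs₂ 1 (by norm_num)
    have e2 : FieldMain.InL b (D₂ (d.bas ρ 2)) := by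
      have := inL_neg (hs₂ 2 (by norm_num))
      rwa [s2, map_neg, neg_neg] at this
    have e3 : FieldMain.InL b (D₂ (d.bas ρ 3)) := by
      have := inL_neg (hs₂ 3 (by norm_num))
      rwa [s3, map_neg, neg_neg] at this
    have e4 : FieldMain.InL b (D₂ (d.bas ρ 4)) := by rw [← s8]; exact hs₂ 8 (by norm_num)
    have e5 : FieldMain.InL b (D₂ (d.bas ρ 5)) := by rw [← s9]; exact hs₂ 9 (by norm_num)
    have e6 : FieldMain.InL b (D₂ (d.bas ρ 6)) := by rw [← s10]; exact hs₂ 10 (by norm_num)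
    have e7 : FieldMain.InL b (D₂ (d.bas ρ 7)) := by rw [← s11]; exact hs₂ 11 (by norm_num)
    have e8 : FieldMain.InL b (D₂ (d.bas ρ 8)) := by rw [← s4]; exact hs₂ 4 (by norm_num)
    have e9 : FieldMain.InL b (D₂ (d.bas ρ 9)) := by rw [← s5]; exact hs₂ 5 (by norm_num)
    have e10 : FieldMain.InL b (D₂ (d.bas ρ 10)) := by rw [← s6]; exact hs₂ 6 (by norm_num)
    have e11 : FieldMain.InL b (D₂ (d.bas ρ 11)) := by rw [← s7]; exact hs₂ 7 (by norm_num)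
    match j with
    | 0 => exact e1
    | 1 => exact e2
    | 2 => exact e3
    | 3 => exact e4
    | 4 => exact e5
    | 5 => exact e6
    | 6 => exact e7
    | 7 => exact e8
    | 8 => exact e9
    | 9 => exact e10
    | 10 => exact e11
  have hint : ∀ i : Fin 11, ∃ k : ℕ, 0 < k ∧ ∃ (c0 : (S2 𝕜)) (c : Fin 11 → (S2 𝕜)),
      constantCoeff c0 = 0 ∧ (∀ j, i ≤ j → c j = 0) ∧
      b i ^ k = algebraMap (S2 𝕜) (Om 𝕜) c0 + ∑ j, algebraMap (S2 𝕜) (Om 𝕜) (c j) * b j := by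
    have gen : ∀ (i : Fin 11) (k : ℕ) (v : List E), 0 < k → inLB 12 v = true →
        v.length ≤ i + 1 → d.bas ρ (i + 1) ^ k = lin ρ (d.bas ρ) v 0 →
        ∃ k : ℕ, 0 < k ∧ ∃ (c0 : (S2 𝕜)) (c : Fin 11 → (S2 𝕜)),
          constantCoeff c0 = 0 ∧ (∀ j, i ≤ j → c j = 0) ∧
          b i ^ k = algebraMap (S2 𝕜) (Om 𝕜) c0 + ∑ j, algebraMap (S2 𝕜) (Om 𝕜) (c j) * b j := by
      intro i k v hk hv hl he
      obtain ⟨c0, c, h0, h1, h2⟩ := exists_of_inLB (n := 11) (d.bas ρ) hB.b0 (ρ := ρ) rfl rfl hv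
      refine ⟨k, hk, c0, c, h0, fun j hj => h1 j ?_, he.trans h2⟩
      have : (i : ℕ) ≤ j := hj
      omega
    have rz : z ^ 2 = d.F.ev ρ := R1.z
    have rw' : w ^ 2 = d.b0.ev ρ + d.b1.ev ρ * z := R1.w
    intro i
    by_cases hi : 3 ≤ (i : ℕ)
    · have := h.cbt (i + 1) (by omega) (by omega)
      simp only [Bool.and_eq_true] at this
      refine gen i 3 (cb (i + 1)) (by norm_num) this.1 ?_
        (h.cub ρ hm hB hr (i + 1) (by omega) (by omega))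
      have := Nat.le_of_ble_eq_true this.2
      omega
    · match i, hi with
      | 0, _ =>
        refine gen 0 2 [d.F] (by norm_num) ?_ (by simp) ?_
        · simp [inLB, vAll, vF, h.F0]
        · change d.bas ρ 1 ^ 2 = _
          rw [hB.b1]
          simp only [lin, hB.b0, mul_one, add_zero]
          exact rz
      | 1, _ =>
        refine gen 1 2 [d.b0, d.b1] (by norm_num) ?_ (by simp) ?_
        · simp [inLB, vAll, vb0, vb1, h.b00]
        · change d.bas ρ 2 ^ 2 = _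
          rw [hB.b2]
          simp only [lin, hB.b0, mul_one, add_zero, hB.b1, zero_add]
          exact rw'
      | 2, _ =>
        refine gen 2 2 [mul d.F d.b0, mul d.F d.b1] (by norm_num) ?_ (by simp) ?_
        · have : (mul d.F d.b0).evZ (fun _ => 0) = 0 := by
            change Int.mul _ _ = 0
            rw [h.F0]
            exact Int.zero_mul _
          simp [inLB, vAll, vb, vb0, vb1, vF, this]
        · change d.bas ρ 3 ^ 2 = _
          rw [hB.b3]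
          simp only [lin, hB.b0, mul_one, add_zero, hB.b1, zero_add, ev]
          change (z * w) ^ 2 = d.F.ev ρ * d.b0.ev ρ + d.F.ev ρ * d.b1.ev ρ * z
          linear_combination w ^ 2 * rz + d.F.ev ρ * rw'
      | ⟨n + 3, hn⟩, hi => exact absurd (by simp) hi
  have hJ : D₁ (xK 𝕜) * D₂ (rK 𝕜) - D₁ (rK 𝕜) * D₂ (xK 𝕜) = (U0.ev ρ + U1.ev ρ * z) * z * w := by
    have := wedge_of_ckw hm hB h.μ0 hr h.ckw
    rw [← h.hX, ← h.hY, ← hsw _ tY.1, ← hsw _ tX.1, ← hD₁x, ← hD₁r, ← hD₂x, ← hD₂r] at this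
    rw [this]
    have rz : z ^ 2 = d.F.ev ρ := R1.z
    change U1.ev ρ * d.F.ev ρ * w + U0.ev ρ * (z * w) = _
    linear_combination (- U1.ev ρ * w) * rz
  have hF : ∀ D : Derivation 𝕜 (Om 𝕜) (Om 𝕜), 2 * z * D z =
      (pd 0 d.F).ev ρ * D (xK 𝕜) + (pd 1 d.F).ev ρ * D (rK 𝕜) := by
    intro D
    have rz : z ^ 2 = d.F.ev ρ := R1.z
    have e := congrArg D rz
    rw [D.leibniz_pow, derivation_ev, dv_two _ _ _ vF] at e
    simp only [smul_eq_mul, nsmul_eq_mul] at e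
    push_cast at e
    change _ = (pd 0 d.F).ev ρ * D (xK 𝕜) + (pd 1 d.F).ev ρ * D (rK 𝕜) at e
    linear_combination e
  have hW : ∀ D : Derivation 𝕜 (Om 𝕜) (Om 𝕜), 2 * w * D w =
      ((pd 0 d.b0).ev ρ + (pd 0 d.b1).ev ρ * z) * D (xK 𝕜) +
        ((pd 1 d.b0).ev ρ + (pd 1 d.b1).ev ρ * z) * D (rK 𝕜) + d.b1.ev ρ * D z := by
    intro D
    have rw' : w ^ 2 = d.b0.ev ρ + d.b1.ev ρ * z := R1.w
    have e := congrArg D rw'
    rw [D.leibniz_pow, map_add, D.leibniz, derivation_ev, derivation_ev, dv_two _ _ _ vb0,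
      dv_two _ _ _ vb1] at e
    simp only [smul_eq_mul, nsmul_eq_mul] at e
    push_cast at e
    change _ = (pd 0 d.b0).ev ρ * D (xK 𝕜) + (pd 1 d.b0).ev ρ * D (rK 𝕜) + (d.b1.ev ρ * D z +
      z * ((pd 0 d.b1).ev ρ * D (xK 𝕜) + (pd 1 d.b1).ev ρ * D (rK 𝕜))) at e
    linear_combination e
  have hJw : 4 * (D₁ (xK 𝕜) * D₂ w - D₁ w * D₂ (xK 𝕜)) =
      ((alE d).ev ρ + (beE d).ev ρ * z) * (U0.ev ρ + U1.ev ρ * z) := by
    apply mul_left_cancel₀ (mul_ne_zero hz hw)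
    have rz : z ^ 2 = d.F.ev ρ := R1.z
    have a1 := hF D₁
    have a2 := hF D₂
    have c1 := hW D₁
    have c2 := hW D₂
    simp only [alE, beE, ev]
    push_cast
    linear_combination (2 * z * D₁ (xK 𝕜)) * c2 - (2 * z * D₂ (xK 𝕜)) * c1 +
      (d.b1.ev ρ * D₁ (xK 𝕜)) * a2 - (d.b1.ev ρ * D₂ (xK 𝕜)) * a1 +
      (2 * z * ((pd 1 d.b0).ev ρ + (pd 1 d.b1).ev ρ * z) + d.b1.ev ρ * (pd 1 d.F).ev ρ) * hJ +
      (2 * (pd 1 d.b1).ev ρ * (U0.ev ρ + U1.ev ρ * z) * z * w) * rz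
  have mS : ∀ e : E, e.vb 2 = true → e.ev ρ ∈ Algebra.adjoin (S2 𝕜) (Set.range b) := by
    intro e he
    rw [← algebraMap_ev e he ρ rfl rfl]
    exact Subalgebra.algebraMap_mem _ _
  have mz' : z ∈ Algebra.adjoin (S2 𝕜) (Set.range b) :=
    Algebra.subset_adjoin ⟨0, hB.b1⟩
  have mw' : w ∈ Algebra.adjoin (S2 𝕜) (Set.range b) :=
    Algebra.subset_adjoin ⟨1, hB.b2⟩
  have v1 : (n1E d).vb 2 = true := by simp [n1E, nrmE, vb, vF, vb0, vb1]
  have val : (alE d).vb 2 = true := by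
    simp [alE, vb, vF, vb1, vb_pd vb1, vb_pd vF]
  have vbe : (beE d).vb 2 = true := by simp [beE, vb, vb_pd vb0]
  have v2 : (n2E d).vb 2 = true := by simp [n2E, vb, vF, val, vbe]
  have vg : (nrmE d.F U0 U1).vb 2 = true := by simp [nrmE, vb, vF, h.vU0, h.vU1]
  have rz : z ^ 2 = d.F.ev ρ := R1.z
  have rw' : w ^ 2 = d.b0.ev ρ + d.b1.ev ρ * z := R1.w
  refine FieldMain.exists_of_field b D₁ D₂ hint (hL _ tX.1 _ hD₁x) (hL _ tY.1 _ hD₁r) hb₁
    (hL _ tX.2 _ (hD₂x.trans (hsw _ tX.1))) (hL _ tY.2 _ (hD₂r.trans (hsw _ tY.1))) hb₂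
    ((nrmE d.F U0 U1).ev (envK 𝕜)) ((n1E d).ev (envK 𝕜)) ((n2E d).ev (envK 𝕜)) ?_ h.n1 h.n2 h.rel ?_ ?_
  · rw [constantCoeff_ev]
    exact_mod_cast h.U00
  · refine ⟨(U0.ev ρ - U1.ev ρ * z) * z * w * (d.b0.ev ρ - d.b1.ev ρ * z), (xK 𝕜), (rK 𝕜), ?_, ?_, ?_,
      ?_⟩
    · exact mul_mem (mul_mem (mul_mem (sub_mem (mS _ h.vU0) (mul_mem (mS _ h.vU1) mz')) mz') mw')
        (sub_mem (mS _ vb0) (mul_mem (mS _ vb1) mz'))
    · exact Subalgebra.algebraMap_mem _ _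
    · exact Subalgebra.algebraMap_mem _ _
    · rw [map_mul, algebraMap_ev _ vg ρ rfl rfl, algebraMap_ev _ v1 ρ rfl rfl, hJ]
      simp only [nrmE, n1E, ev]
      rw [← rz]
      linear_combination (-((U0.ev ρ) ^ 2 - (U1.ev ρ) ^ 2 * z ^ 2) * z ^ 2 *
        (d.b0.ev ρ - d.b1.ev ρ * z)) * rw'
  · refine ⟨4 * (U0.ev ρ - U1.ev ρ * z) * ((alE d).ev ρ - (beE d).ev ρ * z), (xK 𝕜), w, ?_, ?_, mw',
      ?_⟩
    · refine mul_mem (mul_mem ?_ (sub_mem (mS _ h.vU0) (mul_mem (mS _ h.vU1) mz')))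
        (sub_mem (mS _ val) (mul_mem (mS _ vbe) mz'))
      have : (4 : (Om 𝕜)) = (const 4).ev ρ := by simp [ev]
      rw [this]
      exact mS _ rfl
    · exact Subalgebra.algebraMap_mem _ _
    · rw [map_mul, algebraMap_ev _ vg ρ rfl rfl, algebraMap_ev _ v2 ρ rfl rfl]
      simp only [nrmE, n2E, ev]
      rw [← rz]
      linear_combination (-(U0.ev ρ - U1.ev ρ * z) * ((alE d).ev ρ - (beE d).ev ρ * z)) * hJw

end

section

open MvPolynomial Vale.Agent.P266.CE.E Vale.Agent.P266.CE.Dat Vale.Agent.P266.CE.M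

theorem rel : IsRelPrime ((n1E dat).ev (envK 𝕜)) ((n2E dat).ev (envK 𝕜)) := by
  have h1 : IsRelPrime ((n1E dat).ev (envK (AlgebraicClosure 𝕜)))
      ((n2E dat).ev (envK (AlgebraicClosure 𝕜))) :=
    (isRelPrime_of_check (n2E dat) (n1E dat) rpRest rpA rpB rpH 14 53345241104390753353514377690870976841485475072017551110083406964058211669442560000 1 13
      (by norm_num) (by decide +kernel) 879 885 [15, 22] [28]
      (by decide +kernel) (by decide +kernel) (by decide +kernel) _ rfl rfl).symm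
  have h2 : ∀ e : E, e.ev (envK (AlgebraicClosure 𝕜)) =
      map (algebraMap 𝕜 (AlgebraicClosure 𝕜)) (e.ev (envK 𝕜)) := by
    intro e
    rw [map_ev]
    congr 1
    funext i
    match i with
    | 0 => exact (map_X _ _).symm
    | 1 => exact (map_X _ _).symm
    | n + 2 => exact (map_zero _).symm
  rw [h2, h2] at h1
  exact isRelPrime_of_map h1

theorem full : Full 𝕜 dat mats dd qq x4 x5 x6 x7 y4 y5 y6 y7 U0 U1 cb ⟨2625, [17, 22]⟩ where
  hX := rfl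
  hY := rfl
  vbs := vbs_ok
  κ0 := by decide +kernel
  μ0 := by decide +kernel
  ν0 := by decide +kernel
  mats := fun ρ hs hD =>
    ⟨dat.isMat hs hD 2 mats.Mz cofMz _ _ okMz, dat.isMat hs hD 3 mats.Mw cofMw _ _ okMw,
      dat.isMat hs hD 4 mats.M1 cofM1 _ _ okM1, dat.isMat hs hD 5 mats.M2 cofM2 _ _ okM2⟩
  dok := dok
  tX := tX_ok
  tY := tY_ok
  tv := fun i hi => tv_ok ⟨i, hi⟩
  cub := by
    intro ρ hm hB hr i h4 h12
    have hμ : ((dat.μ : ℤ) : (Om 𝕜)) ≠ 0 := by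
      have : dat.μ ≠ 0 := by decide +kernel
      exact_mod_cast this
    have hμr : (mul (const dat.μ) (var 1)).ev ρ ≠ 0 := mul_ne_zero hμ hr
    have h1 : (const 1).ev ρ ≠ 0 := by simp [ev]
    have hμ' : (const dat.μ).ev ρ ≠ 0 := hμ
    interval_cases i
    · refine cube_of_cub hB (fun v => ?_) h1 cub4
      rw [lin_app hm.h1, hB.b4]; simp [ev]
    · exact cube_of_cub hB (fun v => lin_opg1 hm hB v) hμ' cub5
    · exact cube_of_cub hB (fun v => lin_opx1 hm hB v) hμr cub6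
    · exact cube_of_cub hB (fun v => lin_opz1 hm hB v) hμr cub7
    · refine cube_of_cub hB (fun v => ?_) h1 cub8
      rw [lin_app hm.h2, hB.b8]; simp [ev]
    · exact cube_of_cub hB (fun v => lin_opg2 hm hB v) hμ' cub9
    · exact cube_of_cub hB (fun v => lin_opx2 hm hB v) hμr cub10
    · exact cube_of_cub hB (fun v => lin_opz2 hm hB v) hμr cub11
  cbt := fun i h4 h12 => cbt_ok ⟨i, h12⟩ h4
  ckw := ckw_ok
  vU0 := by decide +kernel
  vU1 := by decide +kernel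
  F0 := by decide +kernel
  b00 := by decide +kernel
  U00 := by decide +kernel
  pF := ⟨fun _ => 1, by decide +kernel, by decide +kernel, by decide +kernel, by decide +kernel⟩
  id0 := by
    intro K _ ρ
    have := E.ev_eq_zero id0_ok ρ
    simp only [ev] at this
    have hκ : ((dat.κ : ℤ) : K) = 1 := by
      rw [show dat.κ = 1 from rfl]; norm_num
    rw [hκ]
    push_cast at this
    linear_combination this
  id1 := by
    intro K _ ρ
    have := E.ev_eq_zero id1_ok ρ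
    simp only [ev] at this
    have hκ : ((dat.κ : ℤ) : K) = 1 := by
      rw [show dat.κ = 1 from rfl]; norm_num
    rw [hκ]
    push_cast at this
    linear_combination this
  n1 := ev_envS_ne_zero _ (by decide +kernel) (fun _ => 1) (by decide +kernel)
  n2 := ev_envS_ne_zero _ (by decide +kernel) (fun _ => 1) (by decide +kernel)
  rel := rel
theorem main : ∃ (A : Type u) (_ : CommRing A) (_ : Algebra 𝕜 A), IsCE 𝕜 A :=
  exists_of_full exists_der (full (𝕜 := 𝕜))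

end

end Vale.Agent.P266.H114.K
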