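import Mathlib
import Vale.Agent.P266.Bdl.B2
import Vale.Agent.P266.Bdl.B1

/-!
# P266 (helper114): Lipman's theorem and dimension at most one

A copy, in a namespace of its own, of the parts of `Vale/Agent/P266/Bdl/B3.lean` (a file of the
starting point) that prove Lipman's theorem and the smoothness of normal domains of dimension at
most one. The copy is needed because `Bdl/B3.lean` and `LZ/E2.lean` declare the same names and
cannot be imported together.
-/

set_option linter.all false

namespace Vale.Agent.P266.H114.Lip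

section Main

variable {k A : Type*} [Field k] [CharZero k] [CommRing A] [IsDomain A] [Algebra k A]
  [Algebra.FiniteType k A]
  (K₀ K : Type*) [Field K₀] [Field K] [Algebra A K] [IsFractionRing A K] [Algebra K₀ K]

omit [CharZero k] [IsDomain A] in
/-- finiteness of the function field -/
lemma finiteDimensional_of_integral {B L : Type*} [CommRing B] [IsDomain B] [Field L]
    [Algebra B L] [IsFractionRing B L] [Algebra L K] [Algebra B K] [IsScalarTower B L K]
    (hk : ∀ c : k, algebraMap A K (algebraMap k A c) ∈ (algebraMap L K).range)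
    (hA : ∀ a : A, IsIntegral B (algebraMap A K a)) : FiniteDimensional L K := by
  classical
  obtain ⟨S, hS⟩ := (Algebra.FiniteType.out (R := k) (A := A))
  let F := IntermediateField.adjoin L (algebraMap A K '' (S : Set A))
  have hF : FiniteDimensional L F := by
    have : Finite (algebraMap A K '' (S : Set A)) := (S.finite_toSet.image _).to_subtype
    refine IntermediateField.finiteDimensional_adjoin fun x hx => ?_
    obtain ⟨a, _, rfl⟩ := hx
    exact (hA a).tower_top
  have hAF : ∀ a : A, algebraMap A K a ∈ F := by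
    intro a
    have ha : a ∈ Algebra.adjoin k (S : Set A) := by rw [hS]; trivial
    induction ha using Algebra.adjoin_induction with
    | mem x hx => exact IntermediateField.subset_adjoin _ _ ⟨x, hx, rfl⟩
    | algebraMap r =>
      obtain ⟨l, hl⟩ := hk r
      rw [← hl]
      exact F.algebraMap_mem l
    | add x y _ _ hx hy => rw [map_add]; exact F.add_mem hx hy
    | mul x y _ _ hx hy => rw [map_mul]; exact F.mul_mem hx hy
  have htop : F = ⊤ := by
    rw [eq_top_iff]
    rintro x -
    obtain ⟨a, b, hb, rfl⟩ := IsFractionRing.div_surjective (A := A) x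
    exact F.div_mem (hAF a) (hAF b)
  rw [htop] at hF
  exact Module.Finite.equiv (IntermediateField.topEquiv (F := L) (E := K)).toLinearEquiv

end Main

end Vale.Agent.P266.H114.Lip

section

/-!
# P266: normal domains of dimension at most one are smooth in characteristic zero
-/

namespace Vale.Agent.P266.H114.Lip

open Polynomial

universe u

section

variable (k : Type u) {A : Type u} [Field k] [CharZero k] [CommRing A] [IsDomain A]
    [Algebra k A] [Algebra.FiniteType k A] [IsIntegrallyClosed A]

omit [IsIntegrallyClosed A] in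
/-- smoothness at the generic point -/
theorem isSmoothAt_bot (q : Ideal A) [q.IsPrime] (hq : q = ⊥) : Algebra.IsSmoothAt k q := by
  subst hq
  have h1 : IsFractionRing A (Localization.AtPrime (⊥ : Ideal A)) := by
    have h2 : (⊥ : Ideal A).primeCompl = nonZeroDivisors A := by
      ext x
      rw [mem_nonZeroDivisors_iff_ne_zero]
      simp [Ideal.primeCompl]
    rw [IsFractionRing, ← h2]
    infer_instance
  let _ : Field (Localization.AtPrime (⊥ : Ideal A)) := IsFractionRing.toField A
  have : Algebra.EssFiniteType k (Localization.AtPrime (⊥ : Ideal A)) :=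
    Algebra.EssFiniteType.comp k A _
  exact Algebra.FormallySmooth.of_perfectField

theorem smooth_of_krullDimLE_one [Ring.KrullDimLE 1 A] : Algebra.Smooth k A := by
  have hN : IsNoetherianRing A := Algebra.FiniteType.isNoetherianRing k A
  have hfp : Algebra.FinitePresentation k A := Algebra.FinitePresentation.of_finiteType.1 inferInstance
  refine ⟨Algebra.smoothLocus_eq_univ_iff.1 (Set.eq_univ_iff_forall.2 fun q => ?_), hfp⟩
  change Algebra.IsSmoothAt k q.asIdeal
  by_cases hq : q.asIdeal = ⊥
  · exact isSmoothAt_bot k q.asIdeal hq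
  have hqm : q.asIdeal.IsMaximal := q.2.isMaximal_of_ne_bot hq
  have hdd : IsDedekindDomain A := by
    have h1 : Ring.DimensionLEOne A := ⟨fun hp hp' => hp'.isMaximal_of_ne_bot hp⟩
    have h2 : IsDedekindRing A := (isDedekindRing_iff A (FractionRing A)).2
      ⟨hN, h1, (isIntegrallyClosed_iff (FractionRing A)).1 inferInstance⟩
    infer_instance
  set m := q.asIdeal with hm
  have hdvr : IsDiscreteValuationRing (Localization.AtPrime m) :=
    IsLocalization.AtPrime.isDiscreteValuationRing_of_dedekind_domain A hq _
  -- a uniformizer coming from `A`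
  obtain ⟨t, ht⟩ : ∃ t : A, Irreducible (algebraMap A (Localization.AtPrime m) t) := by
    obtain ⟨π, hπ⟩ := IsDiscreteValuationRing.exists_irreducible (Localization.AtPrime m)
    obtain ⟨x, y, rfl⟩ := IsLocalization.exists_mk'_eq m.primeCompl π
    refine ⟨x, ?_⟩
    rw [← IsLocalization.mk'_spec (Localization.AtPrime m) x y]
    exact (irreducible_mul_isUnit (IsLocalization.map_units _ y)).2 hπ
  have htm : t ∈ m := by
    by_contra h
    exact ht.not_isUnit ((IsLocalization.AtPrime.isUnit_to_map_iff _ m t).2 h)
  have ht0 : t ≠ 0 := by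
    rintro rfl
    exact ht.ne_zero (map_zero _)
  let _ : Algebra k[X] A := (aeval t : k[X] →ₐ[k] A).toAlgebra
  have hmap : ∀ p : k[X], algebraMap k[X] A p = aeval t p := fun p => rfl
  have hst : IsScalarTower k k[X] A := IsScalarTower.of_algebraMap_eq fun c => by
    rw [hmap, Polynomial.algebraMap_apply, Algebra.algebraMap_self_apply, aeval_C]
  have hft : Algebra.FiniteType k[X] A := Algebra.FiniteType.of_restrictScalars_finiteType k _ _
  have hfp' : Algebra.FinitePresentation k[X] A := Algebra.FinitePresentation.of_finiteType.1 hft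
  have hinj : Function.Injective (algebraMap k[X] A) := by
    rw [injective_iff_map_eq_zero]
    intro p hp
    by_contra hp0
    have h1 : IsAlgebraic k t := ⟨p, hp0, hp⟩
    have h2 : IsUnit t := h1.isIntegral.isUnit ht0
    exact hqm.ne_top (Ideal.eq_top_of_isUnit_mem _ htm h2)
  have htf : Module.IsTorsionFree k[X] A := by
    rw [Module.isTorsionFree_iff_algebraMap_injective]
    exact hinj
  have hflat : Module.Flat k[X] A := inferInstance
  -- the prime below
  let p : Ideal k[X] := m.under k[X]
  have hXp : (X : k[X]) ∈ p := by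
    change algebraMap k[X] A X ∈ m
    rw [hmap, aeval_X]
    exact htm
  let _ := Localization.AtPrime.algebraOfLiesOver p m
  have hunr : Algebra.IsUnramifiedAt k[X] m := by
    rw [Algebra.isUnramifiedAt_iff_map_eq k[X] p m]
    constructor
    · have h1 : Algebra.FiniteType k m.ResidueField := by
        have : Algebra.FiniteType A m.ResidueField := inferInstance
        exact Algebra.FiniteType.trans (S := A) inferInstance this
      have h2 : Module.Finite k m.ResidueField := finite_of_finite_type_of_isJacobsonRing _ _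
      have h3 : CharZero p.ResidueField :=
        charZero_of_injective_algebraMap (algebraMap k p.ResidueField).injective
      have h4 : Algebra.IsAlgebraic p.ResidueField m.ResidueField :=
        Algebra.IsAlgebraic.tower_top (K := k) p.ResidueField
      infer_instance
    · apply le_antisymm
      · rw [Ideal.map_le_iff_le_comap]
        intro x hx
        rw [Ideal.mem_comap, IsScalarTower.algebraMap_apply k[X] A (Localization.AtPrime m),
          IsLocalization.AtPrime.to_map_mem_maximal_iff _ m]
        exact hx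
      · rw [ht.maximalIdeal_eq, Ideal.span_singleton_le_iff_mem]
        have h5 : algebraMap A (Localization.AtPrime m) t =
            algebraMap k[X] (Localization.AtPrime m) X := by
          rw [IsScalarTower.algebraMap_apply k[X] A (Localization.AtPrime m), hmap, aeval_X]
        rw [h5]
        exact Ideal.mem_map_of_mem _ hXp
  have het : Algebra.FormallyEtale k[X] (Localization.AtPrime m) :=
    Algebra.IsEtaleAt.of_isUnramifiedAt_of_flat m
  exact Algebra.FormallySmooth.comp k k[X] (Localization.AtPrime m)

/-- T4: a normal domain of finite type and dimension at most one is smooth over `k`. -/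
theorem smooth_of_dim_le_one (h : ringKrullDim A ≤ 1) : Algebra.Smooth k A := by
  have : Ring.KrullDimLE 1 A := Ring.krullDimLE_iff.2 h
  exact smooth_of_krullDimLE_one k

end

end Vale.Agent.P266.H114.Lip
end

section

/-!
# P266: derivations extend to the integral closure, minimal primes of stable ideals are stable
-/

namespace Vale.Agent.P266.H114.Lip

open Polynomial

theorem deriv_iterate_pow_mul {S : Type*} [CommRing S] (D : S → S)
    (hadd : ∀ a b, D (a + b) = D a + D b) (hmul : ∀ a b, D (a * b) = a * D b + b * D a) (u : S) :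
    ∀ (m n : ℕ) (y : S), m ≤ n → ∃ w, D^[m] (u ^ n * y) =
      (n.descFactorial m : S) * u ^ (n - m) * (D u) ^ m * y + u ^ (n - m + 1) * w := by
  have hpow : ∀ n : ℕ, D (u ^ (n + 1)) = ((n + 1 : ℕ) : S) * u ^ n * D u := by
    intro n
    induction n with
    | zero => simp
    | succ n ih =>
      rw [pow_succ, hmul, ih]
      push_cast
      ring
  have hit : ∀ (m : ℕ) (a b : S), D^[m] (a + b) = D^[m] a + D^[m] b := by
    intro m
    induction m with
    | zero => intro a b; rfl
    | succ m ih =>
      intro a b
      rw [Function.iterate_succ_apply, Function.iterate_succ_apply, Function.iterate_succ_apply,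
        hadd, ih]
  intro m
  induction m with
  | zero => intro n y _; exact ⟨0, by simp⟩
  | succ m ih =>
    intro n y hmn
    obtain ⟨n', rfl⟩ : ∃ n', n = n' + 1 := ⟨n - 1, by omega⟩
    have h0 : D (u ^ (n' + 1) * y) = u ^ n' * (((n' + 1 : ℕ) : S) * D u * y) +
        u ^ (n' + 1) * D y := by
      rw [hmul, hpow]
      ring
    obtain ⟨w₁, h₁⟩ := ih n' (((n' + 1 : ℕ) : S) * D u * y) (by omega)
    obtain ⟨w₂, h₂⟩ := ih (n' + 1) (D y) (by omega)
    refine ⟨w₁ + ((n' + 1).descFactorial m : S) * (D u) ^ m * D y + u * w₂, ?_⟩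
    rw [Function.iterate_succ_apply, h0, hit, h₁, h₂]
    have e1 : n' + 1 - (m + 1) = n' - m := by omega
    have e2 : n' + 1 - m = n' - m + 1 := by omega
    have e3 : ((n' + 1).descFactorial (m + 1) : S) = ((n' + 1 : ℕ) : S) * (n'.descFactorial m : S) := by
      rw [Nat.succ_descFactorial_succ]
      push_cast
      ring
    rw [e1, e2, e3]
    ring

section Seidenberg

variable {A K : Type*} [CommRing A] [IsDomain A] [IsNoetherianRing A] [Field K] [Algebra A K]
  [IsFractionRing A K]

omit [IsDomain A] [IsNoetherianRing A] [IsFractionRing A K] in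
theorem iterate_mem (D : Derivation ℤ K K)
    (hD : ∀ a : A, D (algebraMap A K a) ∈ (algebraMap A K).range) (n : ℕ) {x : K}
    (hx : x ∈ (algebraMap A K).range) : (⇑D)^[n] x ∈ (algebraMap A K).range := by
  induction n with
  | zero => exact hx
  | succ n ih =>
    rw [Function.iterate_succ_apply']
    obtain ⟨a, ha⟩ := ih
    rw [← ha]
    exact hD a

theorem seidenberg (hQ : ∀ n : ℕ, n ≠ 0 → IsUnit (n : A)) (D : Derivation ℤ K K)
    (hD : ∀ a : A, D (algebraMap A K a) ∈ (algebraMap A K).range)
    (z : K) (hz : IsIntegral A z) : IsIntegral A (D z) := by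
  classical
  obtain ⟨d, hd, hdz⟩ := hz.isAlmostIntegral
  have hdz' : ∀ n, algebraMap A K d * z ^ n ∈ (algebraMap A K).range := fun n => by
    rw [← Algebra.smul_def]; exact hdz n
  suffices h : IsAlmostIntegral A (D z) by
    refine h.isIntegral_of_nonZeroDivisors_le_comap ?_
    intro x hx
    rw [Submonoid.mem_comap, mem_nonZeroDivisors_iff_ne_zero]
    intro h
    rw [map_eq_zero_iff _ (IsFractionRing.injective A K)] at h
    exact nonZeroDivisors.ne_zero hx h
  refine ⟨d * d, mul_mem hd hd, ?_⟩
  intro n
  -- work in `K[X]`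
  let _ : Differential K := ⟨D⟩
  let E : K[X] → K[X] := fun p => Differential.mapCoeffs p
  have hEc : ∀ p i, (E p).coeff i = D (p.coeff i) := fun p i => Differential.coeff_mapCoeffs p i
  have hE : ∀ (m : ℕ) (p : K[X]) (i : ℕ), (E^[m] p).coeff i = (⇑D)^[m] (p.coeff i) := by
    intro m
    induction m with
    | zero => intro p i; rfl
    | succ m ih =>
      intro p i
      rw [Function.iterate_succ_apply', Function.iterate_succ_apply', hEc, ih]
  let P : K[X] := (C z - X) ^ n * C (algebraMap A K d)
  obtain ⟨w, hw⟩ := deriv_iterate_pow_mul E (fun a b => map_add _ a b)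
    (fun a b => Derivation.leibniz _ a b) (C z - X) n n (C (algebraMap A K d)) le_rfl
  have hEu : E (C z - X) = C (D z) := by
    ext i
    rw [hEc, coeff_sub, map_sub, coeff_C, coeff_C, coeff_X]
    split_ifs <;> simp
  rw [hEu, Nat.sub_self, Nat.descFactorial_self] at hw
  have h1 : (E^[n] P).eval z = (n.factorial : K) * (D z) ^ n * algebraMap A K d := by
    have h1 := congrArg (eval z) hw
    simp only [pow_zero, mul_one, zero_add, pow_one, eval_add, eval_mul, eval_natCast, eval_pow,
      eval_C, eval_sub, eval_X, sub_self, zero_mul, add_zero] at h1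
    exact h1
  have hPc : ∀ i, P.coeff i ∈ (algebraMap A K).range := by
    intro i
    have : P = ∑ m ∈ Finset.range (n + 1),
        C (algebraMap A K d * z ^ m * (-1) ^ (n - m) * (n.choose m : K)) * X ^ (n - m) := by
      simp only [P]
      rw [sub_eq_add_neg, add_pow, Finset.sum_mul]
      refine Finset.sum_congr rfl fun m _ => ?_
      rw [neg_pow (X : K[X])]
      simp only [map_mul, map_pow, map_neg, map_one, map_natCast]
      ring
    rw [this, finsetSum_coeff]
    refine sum_mem fun m _ => ?_
    rw [coeff_C_mul_X_pow]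
    split_ifs
    · exact mul_mem (mul_mem (hdz' m) (pow_mem (neg_mem (one_mem _)) _)) (natCast_mem _ _)
    · exact zero_mem _
  have h2 : algebraMap A K d * (E^[n] P).eval z ∈ (algebraMap A K).range := by
    rw [eval_eq_sum_range, Finset.mul_sum]
    refine sum_mem fun i _ => ?_
    rw [hE]
    obtain ⟨a, ha⟩ := iterate_mem D hD n (hPc i)
    obtain ⟨b, hb⟩ := hdz' i
    exact ⟨a * b, by rw [map_mul, ha, hb]; ring⟩
  rw [h1] at h2
  obtain ⟨a, ha⟩ := h2
  obtain ⟨u, hu⟩ := hQ n.factorial n.factorial_ne_zero
  refine ⟨(u⁻¹ : Aˣ) * a, ?_⟩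
  rw [map_mul, ha, Algebra.smul_def, map_mul]
  have h3 : algebraMap A K ((u⁻¹ : Aˣ) : A) * (n.factorial : K) = 1 := by
    rw [← map_natCast (algebraMap A K), ← map_mul, ← hu, Units.inv_mul, map_one]
  calc _ = (algebraMap A K ((u⁻¹ : Aˣ) : A) * (n.factorial : K)) *
        (algebraMap A K d * algebraMap A K d * D z ^ n) := by ring
    _ = _ := by rw [h3, one_mul]

end Seidenberg

section MinPrimes

variable {A : Type*} [CommRing A]

lemma exists_mul_pow_mem_of_mem_minimalPrimes {J P : Ideal A} (hP : P ∈ J.minimalPrimes)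
    {a : A} (ha : a ∈ P) : ∃ s ∉ P, ∃ n : ℕ, s * a ^ n ∈ J := by
  have hprime : P.IsPrime := hP.1.1
  by_contra h
  push Not at h
  let S : Submonoid A :=
    { carrier := {x | ∃ s ∉ P, ∃ n : ℕ, x = s * a ^ n}
      one_mem' := ⟨1, fun h1 => hprime.ne_top ((Ideal.eq_top_iff_one _).2 h1), 0, by simp⟩
      mul_mem' := by
        rintro x y ⟨s, hs, n, rfl⟩ ⟨t, ht, m, rfl⟩
        refine ⟨s * t, fun h1 => ?_, n + m, by ring⟩
        rcases hprime.mem_or_mem h1 with h2 | h2
        · exact hs h2
        · exact ht h2 }
  have hdisj : Disjoint (J : Set A) S := by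
    rw [Set.disjoint_left]
    rintro x hx ⟨s, hs, n, rfl⟩
    exact h s hs n hx
  obtain ⟨Q, hQ, hJQ, hQS⟩ := Ideal.exists_le_prime_disjoint J S hdisj
  have hQP : Q ≤ P := by
    intro x hx
    by_contra hxP
    exact Set.disjoint_left.1 hQS hx ⟨x, hxP, 0, by simp⟩
  have haQ : a ∉ Q := fun haQ => Set.disjoint_left.1 hQS haQ
    ⟨1, fun h1 => hprime.ne_top ((Ideal.eq_top_iff_one _).2 h1), 1, by simp⟩
  exact haQ (hP.2 ⟨hQ, hJQ⟩ hQP ha)

/-- minimal primes over a stable ideal are stable -/
theorem stable_of_mem_minimalPrimes {R : Type*} [CommRing R] [Algebra R A]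
    (hQ : ∀ n : ℕ, n ≠ 0 → IsUnit (n : A)) (D : Derivation R A A) {J P : Ideal A}
    (hJ : ∀ x ∈ J, D x ∈ J) (hP : P ∈ J.minimalPrimes) : ∀ x ∈ P, D x ∈ P := by
  classical
  intro a ha
  by_contra hDa
  have hprime : P.IsPrime := hP.1.1
  have hex : ∃ n : ℕ, ∃ s ∉ P, s * a ^ n ∈ J := by
    obtain ⟨s, hs, n, hn⟩ := exists_mul_pow_mem_of_mem_minimalPrimes hP ha
    exact ⟨n, s, hs, hn⟩
  obtain ⟨s, hs, hsn⟩ := Nat.find_spec hex
  have hmin := fun m => Nat.find_min hex (m := m)
  generalize Nat.find hex = n at hsn hmin
  rcases n with _ | n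
  · rw [pow_zero, mul_one] at hsn
    exact hs (hP.1.2 hsn)
  · refine hmin n (Nat.lt_succ_self n) ⟨s * s * D a, ?_, ?_⟩
    · intro h
      rcases hprime.mem_or_mem h with h | h
      · rcases hprime.mem_or_mem h with h | h <;> exact hs h
      · exact hDa h
    · have h1 := hJ _ hsn
      rw [Derivation.leibniz, Derivation.leibniz_pow] at h1
      simp only [smul_eq_mul, nsmul_eq_mul, Nat.add_sub_cancel] at h1
      have h2 : ((n + 1 : ℕ) : A) * (s * s * D a * a ^ n) =
          s * (s * (((n + 1 : ℕ) : A) * (a ^ n * D a)) + a ^ (n + 1) * D s) -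
            D s * (s * a ^ (n + 1)) := by ring
      have h3 : ((n + 1 : ℕ) : A) * (s * s * D a * a ^ n) ∈ J := by
        rw [h2]
        exact J.sub_mem (J.mul_mem_left _ h1) (J.mul_mem_left _ hsn)
      exact (Ideal.unit_mul_mem_iff_mem J (hQ (n + 1) n.succ_ne_zero)).1 h3

end MinPrimes

end Vale.Agent.P266.H114.Lip
end

section

/-!
# P266: finiteness of `Der`, the conductor and its stability
-/

namespace Vale.Agent.P266.H114.Lip

/-- the module of derivations of a finitely generated algebra is finitely generated -/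
theorem finite_derivation (k A : Type*) [Field k] [CommRing A] [Algebra k A]
    [Algebra.FiniteType k A] : Module.Finite A (Derivation k A A) := by
  classical
  have hN : IsNoetherianRing A := Algebra.FiniteType.isNoetherianRing k A
  obtain ⟨s, hs⟩ := (Algebra.FiniteType.out (R := k) (A := A))
  let φ : Derivation k A A →ₗ[A] (s → A) :=
    { toFun := fun D a => D a
      map_add' := fun _ _ => rfl
      map_smul' := fun _ _ => rfl }
  refine Module.Finite.of_injective φ ?_
  intro D D' h
  have h1 : Set.EqOn D D' (s : Set A) := fun a ha => congrFun h ⟨a, ha⟩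
  exact Derivation.ext_of_adjoin_eq_top (s : Set A) hs h1

section Conductor

variable {k A K : Type*} [Field k] [CharZero k] [CommRing A] [IsDomain A] [Algebra k A]
  [Algebra.FiniteType k A] [Field K] [Algebra A K] [IsFractionRing A K] [Algebra k K]
  [IsScalarTower k A K]

/-- the conductor of the integral closure -/
def conductor (A K : Type*) [CommRing A] [Field K] [Algebra A K] : Ideal A where
  carrier := {a | ∀ z : K, IsIntegral A z → algebraMap A K a * z ∈ (algebraMap A K).range}
  add_mem' := by
    intro a b ha hb z hz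
    rw [map_add, add_mul]
    exact add_mem (ha z hz) (hb z hz)
  zero_mem' := by
    intro z _
    rw [map_zero, zero_mul]
    exact zero_mem _
  smul_mem' := by
    intro c a ha z hz
    rw [smul_eq_mul, map_mul, mul_assoc]
    exact mul_mem ⟨c, rfl⟩ (ha z hz)

theorem mem_conductor {A K : Type*} [CommRing A] [Field K] [Algebra A K] {a : A} :
    a ∈ conductor A K ↔
      ∀ z : K, IsIntegral A z → algebraMap A K a * z ∈ (algebraMap A K).range := Iff.rfl

theorem conductor_stable (D : Derivation k A A) {a : A}
    (ha : a ∈ conductor A K) : D a ∈ conductor A K := by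
  have hN : IsNoetherianRing A := Algebra.FiniteType.isNoetherianRing k A
  have hQ : ∀ n : ℕ, n ≠ 0 → IsUnit (n : A) := by
    intro n hn
    have h1 : IsUnit (n : k) := isUnit_iff_ne_zero.2 (Nat.cast_ne_zero.2 hn)
    have h2 := h1.map (algebraMap k A)
    rwa [map_natCast] at h2
  have hfe : Algebra.FormallyEtale A K := .of_isLocalization (nonZeroDivisors A)
  obtain ⟨E, hE⟩ := exists_der_ext k (derToFrac k A K D)
  have hE' : ∀ x : A, E (algebraMap A K x) = algebraMap A K (D x) := hE
  let E₀ : Derivation ℤ K K := E.restrictScalars ℤ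
  have hE₀ : ∀ z, E₀ z = E z := fun _ => rfl
  intro z hz
  have h1 : IsIntegral A (E z) := by
    have := seidenberg hQ E₀ (fun a => ⟨D a, by rw [hE₀, hE']⟩) z hz
    rwa [hE₀] at this
  obtain ⟨b, hb⟩ := ha z hz
  obtain ⟨c, hc⟩ := ha (E z) h1
  have h2 : E (algebraMap A K a * z) = algebraMap A K a * E z + z * algebraMap A K (D a) := by
    rw [Derivation.leibniz, hE', smul_eq_mul, smul_eq_mul]
  rw [← hb, hE', ← hc] at h2
  refine ⟨D b - c, ?_⟩
  rw [map_sub, h2]
  ring

theorem conductor_ne_bot (k A K : Type*) [Field k] [CharZero k] [CommRing A] [IsDomain A]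
    [Algebra k A] [Algebra.FiniteType k A] [Field K] [Algebra A K] [IsFractionRing A K]
    [Algebra k K] [IsScalarTower k A K] : conductor A K ≠ ⊥ := by
  classical
  obtain ⟨n, g, hg, hfin⟩ := exists_finite_inj_algHom_of_fg k A
  let B := MvPolynomial (Fin n) k
  let _ : Algebra B A := g.toRingHom.toAlgebra
  have _ : Module.Finite B A := hfin
  have _ : IsScalarTower k B A := .of_algebraMap_eq' g.comp_algebraMap.symm
  let _ : Algebra B K := ((algebraMap A K).comp (algebraMap B A)).toAlgebra
  have hst : IsScalarTower B A K := .of_algebraMap_eq' rfl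
  have hinj : Function.Injective (algebraMap B K) := (IsFractionRing.injective A K).comp hg
  have hfs : FaithfulSMul B K := (faithfulSMul_iff_algebraMap_injective B K).2 hinj
  let L := FractionRing B
  let _ : Algebra L K := FractionRing.liftAlgebra B K
  have _ : IsScalarTower B L K := inferInstance
  have hA : ∀ a : A, IsIntegral B (algebraMap A K a) := fun a =>
    (Algebra.IsIntegral.isIntegral (R := B) a).map (IsScalarTower.toAlgHom B A K)
  have hfd : FiniteDimensional L K := by
    refine finiteDimensional_of_integral (k := k) (A := A) (B := B) K ?_ hA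
    intro c
    refine ⟨algebraMap B L (algebraMap k B c), ?_⟩
    rw [← IsScalarTower.algebraMap_apply B L K, IsScalarTower.algebraMap_apply B A K,
      ← IsScalarTower.algebraMap_apply k B A]
  have hcz : CharZero L :=
    charZero_of_injective_algebraMap (algebraMap k L).injective
  let C := integralClosure B K
  have hC : Module.Finite B C := IsIntegralClosure.finite B L K C
  obtain ⟨s, hs⟩ := hC.fg_top
  obtain ⟨d, hd⟩ := IsLocalization.exist_integer_multiples_of_finset (nonZeroDivisors A)
    (s.image fun c : C => (c : K))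
  have hd0 : (d : A) ≠ 0 := nonZeroDivisors.ne_zero d.2
  refine fun hbot => hd0 ?_
  rw [← Ideal.mem_bot, ← hbot]
  intro z hz
  have hzB : IsIntegral B z := isIntegral_trans z hz
  have hmem : ∀ c ∈ Submodule.span B (s : Set C), algebraMap A K d * (c : K) ∈
      (algebraMap A K).range := by
    intro c hc
    induction hc using Submodule.span_induction with
    | mem x hx =>
      have h1 := hd (x : K) (Finset.mem_image_of_mem _ hx)
      rw [Algebra.smul_def] at h1
      exact h1
    | zero =>
      rw [ZeroMemClass.coe_zero, mul_zero]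
      exact zero_mem _
    | add x y _ _ hx hy =>
      rw [AddMemClass.coe_add, mul_add]
      exact add_mem hx hy
    | smul b x _ hx =>
      have h1 : ((b • x : C) : K) = algebraMap A K (algebraMap B A b) * (x : K) := by
        rw [← IsScalarTower.algebraMap_apply]
        exact Algebra.smul_def b (x : K)
      rw [h1, mul_left_comm]
      exact mul_mem ⟨_, rfl⟩ hx
  exact hmem ⟨z, hzB⟩ (by rw [hs]; trivial)

end Conductor

end Vale.Agent.P266.H114.Lip
end

section

/-!
# P266: algebraic independence from derivations, towards Lipman's normality theorem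
-/

namespace Vale.Agent.P266.H114.Lip

open MvPolynomial

section Indep

variable {k A : Type*} [Field k] [CharZero k] [CommRing A] [Algebra k A]

omit [CharZero k] in
lemma der_aeval_mv {ι : Type*} [Fintype ι] (D : Derivation k A A) (x : ι → A)
    (G : MvPolynomial ι k) :
    D (aeval x G) = ∑ j, aeval x (pderiv j G) * D (x j) := by
  classical
  induction G using MvPolynomial.induction_on with
  | C a =>
    rw [aeval_C, Derivation.map_algebraMap]
    simp
  | add p q hp hq =>
    simp only [map_add, hp, hq, add_mul, Finset.sum_add_distrib]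
  | mul_X p α hp =>
    rw [map_mul, Derivation.leibniz, hp]
    simp only [pderiv_mul, map_add, map_mul, add_mul, Finset.sum_add_distrib]
    rw [add_comm]
    congr 1
    · rw [smul_eq_mul, Finset.mul_sum]
      exact Finset.sum_congr rfl fun β _ => by ring
    · simp [pderiv_X, Pi.single_apply, apply_ite, mul_comm]

/-- if `det (D_i x_j)` is not in a stable prime `P`, then the `x_j` are independent modulo `P`. -/
theorem eq_zero_of_aeval_mem {r : ℕ} (P : Ideal A) [P.IsPrime] (D : Fin r → Derivation k A A)
    (x : Fin r → A) (hD : ∀ i, ∀ a ∈ P, D i a ∈ P)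
    (hdet : (Matrix.of fun i j => D i (x j)).det ∉ P) :
    ∀ (n : ℕ) (G : MvPolynomial (Fin r) k), G.totalDegree ≤ n → aeval x G ∈ P → G = 0 := by
  classical
  have hconst : ∀ c : k, algebraMap k A c ∈ P → c = 0 := by
    intro c hc
    by_contra h
    have h1 : IsUnit (algebraMap k A c) := (isUnit_iff_ne_zero.2 h).map (algebraMap k A)
    exact Ideal.IsPrime.ne_top ‹_› (Ideal.eq_top_of_isUnit_mem _ hc h1)
  intro n
  induction n with
  | zero =>
    intro G hG hGP
    rw [Nat.le_zero, totalDegree_eq_zero_iff_eq_C] at hG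
    rw [hG] at hGP ⊢
    rw [aeval_C] at hGP
    rw [hconst _ hGP, C_0]
  | succ n ih =>
    intro G hG hGP
    have h1 : ∀ i, ∑ j, D i (x j) * aeval x (pderiv j G) ∈ P := by
      intro i
      have h0 := hD i _ hGP
      rw [der_aeval_mv] at h0
      rw [Finset.sum_congr rfl fun j _ => mul_comm (D i (x j)) (aeval x (pderiv j G))]
      exact h0
    let M : Matrix (Fin r) (Fin r) A := Matrix.of fun i j => D i (x j)
    let u : Fin r → A := fun j => aeval x (pderiv j G)
    have h2 : ∀ i, M.mulVec u i ∈ P := h1
    have h3 : ∀ j, M.det * u j ∈ P := by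
      intro j
      have h4 : M.det • u = M.adjugate.mulVec (M.mulVec u) := by
        rw [Matrix.mulVec_mulVec, Matrix.adjugate_mul, Matrix.smul_mulVec, Matrix.one_mulVec]
      have h5 : M.det * u j = (M.adjugate.mulVec (M.mulVec u)) j := by
        rw [← h4]; rfl
      rw [h5]
      change ∑ i, M.adjugate j i * M.mulVec u i ∈ P
      exact P.sum_mem fun i _ => P.mul_mem_left _ (h2 i)
    have h4 : ∀ j, aeval x (pderiv j G) ∈ P := fun j =>
      (Ideal.IsPrime.mem_or_mem ‹_› (h3 j)).resolve_left hdet
    have hz : ∀ j, pderiv j G = 0 := by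
      intro j
      refine ih _ ?_ (h4 j)
      refine Finset.sup_le fun m hm => ?_
      have hm' : coeff m (pderiv j G) ≠ 0 := mem_support_iff.1 hm
      rw [coeff_pderiv] at hm'
      have h1 : coeff (m + Finsupp.single j 1) G ≠ 0 := left_ne_zero_of_mul hm'
      have h2 := (le_totalDegree (mem_support_iff.2 h1)).trans hG
      rw [Finsupp.sum_add_index' (fun _ => rfl) (fun _ _ _ => rfl),
        Finsupp.sum_single_index rfl] at h2
      omega
    have hc : G = C (coeff 0 G) := by
      refine MvPolynomial.ext _ _ fun m => ?_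
      rw [coeff_C]
      split_ifs with hm
      · rw [← hm]
      · have : ∃ i, m i ≠ 0 := by
          by_contra h
          push Not at h
          exact hm (Finsupp.ext fun i => (h i).symm)
        obtain ⟨i, hi⟩ := this
        have h1 := congrArg (coeff (m - Finsupp.single i 1)) (hz i)
        rw [coeff_pderiv, coeff_zero, tsub_add_cancel_of_le (by
          rw [Finsupp.single_le_iff]; omega)] at h1
        rcases mul_eq_zero.1 h1 with h2 | h2
        · exact h2
        · exfalso
          have h3 : ∀ j : ℕ, ((j : k) + 1) ≠ 0 := fun j => by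
            exact_mod_cast Nat.succ_ne_zero j
          exact h3 _ h2
    rw [hc] at hGP ⊢
    rw [aeval_C] at hGP
    rw [hconst _ hGP, C_0]

end Indep

end Vale.Agent.P266.H114.Lip
end

section

/-!
# P266: module theoretic steps in Lipman's normality theorem
-/

namespace Vale.Agent.P266.H114.Lip

open Matrix

section L3

variable {k A K : Type*} [Field k] [CommRing A] [IsDomain A] [Algebra k A]
  [Field K] [Algebra A K] [IsFractionRing A K] [Algebra k K] [IsScalarTower k A K]

/-- a colon ideal -/
theorem apply_mem_of_colon (p : Ideal A) (z : K)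
    (hp : ∀ a : A, a ∈ p ↔ algebraMap A K a * z ∈ (algebraMap A K).range)
    (D : Derivation k A A) (hD : ∀ a, D a ∈ p) (ω : Derivation k A A →ₗ[A] A) : ω D ∈ p := by
  have hinj := IsFractionRing.injective A K
  obtain ⟨D', hD'⟩ := exists_der_of_range (z • derToFrac k A K D) (fun a => by
    have h1 := (hp (D a)).1 (hD a)
    rw [Derivation.smul_apply, derToFrac_apply, smul_eq_mul, mul_comm]
    exact h1)
  have hD'' : ∀ a, algebraMap A K (D' a) = z * algebraMap A K (D a) := fun a => by
    rw [hD', Derivation.smul_apply, derToFrac_apply, smul_eq_mul]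
  obtain ⟨a, b, hb, hab⟩ := IsFractionRing.div_surjective (A := A) z
  have hb0 : algebraMap A K b ≠ 0 := by
    intro h
    rw [map_eq_zero_iff _ hinj] at h
    exact nonZeroDivisors.ne_zero hb h
  have hz : algebraMap A K a = algebraMap A K b * z := by
    rw [← hab, mul_div_cancel₀ _ hb0]
  have h1 : b • D' = a • D := by
    ext x
    apply hinj
    rw [Derivation.smul_apply, Derivation.smul_apply, smul_eq_mul, smul_eq_mul, map_mul, map_mul,
      hD'', hz]
    ring
  have h2 := congrArg ω h1
  rw [map_smul, map_smul, smul_eq_mul, smul_eq_mul] at h2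
  have h3 := congrArg (algebraMap A K) h2
  rw [map_mul, map_mul, hz] at h3
  rw [hp]
  refine ⟨ω D', mul_left_cancel₀ hb0 ?_⟩
  rw [h3]
  ring

theorem mem_smul_top_of_colon [Module.Projective A (Derivation k A A)] (p : Ideal A) (z : K)
    (hp : ∀ a : A, a ∈ p ↔ algebraMap A K a * z ∈ (algebraMap A K).range)
    (D : Derivation k A A) (hD : ∀ a, D a ∈ p) :
    D ∈ p • (⊤ : Submodule A (Derivation k A A)) := by
  obtain ⟨s, hs⟩ := Module.projective_def'.1 (inferInstance : Module.Projective A (Derivation k A A))
  have h1 : Finsupp.linearCombination A id (s D) = D := LinearMap.congr_fun hs D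
  rw [← h1, Finsupp.linearCombination_apply, Finsupp.sum]
  refine Submodule.sum_mem _ fun x _ => ?_
  refine Submodule.smul_mem_smul ?_ Submodule.mem_top
  exact apply_mem_of_colon p z hp D hD ((Finsupp.lapply x).comp s)

end L3

section L1

theorem der_sum_smul_apply {R S : Type*} [CommRing R] [CommRing S] [Algebra R S] {ι : Type*}
    (t : Finset ι) (c : ι → S) (D : ι → Derivation R S S) (y : S) :
    (∑ i ∈ t, c i • D i) y = ∑ i ∈ t, c i * D i y := by
  classical
  induction t using Finset.induction_on with
  | empty => rfl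
  | insert a t ha ih =>
    rw [Finset.sum_insert ha, Finset.sum_insert ha, Derivation.add_apply, ih,
      Derivation.smul_apply, smul_eq_mul]

variable {k A : Type*} [Field k] [CommRing A] [IsDomain A] [Algebra k A]

theorem le_finrank_of_det_ne_zero [Module.Finite A (Derivation k A A)] {r : ℕ}
    (D : Fin r → Derivation k A A) (x : Fin r → A)
    (hdet : (Matrix.of fun i j => D i (x j)).det ≠ 0) :
    r ≤ Module.finrank A (Derivation k A A) := by
  have hli : LinearIndependent A D := by
    rw [Fintype.linearIndependent_iff]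
    intro g hg
    have h1 : g ᵥ* (Matrix.of fun i j => D i (x j)) = 0 := by
      ext j
      have h2 : (∑ i, g i • D i) (x j) = 0 := by rw [hg]; rfl
      rw [der_sum_smul_apply] at h2
      exact h2
    have h2 := Matrix.eq_zero_of_vecMul_eq_zero hdet h1
    exact fun i => congrFun h2 i
  have := hli.fintype_card_le_finrank
  rwa [Fintype.card_fin] at this

theorem exists_max_minor [Module.Finite A (Derivation k A A)] (p : Ideal A) [hp : p.IsPrime] :
    ∃ (r : ℕ) (D' : Fin r → Derivation k A A) (x : Fin r → A),
      (Matrix.of fun i j => D' i (x j)).det ∉ p ∧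
      ∀ D : Derivation k A A, ∃ c : Fin r → A,
        ∀ y, ((Matrix.of fun i j => D' i (x j)).det • D - ∑ i, c i • D' i) y ∈ p := by
  classical
  let Pred : ℕ → Prop := fun r => ∃ (D' : Fin r → Derivation k A A) (x : Fin r → A),
    (Matrix.of fun i j => D' i (x j)).det ∉ p
  have h0 : Pred 0 := ⟨Fin.elim0, Fin.elim0, by
    rw [Matrix.det_fin_zero]
    exact fun h => hp.ne_top ((Ideal.eq_top_iff_one p).2 h)⟩
  have hbd : ∀ r, Pred r → r ≤ Module.finrank A (Derivation k A A) := by
    rintro r ⟨D', x, h⟩
    exact le_finrank_of_det_ne_zero D' x (fun h1 => h (by rw [h1]; exact p.zero_mem))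
  let r := Nat.findGreatest Pred (Module.finrank A (Derivation k A A))
  have hr : Pred r := Nat.findGreatest_spec (m := 0) (Nat.zero_le _) h0
  have hr' : ¬ Pred (r + 1) := by
    intro h
    have h1 := Nat.le_findGreatest (hbd _ h) h
    change r + 1 ≤ r at h1
    omega
  clear_value r
  obtain ⟨D', x, hdet⟩ := hr
  refine ⟨r, D', x, hdet, ?_⟩
  intro D
  let M : Matrix (Fin r) (Fin r) A := Matrix.of fun i j => D' i (x j)
  let v : Fin r → A := fun j => D (x j)
  let c : Fin r → A := v ᵥ* M.adjugate
  let Ds : Derivation k A A := M.det • D - ∑ i, c i • D' i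
  have hDs : ∀ y, Ds y = M.det * D y - ∑ i, c i * D' i y := by
    intro y
    rw [← der_sum_smul_apply]
    rfl
  have hDx : ∀ j, Ds (x j) = 0 := by
    intro j
    have h1 : c ᵥ* M = M.det • v := by
      rw [Matrix.vecMul_vecMul, Matrix.adjugate_mul, Matrix.vecMul_smul, Matrix.vecMul_one]
    have h2 : ∑ i, c i * D' i (x j) = M.det * D (x j) := congrFun h1 j
    rw [hDs, h2, sub_self]
  refine ⟨c, fun y => ?_⟩
  change Ds y ∈ p
  by_contra hy
  apply hr'
  refine ⟨Fin.snoc D' Ds, Fin.snoc x y, ?_⟩
  rw [Matrix.det_succ_row _ (Fin.last r), Fin.sum_univ_castSucc]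
  have h1 : ∀ j : Fin r, (Matrix.of fun i j => (Fin.snoc D' Ds : Fin (r + 1) → Derivation k A A) i
      ((Fin.snoc x y : Fin (r + 1) → A) j)) (Fin.last r) (Fin.castSucc j) = 0 := by
    intro j
    rw [Matrix.of_apply, Fin.snoc_last, Fin.snoc_castSucc, hDx]
  rw [Finset.sum_eq_zero fun j _ => by rw [h1, mul_zero, zero_mul], zero_add, Matrix.of_apply,
    Fin.snoc_last, Fin.snoc_last]
  have h2 : (Matrix.of fun i j => (Fin.snoc D' Ds : Fin (r + 1) → Derivation k A A) i
      ((Fin.snoc x y : Fin (r + 1) → A) j)).submatrix (Fin.last r).succAbove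
        (Fin.last r).succAbove = M := by
    ext i j
    rw [Matrix.submatrix_apply, Matrix.of_apply, Fin.succAbove_last, Fin.snoc_castSucc,
      Fin.snoc_castSucc]
    rfl
  rw [h2, Even.neg_one_pow ⟨_, rfl⟩, one_mul]
  intro h
  rcases hp.mem_or_mem h with h | h
  · exact hy h
  · exact hdet h

end L1

section L4

variable {A T : Type*} [CommRing A] [AddCommGroup T] [Module A T]

theorem exists_smul_mem_of_smul_mem [Module.Finite A T] (p : Ideal A) [hp : p.IsPrime]
    (N : Submodule A T) (Δ : A) (hΔ : Δ ∉ p)
    (h : ∀ D : T, ∃ n ∈ N, Δ • D - n ∈ p • (⊤ : Submodule A T)) :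
    ∃ s ∉ p, ∀ D : T, s • D ∈ N := by
  classical
  let f : Module.End A (T ⧸ N) := algebraMap A _ Δ
  have hf : LinearMap.range f ≤ p • ⊤ := by
    rintro _ ⟨q, rfl⟩
    obtain ⟨D, rfl⟩ := N.mkQ_surjective q
    obtain ⟨n, hn, hD⟩ := h D
    have h0 : N.mkQ n = 0 := (Submodule.Quotient.mk_eq_zero N).2 hn
    have h1 : f (N.mkQ D) = N.mkQ (Δ • D - n) := by
      rw [map_sub, map_smul, h0, sub_zero]
      rfl
    rw [h1]
    have h2 := Submodule.mem_map_of_mem (f := N.mkQ) hD
    rw [Submodule.map_smul''] at h2
    exact Submodule.smul_mono le_rfl le_top h2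
  obtain ⟨P, hPm, -, hPc, hP0⟩ :=
    LinearMap.exists_monic_and_natDegree_eq_and_coeff_mem_pow_and_aeval_eq_zero A f p hf
  refine ⟨P.eval Δ, ?_, ?_⟩
  · intro hmem
    rw [Polynomial.eval_eq_sum_range, Finset.sum_range_succ, hPm.coeff_natDegree, one_mul] at hmem
    have h1 : ∑ i ∈ Finset.range P.natDegree, P.coeff i * Δ ^ i ∈ p := by
      refine p.sum_mem fun i hi => p.mul_mem_right _ ?_
      have h2 := Finset.mem_range.1 hi
      exact Ideal.pow_le_self (by omega) (hPc i)
    rw [Ideal.add_mem_iff_right _ h1] at hmem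
    exact hΔ (hp.mem_of_pow_mem _ hmem)
  · intro D
    rw [← Submodule.Quotient.mk_eq_zero N, Submodule.Quotient.mk_smul]
    have h1 := LinearMap.congr_fun hP0 (N.mkQ D)
    rw [Polynomial.aeval_algebraMap_apply_eq_algebraMap_eval] at h1
    exact h1

end L4

end Vale.Agent.P266.H114.Lip
end

section

/-!
# P266: Lipman's theorem, projective derivation module implies normal
-/

namespace Vale.Agent.P266.H114.Lip

open Matrix

section Main

variable {k A K : Type*} [Field k] [CharZero k] [CommRing A] [IsDomain A] [Algebra k A]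
  [Algebra.FiniteType k A] [Field K] [Algebra A K] [IsFractionRing A K] [Algebra k K]
  [IsScalarTower k A K]

omit [CharZero k] in
theorem exists_combination {r : ℕ} (D' : Fin r → Derivation k A A) (s : A) (hs0 : s ≠ 0)
    (hs : ∀ D : Derivation k A A, s • D ∈ Submodule.span A (Set.range D'))
    (E : Derivation k K K) :
    ∃ c : Fin r → K, ∀ a : A, E (algebraMap A K a) = ∑ i, c i * algebraMap A K (D' i a) := by
  classical
  obtain ⟨⟨D₀, b⟩, hb⟩ := IsLocalizedModule.surj (nonZeroDivisors A) (derToFrac k A K)
    (E.compAlgebraMap A)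
  obtain ⟨g, hg⟩ := (Submodule.mem_span_range_iff_exists_fun A).1 (hs D₀)
  have hinj := IsFractionRing.injective A K
  have hb0 : algebraMap A K (b : A) ≠ 0 := by
    intro h
    rw [map_eq_zero_iff _ hinj] at h
    exact nonZeroDivisors.ne_zero b.2 h
  have hs0' : algebraMap A K s ≠ 0 := by
    intro h
    rw [map_eq_zero_iff _ hinj] at h
    exact hs0 h
  have h1 : ∀ a, algebraMap A K (b : A) * E (algebraMap A K a) = algebraMap A K (D₀ a) := by
    intro a
    have h2 := congrArg (fun F : Derivation k A K => F a) hb
    have h3 : ((b : A) • (E.compAlgebraMap A : Derivation k A K)) a = derToFrac k A K D₀ a := h2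
    rw [Derivation.smul_apply, derToFrac_apply, Algebra.smul_def] at h3
    exact h3
  have h2 : ∀ a, s * D₀ a = ∑ i, g i * D' i a := by
    intro a
    rw [← der_sum_smul_apply, hg]
    rfl
  refine ⟨fun i => algebraMap A K (g i) / (algebraMap A K s * algebraMap A K b), fun a => ?_⟩
  have h3 := congrArg (algebraMap A K) (h2 a)
  rw [map_mul, ← h1, map_sum] at h3
  have h4 : ∑ i, algebraMap A K (g i) / (algebraMap A K s * algebraMap A K b) *
      algebraMap A K (D' i a) =
      (∑ i, algebraMap A K (g i * D' i a)) / (algebraMap A K s * algebraMap A K b) := by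
    rw [Finset.sum_div]
    refine Finset.sum_congr rfl fun i _ => ?_
    rw [map_mul]
    ring
  rw [h4, ← h3, eq_div_iff (mul_ne_zero hs0' hb0)]
  ring

/-- any nonzero prime contracts to a nonzero ideal of `k[x₁, …, x_r]` -/
theorem exists_aeval_mem_of_combination {r : ℕ} (D' : Fin r → Derivation k A A) (x : Fin r → A)
    (hdet : (Matrix.of fun i j => D' i (x j)).det ≠ 0)
    (hinj : Function.Injective (MvPolynomial.aeval (R := k) x))
    (hcomb : ∀ E : Derivation k K K, ∃ c : Fin r → K, ∀ a : A,
      E (algebraMap A K a) = ∑ i, c i * algebraMap A K (D' i a)) (P : Ideal A) (f : A)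
    (hf : f ∈ P) (hf0 : f ≠ 0) :
    ∃ G : MvPolynomial (Fin r) k, G ≠ 0 ∧ MvPolynomial.aeval (R := k) x G ∈ P := by
  classical
  have hAK := IsFractionRing.injective A K
  let B := MvPolynomial (Fin r) k
  let _ : Algebra B A := (MvPolynomial.aeval (R := k) x).toRingHom.toAlgebra
  have hBA : ∀ b : B, algebraMap B A b = MvPolynomial.aeval (R := k) x b := fun _ => rfl
  have _ : IsScalarTower k B A :=
    .of_algebraMap_eq' (MvPolynomial.aeval (R := k) x).comp_algebraMap.symm
  let _ : Algebra B K := ((algebraMap A K).comp (algebraMap B A)).toAlgebra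
  have _ : IsScalarTower B A K := .of_algebraMap_eq' rfl
  have _ : IsScalarTower k B K := .of_algebraMap_eq fun c => by
    rw [IsScalarTower.algebraMap_apply B A K, ← IsScalarTower.algebraMap_apply k B A,
      ← IsScalarTower.algebraMap_apply]
  have hBK : Function.Injective (algebraMap B K) := hAK.comp hinj
  have hfs : FaithfulSMul B K := (faithfulSMul_iff_algebraMap_injective B K).2 hBK
  let L := FractionRing B
  let _ : Algebra L K := FractionRing.liftAlgebra B K
  have _ : IsScalarTower B L K := inferInstance
  have _ : IsScalarTower k L K := .to₁₃₄ k B L K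
  have hcz : CharZero L := charZero_of_injective_algebraMap (algebraMap k L).injective
  have h1 : Algebra.EssFiniteType A K := .of_isLocalization K (nonZeroDivisors A)
  have h2 : Algebra.EssFiniteType k K := .comp k A K
  have h3 : Algebra.EssFiniteType L K := .of_comp k L K
  by_contra hcon
  push Not at hcon
  have halg : ¬ IsAlgebraic B f := by
    intro halg
    have h4 := Ideal.comap_ne_bot_of_algebraic_mem hf0 hf halg
    obtain ⟨G, hG, hG0⟩ := Submodule.exists_mem_ne_zero_of_ne_bot h4
    exact hcon G hG0 hG
  have halg' : ¬ IsAlgebraic L (algebraMap A K f) := by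
    rw [← IsFractionRing.isAlgebraic_iff B L K, isAlgebraic_algebraMap_iff hAK]
    exact halg
  have h5 := FirstIntegral.D_ne_zero_of_transcendental L K halg'
  obtain ⟨g, hg⟩ : ∃ g : Module.Dual K Ω[K⁄L],
      g (KaehlerDifferential.D L K (algebraMap A K f)) ≠ 0 := by
    by_contra hcon
    push Not at hcon
    exact h5 ((Module.forall_dual_apply_eq_zero_iff _ _).mp hcon)
  let E₀ : Derivation L K K := g.compDer (KaehlerDifferential.D L K)
  let E : Derivation k K K := E₀.restrictScalars k
  have hEf : E (algebraMap A K f) ≠ 0 := hg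
  have hEx : ∀ j, E (algebraMap A K (x j)) = 0 := by
    intro j
    have h6 : algebraMap A K (x j) = algebraMap L K (algebraMap B L (MvPolynomial.X j)) := by
      rw [← IsScalarTower.algebraMap_apply B L K, IsScalarTower.algebraMap_apply B A K, hBA,
        MvPolynomial.aeval_X]
    change E₀ (algebraMap A K (x j)) = 0
    rw [h6, Derivation.map_algebraMap]
  obtain ⟨c, hc⟩ := hcomb E
  have h7 : c ᵥ* ((Matrix.of fun i j => D' i (x j)).map (algebraMap A K)) = 0 := by
    ext j
    have := hc (x j)
    rw [hEx] at this
    exact this.symm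
  have h8 : ((Matrix.of fun i j => D' i (x j)).map (algebraMap A K)).det ≠ 0 := by
    have h9 := RingHom.map_det (algebraMap A K) (Matrix.of fun i j => D' i (x j))
    rw [RingHom.mapMatrix_apply] at h9
    rw [← h9]
    intro h
    rw [map_eq_zero_iff _ hAK] at h
    exact hdet h
  have h9 := Matrix.eq_zero_of_vecMul_eq_zero h8 h7
  apply hEf
  rw [hc]
  refine Finset.sum_eq_zero fun i _ => ?_
  rw [h9]
  exact zero_mul _

end Main

/-- **Lipman's theorem**: if the module of derivations is projective, the ring is normal. -/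
theorem isIntegrallyClosed_of_projective (k A : Type*) [Field k] [CharZero k] [CommRing A]
    [IsDomain A] [Algebra k A] [Algebra.FiniteType k A]
    [Module.Projective A (Derivation k A A)] : IsIntegrallyClosed A := by
  classical
  have hN : IsNoetherianRing A := Algebra.FiniteType.isNoetherianRing k A
  have hfinT : Module.Finite A (Derivation k A A) := finite_derivation k A
  let K := FractionRing A
  have hQ : ∀ n : ℕ, n ≠ 0 → IsUnit (n : A) := by
    intro n hn
    have h1 : IsUnit (n : k) := isUnit_iff_ne_zero.2 (Nat.cast_ne_zero.2 hn)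
    have h2 := h1.map (algebraMap k A)
    rwa [map_natCast] at h2
  rw [isIntegrallyClosed_iff K]
  by_contra hcon
  push Not at hcon
  obtain ⟨z₀, hz₀, hz₀'⟩ := hcon
  -- a maximal colon ideal
  let S : Set (Ideal A) := {I | ∃ z : K, IsIntegral A z ∧ z ∉ (algebraMap A K).range ∧
    ∀ a, a ∈ I ↔ algebraMap A K a * z ∈ (algebraMap A K).range}
  have hcolon : ∀ z : K, ∃ I : Ideal A, ∀ a, a ∈ I ↔ algebraMap A K a * z ∈
      (algebraMap A K).range := by
    intro z
    refine ⟨{ carrier := {a | algebraMap A K a * z ∈ (algebraMap A K).range}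
              add_mem' := fun {a b} ha hb => ?_
              zero_mem' := ?_
              smul_mem' := fun c a ha => ?_ }, fun a => Iff.rfl⟩
    · rw [Set.mem_ofPred_eq, map_add, add_mul]
      exact add_mem ha hb
    · rw [Set.mem_ofPred_eq, map_zero, zero_mul]
      exact zero_mem _
    · rw [Set.mem_ofPred_eq, smul_eq_mul, map_mul, mul_assoc]
      exact mul_mem ⟨c, rfl⟩ ha
  have hSne : S.Nonempty := by
    obtain ⟨I, hI⟩ := hcolon z₀
    exact ⟨I, z₀, hz₀, fun ⟨a, ha⟩ => hz₀' a ha, hI⟩
  obtain ⟨p, ⟨z, hz, hz', hpz⟩, hmax⟩ : ∃ p : Ideal A, p ∈ S ∧ ∀ I ∈ S, ¬ p < I :=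
    set_has_maximal_iff_noetherian.2 hN S hSne
  have hp : p.IsPrime := by
    refine ⟨?_, ?_⟩
    · intro htop
      apply hz'
      have := (hpz 1).1 (by rw [htop]; trivial)
      rwa [map_one, one_mul] at this
    · intro a b hab
      by_contra h
      push Not at h
      obtain ⟨I, hI⟩ := hcolon (algebraMap A K a * z)
      have hIS : I ∈ S := ⟨algebraMap A K a * z, isIntegral_algebraMap.mul hz,
        fun h' => h.1 ((hpz a).2 h'), hI⟩
      have hpI : p ≤ I := by
        intro c hc
        rw [hI, mul_left_comm]
        exact mul_mem ⟨a, rfl⟩ ((hpz c).1 hc)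
      have hbI : b ∈ I := by
        rw [hI, ← mul_assoc, ← map_mul, mul_comm b a]
        exact (hpz _).1 hab
      have hlt : p < I := lt_of_le_of_ne hpI fun h' => h.2 (by rw [h']; exact hbI)
      exact hmax I hIS hlt
  -- the conductor and a minimal prime below `p`
  have hJ : conductor A K ≤ p := fun a ha => (hpz a).2 (ha z hz)
  obtain ⟨P, hP, hPp⟩ := Ideal.exists_minimalPrimes_le hJ
  have hPprime : P.IsPrime := hP.1.1
  have hPbot : P ≠ ⊥ := by
    intro h
    apply conductor_ne_bot k A K
    rw [eq_bot_iff, ← h]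
    exact hP.1.2
  have hstab : ∀ D : Derivation k A A, ∀ x ∈ P, D x ∈ P := fun D =>
    stable_of_mem_minimalPrimes hQ D (fun x hx => conductor_stable (K := K) D hx) hP
  -- minors
  obtain ⟨r, D', x, hdet, hD⟩ := exists_max_minor (k := k) p
  obtain ⟨s, hs, hsD⟩ := exists_smul_mem_of_smul_mem p (Submodule.span A (Set.range D'))
    (Matrix.of fun i j => D' i (x j)).det hdet (fun D => by
      obtain ⟨c, hc⟩ := hD D
      refine ⟨∑ i, c i • D' i, Submodule.sum_mem _ fun i _ =>
        Submodule.smul_mem _ _ (Submodule.subset_span ⟨i, rfl⟩), ?_⟩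
      exact mem_smul_top_of_colon p z hpz _ hc)
  have hs0 : s ≠ 0 := fun h => hs (by rw [h]; exact p.zero_mem)
  have hdet0 : (Matrix.of fun i j => D' i (x j)).det ≠ 0 := fun h =>
    hdet (by rw [h]; exact p.zero_mem)
  have hind : ∀ G : MvPolynomial (Fin r) k, MvPolynomial.aeval x G ∈ P → G = 0 := fun G hG =>
    eq_zero_of_aeval_mem P D' x (fun i => hstab (D' i)) (fun h => hdet (hPp h)) _ G le_rfl hG
  obtain ⟨f, hf, hf0⟩ := Submodule.exists_mem_ne_zero_of_ne_bot hPbot
  obtain ⟨G, hG0, hG⟩ := exists_aeval_mem_of_combination (K := K) D' x hdet0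
    (by
      rw [injective_iff_map_eq_zero]
      intro G hG
      exact hind G (by rw [hG]; exact P.zero_mem))
    (fun E => exists_combination D' s hs0 hsD E) P f hf hf0
  exact hG0 (hind G hG)

end Vale.Agent.P266.H114.Lip
end
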