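import Mathlib

/-!
# P266 (helper114): derivations of a polynomial ring `A[X]`

If `Der_k(A)` is free of rank `d` and `A` is finitely generated over `k`, then `Der_k(A[X])` is free
of rank `d + 1` over `A[X]`: a basis consists of the coefficientwise extensions of a basis of
`Der_k(A)` and `∂/∂X`.
-/

namespace Vale.Agent.P266.H114

open Polynomial

section

variable {k A : Type*} [CommRing k] [CommRing A] [Algebra k A]

/-- coefficientwise application of a derivation -/
noncomputable def cMap (D : Derivation k A A) (p : A[X]) : A[X] :=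
  ∑ n ∈ p.support, monomial n (D (p.coeff n))

theorem coeff_cMap (D : Derivation k A A) (p : A[X]) (n : ℕ) :
    (cMap D p).coeff n = D (p.coeff n) := by
  rw [cMap, finsetSum_coeff]
  simp only [coeff_monomial]
  rw [Finset.sum_ite_eq' p.support n (fun n => D (p.coeff n))]
  split_ifs with h
  · rfl
  · rw [notMem_support_iff.1 h, map_zero]

/-- the coefficientwise extension of a derivation of `A` to `A[X]` -/
noncomputable def cDer (D : Derivation k A A) : Derivation k A[X] A[X] :=
  Derivation.mk'
    { toFun := cMap D
      map_add' := fun p q => by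
        ext n
        simp only [coeff_cMap, coeff_add, map_add]
      map_smul' := fun c p => by
        ext n
        simp only [coeff_cMap, coeff_smul, RingHom.id_apply, Derivation.map_smul] }
    (fun p q => by
      change cMap D (p * q) = p • cMap D q + q • cMap D p
      ext n
      rw [coeff_cMap, coeff_mul, map_sum, coeff_add, smul_eq_mul, smul_eq_mul, coeff_mul,
        mul_comm q, coeff_mul, ← Finset.sum_add_distrib]
      refine Finset.sum_congr rfl fun x _ => ?_
      rw [coeff_cMap, coeff_cMap, Derivation.leibniz, smul_eq_mul, smul_eq_mul]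
      ring)

theorem coeff_cDer (D : Derivation k A A) (p : A[X]) (n : ℕ) :
    (cDer D p).coeff n = D (p.coeff n) := coeff_cMap D p n

theorem cDer_C (D : Derivation k A A) (a : A) : cDer D (C a) = C (D a) := by
  ext n
  rw [coeff_cDer, coeff_C, coeff_C]
  split_ifs
  · rfl
  · exact map_zero D

theorem cDer_X (D : Derivation k A A) : cDer D (X : A[X]) = 0 := by
  ext n
  rw [coeff_cDer, coeff_X, coeff_zero]
  split_ifs
  · exact D.map_one_eq_zero
  · exact map_zero D

/-- the derivation `∂/∂X` of `A[X]` over `k` -/
noncomputable def dX : Derivation k A[X] A[X] :=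
  (derivative' (R := A)).restrictScalars k

theorem dX_C (a : A) : (dX : Derivation k A[X] A[X]) (C a) = 0 := by
  change derivative (C a) = 0
  exact derivative_C

theorem dX_X : (dX : Derivation k A[X] A[X]) X = 1 := by
  change derivative X = 1
  exact derivative_X

/-- a derivation of `A[X]` is determined by its values on the constants and on `X` -/
theorem der_ext {D₁ D₂ : Derivation k A[X] A[X]} (hC : ∀ a, D₁ (C a) = D₂ (C a))
    (hX : D₁ X = D₂ X) : D₁ = D₂ := by
  ext1 p
  induction p using Polynomial.induction_on with
  | C a => exact hC a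
  | add p q hp hq => rw [map_add, map_add, hp, hq]
  | monomial n a _ =>
    rw [Derivation.leibniz, Derivation.leibniz, Derivation.leibniz_pow, Derivation.leibniz_pow, hC,
      hX]

/-- the coefficients of the restriction of a derivation of `A[X]` to `A` -/
noncomputable def coDer (D : Derivation k A[X] A[X]) (n : ℕ) : Derivation k A A :=
  Derivation.mk'
    { toFun := fun a => (D (C a)).coeff n
      map_add' := fun a b => by rw [map_add, map_add, coeff_add]
      map_smul' := fun c a => by
        rw [RingHom.id_apply]
        have h : (C (c • a) : A[X]) = c • C a := by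
          ext m
          rw [coeff_smul, coeff_C, coeff_C]
          split_ifs
          · rfl
          · rw [smul_zero]
        rw [h, D.map_smul, coeff_smul] }
    (fun a b => by
      change (D (C (a * b))).coeff n = a • (D (C b)).coeff n + b • (D (C a)).coeff n
      rw [C_mul, Derivation.leibniz, coeff_add, smul_eq_mul, smul_eq_mul, coeff_C_mul, coeff_C_mul,
        smul_eq_mul, smul_eq_mul])

theorem coDer_apply (D : Derivation k A[X] A[X]) (n : ℕ) (a : A) :
    coDer D n a = (D (C a)).coeff n := rfl

theorem exists_bound [Algebra.FiniteType k A] (D : Derivation k A[X] A[X]) :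
    ∃ N : ℕ, ∀ n, N ≤ n → coDer D n = 0 := by
  obtain ⟨S, hS⟩ := (Algebra.FiniteType.out : (⊤ : Subalgebra k A).FG)
  refine ⟨S.sup (fun s => (D (C s)).natDegree + 1), fun n hn => ?_⟩
  refine Derivation.ext_of_adjoin_eq_top (S : Set A) hS fun s hs => ?_
  rw [coDer_apply, Derivation.zero_apply]
  apply coeff_eq_zero_of_natDegree_lt
  have h : (D (C s)).natDegree + 1 ≤ S.sup (fun s => (D (C s)).natDegree + 1) :=
    Finset.le_sup (f := fun s => (D (C s)).natDegree + 1) hs
  omega

variable {ι : Type*} [Fintype ι]

/-- the map sending coefficients to a derivation of `A[X]` -/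
noncomputable def Φ (b : Module.Basis ι A (Derivation k A A)) :
    ((ι → A[X]) × A[X]) →ₗ[A[X]] Derivation k A[X] A[X] where
  toFun fg := ∑ i, fg.1 i • cDer (b i) + fg.2 • dX
  map_add' x y := by
    simp only [Prod.fst_add, Prod.snd_add, Pi.add_apply, add_smul, Finset.sum_add_distrib]
    abel
  map_smul' r x := by
    simp only [Prod.smul_fst, Prod.smul_snd, Pi.smul_apply, smul_eq_mul, mul_smul, smul_add,
      Finset.smul_sum, RingHom.id_apply]

theorem Φ_apply (b : Module.Basis ι A (Derivation k A A)) (f : ι → A[X]) (g p : A[X]) :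
    Φ b (f, g) p = ∑ i, f i * cDer (b i) p + g * (dX : Derivation k A[X] A[X]) p := by
  change (∑ i, f i • cDer (b i) + g • (dX : Derivation k A[X] A[X])) p = _
  rw [Derivation.add_apply, Derivation.coe_smul, Pi.smul_apply, smul_eq_mul]
  congr 1
  rw [show ((∑ i, f i • cDer (b i) : Derivation k A[X] A[X]) p) =
    Derivation.coeFnAddMonoidHom (∑ i, f i • cDer (b i)) p from rfl, map_sum, Finset.sum_apply]
  rfl

theorem Φ_C (b : Module.Basis ι A (Derivation k A A)) (f : ι → A[X]) (g : A[X]) (a : A) :
    Φ b (f, g) (C a) = ∑ i, f i * C (b i a) := by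
  rw [Φ_apply, dX_C, mul_zero, add_zero]
  exact Finset.sum_congr rfl fun i _ => by rw [cDer_C]

theorem Φ_X (b : Module.Basis ι A (Derivation k A A)) (f : ι → A[X]) (g : A[X]) :
    Φ b (f, g) X = g := by
  rw [Φ_apply, dX_X, mul_one, Finset.sum_eq_zero, zero_add]
  intro i _
  rw [cDer_X, mul_zero]

theorem coeff_Φ_C (b : Module.Basis ι A (Derivation k A A)) (f : ι → A[X]) (g : A[X]) (a : A)
    (n : ℕ) : (Φ b (f, g) (C a)).coeff n = (∑ i, (f i).coeff n • b i) a := by
  rw [Φ_C, finsetSum_coeff]
  rw [show ((∑ i, (f i).coeff n • b i : Derivation k A A) a) =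
    Derivation.coeFnAddMonoidHom (∑ i, (f i).coeff n • b i) a from rfl, map_sum, Finset.sum_apply]
  refine Finset.sum_congr rfl fun i _ => ?_
  rw [coeff_mul_C]
  rfl

theorem Φ_injective (b : Module.Basis ι A (Derivation k A A)) : Function.Injective (Φ b) := by
  rw [injective_iff_map_eq_zero]
  rintro ⟨f, g⟩ h
  have hg : g = 0 := by rw [← Φ_X b f g, h, Derivation.zero_apply]
  have hf : f = 0 := by
    ext i n
    have h1 : ∑ i, (f i).coeff n • b i = 0 := by
      ext a
      rw [← coeff_Φ_C b f g a n, h, Derivation.zero_apply, Derivation.zero_apply, coeff_zero]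
    have h2 := Fintype.linearIndependent_iff.1 b.linearIndependent (fun i => (f i).coeff n) h1 i
    simpa using h2
  rw [hf, hg]
  rfl

theorem Φ_surjective [Algebra.FiniteType k A] (b : Module.Basis ι A (Derivation k A A)) :
    Function.Surjective (Φ b) := by
  intro D
  obtain ⟨N, hN⟩ := exists_bound D
  let f : ι → A[X] := fun i => ∑ n ∈ Finset.range N, monomial n (b.repr (coDer D n) i)
  have hf : ∀ i m, (f i).coeff m = b.repr (coDer D m) i := by
    intro i m
    rw [finsetSum_coeff]
    simp only [coeff_monomial]
    rw [Finset.sum_ite_eq' (Finset.range N) m (fun n => b.repr (coDer D n) i)]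
    split_ifs with h
    · rfl
    · rw [hN m (by simpa using h), map_zero, Finsupp.zero_apply]
  refine ⟨(f, D X), der_ext (fun a => ?_) (Φ_X b f (D X))⟩
  ext n
  rw [coeff_Φ_C, ← coDer_apply]
  congr 1
  conv_rhs => rw [← b.sum_repr (coDer D n)]
  exact Finset.sum_congr rfl fun i _ => by rw [hf]

/-- the derivation module of a polynomial ring -/
noncomputable def derEquiv [Algebra.FiniteType k A] (b : Module.Basis ι A (Derivation k A A)) :
    ((ι → A[X]) × A[X]) ≃ₗ[A[X]] Derivation k A[X] A[X] :=
  LinearEquiv.ofBijective (Φ b) ⟨Φ_injective b, Φ_surjective b⟩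

end

section

variable (k A : Type*) [Field k] [CommRing A] [Nontrivial A] [Algebra k A]
  [Algebra.FiniteType k A]

/-- **Derivations of polynomial rings**: freeness and rank. -/
theorem free_derivation_polynomial [Module.Free A (Derivation k A A)]
    [Module.Finite A (Derivation k A A)] :
    Module.Free A[X] (Derivation k A[X] A[X]) ∧
      Module.finrank A[X] (Derivation k A[X] A[X]) =
        Module.finrank A (Derivation k A A) + 1 := by
  classical
  let b := Module.Free.chooseBasis A (Derivation k A A)
  have : Fintype (Module.Free.ChooseBasisIndex A (Derivation k A A)) :=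
    Module.Free.ChooseBasisIndex.fintype A _
  refine ⟨Module.Free.of_equiv (derEquiv b), ?_⟩
  rw [← (derEquiv b).finrank_eq, Module.finrank_prod, Module.finrank_pi, Module.finrank_self,
    Module.finrank_eq_card_basis b]

end

end Vale.Agent.P266.H114
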