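import Mathlib

/-!
# P266 (helper114): if `A[X]` is regular then `A` is regular

For a prime `P` of a Noetherian ring `A`, the local ring of `A[X]` at the extended prime `P[X]` has
the same dimension as `A_P` and the same embedding dimension.
-/

namespace Vale.Agent.P266.H114

open Polynomial IsLocalRing

/-- in a Noetherian local ring, a set of generators of the maximal ideal contains a minimal one -/
theorem exists_subset_generators (T : Type*) [CommRing T] [IsLocalRing T] [IsNoetherianRing T]
    (S : Set T) (hS : Ideal.span S = maximalIdeal T) :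
    ∃ t : Set T, t ⊆ S ∧ t.Finite ∧ t.ncard ≤ (maximalIdeal T).spanFinrank ∧
      Ideal.span t = maximalIdeal T := by
  classical
  let s : Set (maximalIdeal T) := {x | (x : T) ∈ S}
  have hSm : S ⊆ maximalIdeal T := by rw [← hS]; exact Ideal.subset_span
  have himg : Subtype.val '' s = S := by
    ext x
    constructor
    · rintro ⟨y, hy, rfl⟩
      exact hy
    · intro hx
      exact ⟨⟨x, hSm hx⟩, hx, rfl⟩
  have hiff : ∀ u : Set (maximalIdeal T), Submodule.span T u = ⊤ ↔
      Ideal.span (Subtype.val '' u) = maximalIdeal T := by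
    intro u
    have hinj := Submodule.map_injective_of_injective (f := (maximalIdeal T).subtype)
      (Submodule.injective_subtype _)
    rw [← hinj.eq_iff, Submodule.map_span, Submodule.map_top, Submodule.range_subtype]
    rfl
  have hs : Submodule.span T s = ⊤ := by rw [hiff, himg, hS]
  have hs' := CotangentSpace.span_image_eq_top_iff.2 hs
  obtain ⟨b, hb, hbs, hbi⟩ := exists_linearIndependent (ResidueField T)
    ((maximalIdeal T).toCotangent '' s)
  rw [hs'] at hbs
  have hbfin : b.Finite := hbi.setFinite
  have hbcard : b.ncard ≤ (maximalIdeal T).spanFinrank := by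
    rw [spanFinrank_maximalIdeal_eq_finrank_cotangentSpace]
    have : Fintype b := hbfin.fintype
    rw [← Nat.card_coe_set_eq, Nat.card_eq_fintype_card]
    exact hbi.fintype_card_le_finrank
  obtain ⟨t, hts, htb⟩ := (Set.subset_image_iff (f := (maximalIdeal T).toCotangent)).1 hb
  -- choose one preimage for every element of `b`
  obtain ⟨t', ht't, ht'inj⟩ : ∃ t' ⊆ s, Set.BijOn (maximalIdeal T).toCotangent t' b := by
    obtain ⟨t', h1, h2⟩ := (Set.SurjOn.exists_bijOn_subset
      (f := (maximalIdeal T).toCotangent) (s := s) (t := b) hb)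
    exact ⟨t', h1, h2⟩
  have ht'fin : t'.Finite := by
    rw [← Set.finite_image_iff ht'inj.injOn, ht'inj.image_eq]
    exact hbfin
  refine ⟨Subtype.val '' t', ?_, ht'fin.image _, ?_, ?_⟩
  · rintro _ ⟨y, hy, rfl⟩
    exact ht't hy
  · refine (Set.ncard_image_le ht'fin).trans (le_of_eq_of_le ?_ hbcard)
    rw [← ht'inj.image_eq, ht'inj.injOn.ncard_image]
  · rw [← hiff, ← CotangentSpace.span_image_eq_top_iff, ht'inj.image_eq, hbs]

variable {A : Type*} [CommRing A]

/-- contraction from `A[X]_{P[X]}` to `A_P` -/
theorem map_eq_of_map_map_eq (P : Ideal A) [P.IsPrime] (Q : Ideal A[X]) [Q.IsPrime]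
    (hQ : Q = P.map C) (J : Ideal A) (hJP : J ≤ P)
    (h : (J.map C).map (algebraMap A[X] (Localization.AtPrime Q)) =
      maximalIdeal (Localization.AtPrime Q)) :
    J.map (algebraMap A (Localization.AtPrime P)) = maximalIdeal (Localization.AtPrime P) := by
  apply le_antisymm
  · rw [← Localization.AtPrime.map_eq_maximalIdeal]
    exact Ideal.map_mono hJP
  · rw [← Localization.AtPrime.map_eq_maximalIdeal, Ideal.map_le_iff_le_comap]
    intro a ha
    rw [Ideal.mem_comap, IsLocalization.algebraMap_mem_map_algebraMap_iff P.primeCompl]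
    have h1 : algebraMap A[X] (Localization.AtPrime Q) (C a) ∈
        (J.map C).map (algebraMap A[X] (Localization.AtPrime Q)) := by
      rw [h, ← Localization.AtPrime.map_eq_maximalIdeal]
      apply Ideal.mem_map_of_mem
      rw [hQ]
      exact Ideal.mem_map_of_mem _ ha
    rw [IsLocalization.algebraMap_mem_map_algebraMap_iff Q.primeCompl] at h1
    obtain ⟨s, hs, hsa⟩ := h1
    have hs' : s ∉ P.map C := by rw [← hQ]; exact hs
    rw [Ideal.mem_map_C_iff] at hs' hsa
    push Not at hs'
    obtain ⟨n, hn⟩ := hs'
    refine ⟨s.coeff n, hn, ?_⟩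
    have := hsa n
    rwa [coeff_mul_C] at this

theorem height_map_C_le [IsNoetherianRing A] (P : Ideal A) [P.IsPrime] :
    (P.map (C : A →+* A[X])).height ≤ P.height := by
  have hlo : (P.map (C : A →+* A[X])).LiesOver P := ⟨by
    ext a
    rw [Ideal.mem_under, algebraMap_eq, Ideal.mem_map_C_iff]
    constructor
    · intro ha n
      rw [coeff_C]
      split_ifs
      · exact ha
      · exact P.zero_mem
    · intro h
      simpa using h 0⟩
  have h1 := Ideal.height_le_height_add_of_liesOver P (P.map (C : A →+* A[X]))
  rw [algebraMap_eq, Ideal.map_quotient_self, Ideal.height_bot, add_zero] at h1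
  exact h1

/-- **Descent of regularity from the polynomial ring.** -/
theorem isRegularRing_of_polynomial [IsNoetherianRing A] (h : IsRegularRing A[X]) :
    IsRegularRing A := by
  rw [isRegularRing_iff]
  intro P hP
  apply IsRegularLocalRing.of_spanFinrank_maximalIdeal_le
  obtain ⟨Q, hQ⟩ : ∃ Q : Ideal A[X], Q = P.map C := ⟨_, rfl⟩
  have hQp : Q.IsPrime := by rw [hQ]; infer_instance
  have hreg := h.isRegularLocalRing_localization Q
  have hdim : ringKrullDim (Localization.AtPrime Q) ≤ ringKrullDim (Localization.AtPrime P) := by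
    rw [IsLocalization.AtPrime.ringKrullDim_eq_height Q (Localization.AtPrime Q),
      IsLocalization.AtPrime.ringKrullDim_eq_height P (Localization.AtPrime P), hQ]
    exact_mod_cast height_map_C_le P
  have hspan : (maximalIdeal (Localization.AtPrime P)).spanFinrank ≤
      (maximalIdeal (Localization.AtPrime Q)).spanFinrank := by
    classical
    have hmax : maximalIdeal (Localization.AtPrime Q) =
        (P.map C).map (algebraMap A[X] (Localization.AtPrime Q)) := by
      rw [← hQ, Localization.AtPrime.map_eq_maximalIdeal]
    obtain ⟨t, htS, htfin, htcard, htspan⟩ := exists_subset_generators (Localization.AtPrime Q)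
      ((fun a : A => algebraMap A[X] (Localization.AtPrime Q) (C a)) '' (P : Set A)) (by
        rw [hmax, Ideal.map_map, Ideal.map]
        rfl)
    obtain ⟨g, hgP, hg⟩ := (Set.SurjOn.exists_bijOn_subset
      (f := fun a : A => algebraMap A[X] (Localization.AtPrime Q) (C a)) (s := (P : Set A))
      (t := t) htS)
    have hgfin : g.Finite := by
      rw [← Set.finite_image_iff hg.injOn, hg.image_eq]
      exact htfin
    have h1 : ((Ideal.span g).map C).map (algebraMap A[X] (Localization.AtPrime Q)) =
        maximalIdeal (Localization.AtPrime Q) := by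
      rw [Ideal.map_map, Ideal.map_span, ← htspan, ← hg.image_eq]
      rfl
    have h2 := map_eq_of_map_map_eq P Q hQ (Ideal.span g) (Ideal.span_le.2 hgP) h1
    rw [← h2, Ideal.map_span]
    refine (Submodule.spanFinrank_span_le_ncard_of_finite (hgfin.image _)).trans ?_
    refine (Set.ncard_image_le hgfin).trans (le_of_eq_of_le ?_ htcard)
    rw [← hg.image_eq, hg.injOn.ncard_image]
  refine le_trans ?_ hdim
  rw [← hreg.spanFinrank_maximalIdeal]
  exact_mod_cast hspan

end Vale.Agent.P266.H114
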