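import Mathlib
import Vale.Agent.P266.LZ.E6
import Vale.Agent.P266.H114.PolyDer
import Vale.Agent.P266.H114.PolyReg
import Vale.Agent.P266.H114.Lip

/-!
# P266 (helper114): the Lipman-Zariski conjecture, dimension by dimension

The conjecture fails in every dimension `d ≥ 2` and holds in dimension `≤ 1`.
-/

namespace Vale.Agent.P266.H114

open Polynomial

/-- smoothness descends from `A[X]` to `A` -/
theorem smooth_of_polynomial (k A : Type*) [Field k] [CommRing A] [Algebra k A]
    [Algebra.FiniteType k A] (h : Algebra.Smooth k A[X]) : Algebra.Smooth k A := by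
  have hN : IsNoetherianRing A := Algebra.FiniteType.isNoetherianRing k A
  have h1 : Algebra.FinitePresentation k A := Algebra.FinitePresentation.of_finiteType.1 inferInstance
  let φ : A[X] →ₐ[k] A := (Polynomial.aeval (R := A) (0 : A)).restrictScalars k
  let σ : A →ₐ[k] A[X] := (Algebra.ofId A A[X]).restrictScalars k
  have hφσ : ∀ a, φ (σ a) = a := fun a => by
    change Polynomial.aeval (0 : A) (C a) = a
    rw [aeval_C]
    rfl
  have h2 : Algebra.FormallySmooth k A := by
    refine Algebra.FormallySmooth.of_split φ
      ((Ideal.Quotient.mkₐ k (RingHom.ker φ.toRingHom ^ 2)).comp σ) ?_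
    ext a
    simp only [AlgHom.coe_comp, Function.comp_apply, AlgHom.coe_id, id_eq]
    conv_rhs => rw [← hφσ a]
    rfl
  exact { formallySmooth := h2, finitePresentation := h1 }

/-- the properties of the examples, in dimension `d` -/
def Ex (k : Type) [Field k] (d : ℕ) : Prop :=
  ∃ (A : Type) (_ : CommRing A) (_ : IsDomain A) (_ : Algebra k A),
    Algebra.FiniteType k A ∧ IsIntegrallyClosed A ∧ ringKrullDim A = d ∧
    Module.Free A (Derivation k A A) ∧ Module.finrank A (Derivation k A A) = d ∧
    ¬ IsRegularRing A ∧ ¬ Algebra.Smooth k A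

/-- passing from `A` to `A[X]` -/
theorem Ex.succ {k : Type} [Field k] {d : ℕ} (h : Ex k d) : Ex k (d + 1) := by
  obtain ⟨A, hA, hdom, halg, hft, hic, hdim, hfree, hrk, hreg, hsm⟩ := h
  have hN : IsNoetherianRing A := Algebra.FiniteType.isNoetherianRing k A
  have hfin : Module.Finite A (Derivation k A A) := Lip.finite_derivation k A
  obtain ⟨h1, h2⟩ := free_derivation_polynomial k A
  refine ⟨A[X], inferInstance, inferInstance, inferInstance,
    Algebra.FiniteType.trans (S := A) inferInstance inferInstance, inferInstance, ?_, h1, ?_,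
    fun h => hreg (isRegularRing_of_polynomial h), fun h => hsm (smooth_of_polynomial k A h)⟩
  · rw [Polynomial.ringKrullDim_of_isNoetherianRing, hdim]
    push_cast
    rfl
  · rw [h2, hrk]

theorem Ex.of_two {k : Type} [Field k] (h : Ex k 2) : ∀ d : ℕ, 2 ≤ d → Ex k d := by
  intro d hd
  induction d, hd using Nat.le_induction with
  | base => exact h
  | succ d _ ih => exact ih.succ

theorem ex_two : Ex ℂ 2 := by
  obtain ⟨A, h1, h2, h3, h4, h5, h6, h7⟩ :=
    CE.exists_normal_surface CE.M.main
  exact ⟨A, h1, h2, h3, h4, h5, by rw [h6]; rfl, h7⟩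

/-- dimension at most one: the conjecture holds -/
theorem low_dim (k A : Type) [Field k] [CharZero k] [CommRing A] [IsDomain A] [Algebra k A]
    [Algebra.FiniteType k A]
    (h : Module.Projective A (Derivation k A A)) (hd : ringKrullDim A ≤ 1) :
    IsRegularRing A ∧ Algebra.Smooth k A := by
  have hN : IsNoetherianRing A := Algebra.FiniteType.isNoetherianRing k A
  have hic : IsIntegrallyClosed A := Lip.isIntegrallyClosed_of_projective k A
  refine ⟨?_, Lip.smooth_of_dim_le_one k hd⟩
  by_contra hreg
  have h2 := (CE.two_le_ringKrullDim A hreg).trans hd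
  exact absurd h2 (by decide)

/-- the dimensions in which the conjecture holds -/
theorem holds_iff (d : ℕ) :
    (∀ (A : Type) [CommRing A] [IsDomain A] [Algebra ℂ A] [Algebra.FiniteType ℂ A],
      ringKrullDim A = d → Module.Projective A (Derivation ℂ A A) → IsRegularRing A) ↔ d ≤ 1 := by
  constructor
  · intro h
    by_contra hd
    obtain ⟨A, hA, hdom, halg, hft, -, hdim, hfree, -, hreg, -⟩ := ex_two.of_two d (by omega)
    exact hreg (h A hdim inferInstance)
  · intro hd A _ _ _ _ hdim hproj
    refine (low_dim ℂ A hproj ?_).1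
    rw [hdim]
    exact_mod_cast hd

end Vale.Agent.P266.H114
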