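import Mathlib
import Vale.Agent.P266.H114.K3
import Vale.Agent.P266.H114.Main

/-!
# P266 (helper114): the Lipman-Zariski conjecture over an arbitrary field of characteristic zero,
dimension by dimension
-/

universe u

namespace Vale.Agent.P266.H114

open Polynomial

/-- a normal Noetherian domain that is not regular has dimension at least two -/
theorem two_le_ringKrullDim (A : Type*) [CommRing A] [IsDomain A] [IsNoetherianRing A]
    [IsIntegrallyClosed A] (h : ¬ IsRegularRing A) : 2 ≤ ringKrullDim A := by
  by_contra hlt
  apply h
  have h1 : Ring.DimensionLEOne A := by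
    refine ⟨fun {p} hp0 hp => ?_⟩
    by_contra hnm
    obtain ⟨q, hq, hpq⟩ := p.exists_le_maximal hp.ne_top
    have hlt' : p < q := lt_of_le_of_ne hpq fun h => hnm (h ▸ hq)
    apply hlt
    let s : LTSeries (PrimeSpectrum A) :=
      { length := 2
        toFun := ![⟨⊥, Ideal.isPrime_bot⟩, ⟨p, hp⟩, ⟨q, hq.isPrime⟩]
        step := fun i => by
          fin_cases i
          · exact bot_lt_iff_ne_bot.2 hp0
          · exact hlt' }
    exact Order.LTSeries.length_le_krullDim s
  have h2 : IsDedekindRing A := { toIsIntegralClosure := by infer_instance }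
  have h3 : IsDedekindDomain A := {}
  infer_instance

/-- the properties of the examples, in dimension `d`, over `k` -/
def ExK (k : Type u) [Field k] (d : ℕ) : Prop :=
  ∃ (A : Type u) (_ : CommRing A) (_ : IsDomain A) (_ : Algebra k A),
    Algebra.FiniteType k A ∧ IsIntegrallyClosed A ∧ ringKrullDim A = d ∧
    Module.Free A (Derivation k A A) ∧ Module.finrank A (Derivation k A A) = d ∧
    ¬ IsRegularRing A ∧ ¬ Algebra.Smooth k A

/-- passing from `A` to `A[X]` -/
theorem ExK.succ {k : Type u} [Field k] {d : ℕ} (h : ExK k d) : ExK k (d + 1) := by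
  obtain ⟨A, hA, hdom, halg, hft, hic, hdim, hfree, hrk, hreg, hsm⟩ := h
  have hN : IsNoetherianRing A := Algebra.FiniteType.isNoetherianRing k A
  have hfin : Module.Finite A (Derivation k A A) := Lip.finite_derivation k A
  obtain ⟨h1, h2⟩ := free_derivation_polynomial k A
  refine ⟨A[X], inferInstance, inferInstance, inferInstance,
    Algebra.FiniteType.trans (S := A) inferInstance inferInstance, inferInstance, ?_, h1, ?_,
    fun h => hreg (isRegularRing_of_polynomial h), fun h => hsm (smooth_of_polynomial k A h)⟩
  · rw [Polynomial.ringKrullDim_of_isNoetherianRing, hdim]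
    push_cast
    rfl
  · rw [h2, hrk]

theorem ExK.of_two {k : Type u} [Field k] (h : ExK k 2) : ∀ d : ℕ, 2 ≤ d → ExK k d := by
  intro d hd
  induction d, hd using Nat.le_induction with
  | base => exact h
  | succ d _ ih => exact ih.succ

theorem exK_two (k : Type u) [Field k] [CharZero k] : ExK k 2 := by
  obtain ⟨A, hA, hCA, hdom, hft, hfree, hnp, hnr, hdim, hrk, hic⟩ := K.main (𝕜 := k)
  have hN : IsNoetherianRing A := Algebra.FiniteType.isNoetherianRing k A
  refine ⟨A, hA, hdom, hCA, hft, hic, ?_, hfree, hrk, hnr, fun hs => hnp inferInstance⟩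
  exact le_antisymm hdim (two_le_ringKrullDim A hnr)

/-- dimension at most one: the conjecture holds -/
theorem low_dimK (k A : Type u) [Field k] [CharZero k] [CommRing A] [IsDomain A] [Algebra k A]
    [Algebra.FiniteType k A]
    (h : Module.Projective A (Derivation k A A)) (hd : ringKrullDim A ≤ 1) :
    IsRegularRing A ∧ Algebra.Smooth k A := by
  have hN : IsNoetherianRing A := Algebra.FiniteType.isNoetherianRing k A
  have hic : IsIntegrallyClosed A := Lip.isIntegrallyClosed_of_projective k A
  refine ⟨?_, Lip.smooth_of_dim_le_one k hd⟩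
  by_contra hreg
  have h2 := (two_le_ringKrullDim A hreg).trans hd
  exact absurd h2 (by decide)

/-- the dimensions in which the conjecture holds -/
theorem holds_iffK (k : Type u) [Field k] [CharZero k] (d : ℕ) :
    (∀ (A : Type u) [CommRing A] [IsDomain A] [Algebra k A] [Algebra.FiniteType k A],
      ringKrullDim A = d → Module.Projective A (Derivation k A A) → IsRegularRing A) ↔ d ≤ 1 := by
  constructor
  · intro h
    by_contra hd
    obtain ⟨A, hA, hdom, halg, hft, -, hdim, hfree, -, hreg, -⟩ := (exK_two k).of_two d (by omega)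
    exact hreg (h A hdim inferInstance)
  · intro hd A _ _ _ _ hdim hproj
    refine (low_dimK k A hproj ?_).1
    rw [hdim]
    exact_mod_cast hd

end Vale.Agent.P266.H114
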