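import Mathlib
import Vale.Agent.P266.H114.PolyReg

/-!
# P266 (helper114): derivations of a polynomial ring in several variables

If `Der_k(A)` is free of rank `d` and `A` is finitely generated over `k`, then
`Der_k(A[X_s : s ∈ σ])` is free of rank `d + |σ|`. Regularity and smoothness descend from
`A[X_s : s ∈ σ]` to `A`. The standard grading, as a grading by `k`-subspaces.
-/

namespace Vale.Agent.P266.H114.Mv

open MvPolynomial

section

variable {k A σ : Type*} [CommRing k] [CommRing A] [Algebra k A]

/-- coefficientwise application of a derivation -/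
noncomputable def cMap (D : Derivation k A A) (p : MvPolynomial σ A) : MvPolynomial σ A :=
  ∑ m ∈ p.support, monomial m (D (coeff m p))

theorem coeff_cMap (D : Derivation k A A) (p : MvPolynomial σ A) (m : σ →₀ ℕ) :
    coeff m (cMap D p) = D (coeff m p) := by
  classical
  rw [cMap, coeff_sum]
  simp only [coeff_monomial]
  rw [Finset.sum_ite_eq' p.support m (fun m => D (coeff m p))]
  split_ifs with h
  · rfl
  · rw [notMem_support_iff.1 h, map_zero]

/-- the coefficientwise extension of a derivation -/
noncomputable def cDer (D : Derivation k A A) :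
    Derivation k (MvPolynomial σ A) (MvPolynomial σ A) :=
  Derivation.mk'
    { toFun := cMap D
      map_add' := fun p q => by
        ext n
        simp only [coeff_cMap, coeff_add, map_add]
      map_smul' := fun c p => by
        ext n
        simp only [coeff_cMap, coeff_smul, RingHom.id_apply, Derivation.map_smul] }
    (fun p q => by
      change cMap D (p * q) = p • cMap D q + q • cMap D p
      classical
      ext n
      rw [coeff_cMap, coeff_mul, map_sum, coeff_add, smul_eq_mul, smul_eq_mul, coeff_mul,
        mul_comm q, coeff_mul, ← Finset.sum_add_distrib]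
      refine Finset.sum_congr rfl fun x _ => ?_
      rw [coeff_cMap, coeff_cMap, Derivation.leibniz, smul_eq_mul, smul_eq_mul]
      ring)

theorem coeff_cDer (D : Derivation k A A) (p : MvPolynomial σ A) (m : σ →₀ ℕ) :
    coeff m (cDer D p) = D (coeff m p) := coeff_cMap D p m

theorem cDer_C (D : Derivation k A A) (a : A) :
    cDer D (C a : MvPolynomial σ A) = C (D a) := by
  classical
  ext n
  rw [coeff_cDer, coeff_C, coeff_C]
  split_ifs
  · rfl
  · exact map_zero D

theorem cDer_X (D : Derivation k A A) (s : σ) : cDer D (X s : MvPolynomial σ A) = 0 := by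
  classical
  ext n
  rw [coeff_cDer, coeff_X, coeff_zero]
  split_ifs
  · exact D.map_one_eq_zero
  · exact map_zero D

/-- the derivation `∂/∂X_s` over `k` -/
noncomputable def dX (s : σ) : Derivation k (MvPolynomial σ A) (MvPolynomial σ A) :=
  (pderiv (R := A) s).restrictScalars k

theorem dX_C (s : σ) (a : A) :
    (dX s : Derivation k (MvPolynomial σ A) (MvPolynomial σ A)) (C a) = 0 := by
  change pderiv s (C a) = 0
  exact pderiv_C

theorem dX_X [DecidableEq σ] (s t : σ) :
    (dX s : Derivation k (MvPolynomial σ A) (MvPolynomial σ A)) (X t) =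
      Pi.single (M := fun _ => MvPolynomial σ A) s 1 t := by
  change pderiv s (X t) = _
  rw [pderiv_X]

/-- a derivation is determined by its values on the constants and on the variables -/
theorem der_ext {D₁ D₂ : Derivation k (MvPolynomial σ A) (MvPolynomial σ A)}
    (hC : ∀ a, D₁ (C a) = D₂ (C a)) (hX : ∀ s, D₁ (X s) = D₂ (X s)) : D₁ = D₂ := by
  ext1 p
  induction p using MvPolynomial.induction_on with
  | C a => exact hC a
  | add p q hp hq => rw [map_add, map_add, hp, hq]
  | mul_X p s hp => rw [Derivation.leibniz, Derivation.leibniz, hp, hX]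

/-- the coefficients of the restriction of a derivation to `A` -/
noncomputable def coDer (D : Derivation k (MvPolynomial σ A) (MvPolynomial σ A)) (m : σ →₀ ℕ) :
    Derivation k A A :=
  Derivation.mk'
    { toFun := fun a => coeff m (D (C a))
      map_add' := fun a b => by rw [map_add, map_add, coeff_add]
      map_smul' := fun c a => by
        rw [RingHom.id_apply]
        have h : (C (c • a) : MvPolynomial σ A) = c • C a := by
          classical
          ext n
          rw [coeff_smul, coeff_C, coeff_C]
          split_ifs
          · rfl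
          · rw [smul_zero]
        rw [h, D.map_smul, coeff_smul] }
    (fun a b => by
      change coeff m (D (C (a * b))) = a • coeff m (D (C b)) + b • coeff m (D (C a))
      rw [C_mul, Derivation.leibniz, coeff_add, smul_eq_mul, smul_eq_mul, coeff_C_mul, coeff_C_mul,
        smul_eq_mul, smul_eq_mul])

theorem coDer_apply (D : Derivation k (MvPolynomial σ A) (MvPolynomial σ A)) (m : σ →₀ ℕ) (a : A) :
    coDer D m a = coeff m (D (C a)) := rfl

theorem exists_bound [Algebra.FiniteType k A]
    (D : Derivation k (MvPolynomial σ A) (MvPolynomial σ A)) :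
    ∃ T : Finset (σ →₀ ℕ), ∀ m, m ∉ T → coDer D m = 0 := by
  classical
  obtain ⟨S, hS⟩ := (Algebra.FiniteType.out : (⊤ : Subalgebra k A).FG)
  refine ⟨S.biUnion fun s => (D (C s)).support, fun m hm => ?_⟩
  refine Derivation.ext_of_adjoin_eq_top (S : Set A) hS fun s hs => ?_
  rw [coDer_apply, Derivation.zero_apply, ← notMem_support_iff]
  intro h
  exact hm (Finset.mem_biUnion.2 ⟨s, hs, h⟩)

variable {ι : Type*} [Fintype ι] [Fintype σ]

/-- the map sending coefficients to a derivation -/
noncomputable def Φ (b : Module.Basis ι A (Derivation k A A)) :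
    ((ι → MvPolynomial σ A) × (σ → MvPolynomial σ A)) →ₗ[MvPolynomial σ A]
      Derivation k (MvPolynomial σ A) (MvPolynomial σ A) where
  toFun fg := ∑ i, fg.1 i • cDer (b i) + ∑ s, fg.2 s • dX s
  map_add' x y := by
    simp only [Prod.fst_add, Prod.snd_add, Pi.add_apply, add_smul, Finset.sum_add_distrib]
    abel
  map_smul' r x := by
    simp only [Prod.smul_fst, Prod.smul_snd, Pi.smul_apply, smul_eq_mul, mul_smul, smul_add,
      Finset.smul_sum, RingHom.id_apply]

theorem sum_apply {R B M κ : Type*} [CommRing R] [CommRing B] [Algebra R B] [AddCommGroup M]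
    [Module B M] [Module R M] (t : Finset κ) (D : κ → Derivation R B M) (x : B) :
    (∑ i ∈ t, D i) x = ∑ i ∈ t, D i x := by
  rw [show (∑ i ∈ t, D i) x = Derivation.coeFnAddMonoidHom (∑ i ∈ t, D i) x from rfl, map_sum,
    Finset.sum_apply]
  rfl

theorem Φ_apply (b : Module.Basis ι A (Derivation k A A)) (f : ι → MvPolynomial σ A)
    (g : σ → MvPolynomial σ A) (p : MvPolynomial σ A) :
    Φ b (f, g) p = ∑ i, f i * cDer (b i) p +
      ∑ s, g s * (dX s : Derivation k (MvPolynomial σ A) (MvPolynomial σ A)) p := by
  change (∑ i, f i • cDer (b i) + ∑ s, g s • dX s :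
    Derivation k (MvPolynomial σ A) (MvPolynomial σ A)) p = _
  rw [Derivation.add_apply, sum_apply, sum_apply]
  rfl

theorem Φ_C (b : Module.Basis ι A (Derivation k A A)) (f : ι → MvPolynomial σ A)
    (g : σ → MvPolynomial σ A) (a : A) :
    Φ b (f, g) (C a) = ∑ i, f i * C (b i a) := by
  rw [Φ_apply]
  rw [Finset.sum_eq_zero (s := Finset.univ) (f := fun s => g s *
    (dX s : Derivation k (MvPolynomial σ A) (MvPolynomial σ A)) (C a))
    (fun s _ => by rw [dX_C, mul_zero]), add_zero]
  exact Finset.sum_congr rfl fun i _ => by rw [cDer_C]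

theorem Φ_X (b : Module.Basis ι A (Derivation k A A)) (f : ι → MvPolynomial σ A)
    (g : σ → MvPolynomial σ A) (t : σ) :
    Φ b (f, g) (X t) = g t := by
  classical
  rw [Φ_apply, Finset.sum_eq_zero (s := Finset.univ) (f := fun i => f i *
    (cDer (b i) : Derivation k (MvPolynomial σ A) (MvPolynomial σ A)) (X t))
    (fun i _ => by rw [cDer_X, mul_zero]), zero_add]
  rw [Finset.sum_eq_single t]
  · rw [dX_X, Pi.single_eq_same, mul_one]
  · intro s _ hs
    rw [dX_X, Pi.single_eq_of_ne (Ne.symm hs), mul_zero]
  · intro h
    exact absurd (Finset.mem_univ t) h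

theorem coeff_Φ_C (b : Module.Basis ι A (Derivation k A A)) (f : ι → MvPolynomial σ A)
    (g : σ → MvPolynomial σ A) (a : A) (m : σ →₀ ℕ) :
    coeff m (Φ b (f, g) (C a)) = (∑ i, coeff m (f i) • b i) a := by
  rw [Φ_C, coeff_sum, sum_apply]
  refine Finset.sum_congr rfl fun i _ => ?_
  rw [mul_comm, coeff_C_mul, mul_comm]
  rfl

theorem Φ_injective (b : Module.Basis ι A (Derivation k A A)) :
    Function.Injective (Φ (σ := σ) b) := by
  rw [injective_iff_map_eq_zero]
  rintro ⟨f, g⟩ h
  have hg : g = 0 := by
    funext s
    rw [← Φ_X b f g s, h, Derivation.zero_apply]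
    rfl
  have hf : f = 0 := by
    funext i
    ext m
    have h1 : ∑ i, coeff m (f i) • b i = 0 := by
      ext a
      rw [← coeff_Φ_C b f g a m, h, Derivation.zero_apply, Derivation.zero_apply, coeff_zero]
    have h2 := Fintype.linearIndependent_iff.1 b.linearIndependent (fun i => coeff m (f i)) h1 i
    simpa using h2
  rw [hf, hg]
  rfl

theorem Φ_surjective [Algebra.FiniteType k A] (b : Module.Basis ι A (Derivation k A A)) :
    Function.Surjective (Φ (σ := σ) b) := by
  classical
  intro D
  obtain ⟨T, hT⟩ := exists_bound D
  let f : ι → MvPolynomial σ A := fun i => ∑ n ∈ T, monomial n (b.repr (coDer D n) i)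
  have hf : ∀ i m, coeff m (f i) = b.repr (coDer D m) i := by
    intro i m
    rw [coeff_sum]
    simp only [coeff_monomial]
    rw [Finset.sum_ite_eq' T m (fun n => b.repr (coDer D n) i)]
    split_ifs with h
    · rfl
    · rw [hT m h, map_zero, Finsupp.zero_apply]
  refine ⟨(f, fun s => D (X s)), der_ext (fun a => ?_) (fun s => Φ_X b f _ s)⟩
  ext n
  rw [coeff_Φ_C, ← coDer_apply]
  congr 1
  conv_rhs => rw [← b.sum_repr (coDer D n)]
  exact Finset.sum_congr rfl fun i _ => by rw [hf]

/-- the derivation module of a polynomial ring -/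
noncomputable def derEquiv [Algebra.FiniteType k A] (b : Module.Basis ι A (Derivation k A A)) :
    ((ι → MvPolynomial σ A) × (σ → MvPolynomial σ A)) ≃ₗ[MvPolynomial σ A]
      Derivation k (MvPolynomial σ A) (MvPolynomial σ A) :=
  LinearEquiv.ofBijective (Φ b) ⟨Φ_injective b, Φ_surjective b⟩

end

section

variable (k A σ : Type*) [Field k] [CommRing A] [Nontrivial A] [Algebra k A]
  [Algebra.FiniteType k A] [Fintype σ]

/-- **Derivations of polynomial rings**: freeness and rank. -/
theorem free_derivation [Module.Free A (Derivation k A A)] [Module.Finite A (Derivation k A A)] :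
    Module.Free (MvPolynomial σ A) (Derivation k (MvPolynomial σ A) (MvPolynomial σ A)) ∧
      Module.finrank (MvPolynomial σ A) (Derivation k (MvPolynomial σ A) (MvPolynomial σ A)) =
        Module.finrank A (Derivation k A A) + Fintype.card σ := by
  classical
  let b := Module.Free.chooseBasis A (Derivation k A A)
  have : Fintype (Module.Free.ChooseBasisIndex A (Derivation k A A)) :=
    Module.Free.ChooseBasisIndex.fintype A _
  refine ⟨Module.Free.of_equiv (derEquiv b), ?_⟩
  rw [← (derEquiv (σ := σ) b).finrank_eq, Module.finrank_prod, Module.finrank_pi,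
    Module.finrank_pi, Module.finrank_eq_card_basis b]

end

/-- smoothness descends from a polynomial ring over `A` to `A` -/
theorem smooth_of_mvPolynomial (k A σ : Type*) [Field k] [CommRing A] [Algebra k A]
    [Algebra.FiniteType k A] (h : Algebra.FormallySmooth k (MvPolynomial σ A)) :
    Algebra.Smooth k A := by
  have hN : IsNoetherianRing A := Algebra.FiniteType.isNoetherianRing k A
  have h1 : Algebra.FinitePresentation k A := Algebra.FinitePresentation.of_finiteType.1 inferInstance
  let φ : MvPolynomial σ A →ₐ[k] A :=
    (MvPolynomial.aeval (R := A) (fun _ : σ => (0 : A))).restrictScalars k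
  let τ : A →ₐ[k] MvPolynomial σ A := (Algebra.ofId A (MvPolynomial σ A)).restrictScalars k
  have hφτ : ∀ a, φ (τ a) = a := fun a => by
    change MvPolynomial.aeval (fun _ : σ => (0 : A)) (C a) = a
    rw [aeval_C]
    rfl
  have h2 : Algebra.FormallySmooth k A := by
    refine Algebra.FormallySmooth.of_split φ
      ((Ideal.Quotient.mkₐ k (RingHom.ker φ.toRingHom ^ 2)).comp τ) ?_
    ext a
    simp only [AlgHom.coe_comp, Function.comp_apply, AlgHom.coe_id, id_eq]
    conv_rhs => rw [← hφτ a]
    rfl
  exact { formallySmooth := h2, finitePresentation := h1 }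

/-- regularity descends from a polynomial ring over `A` to `A` -/
theorem isRegularRing_of_mvPolynomial {A : Type*} [CommRing A] [IsNoetherianRing A] :
    ∀ (n : ℕ), IsRegularRing (MvPolynomial (Fin n) A) → IsRegularRing A
  | 0, _ => IsRegularRing.of_ringEquiv (isEmptyRingEquiv A (Fin 0))
  | n + 1, _ => isRegularRing_of_mvPolynomial n (isRegularRing_of_polynomial
      (IsRegularRing.of_ringEquiv (finSuccEquiv A n).toRingEquiv))

section Graded

variable (k A σ : Type*) [CommRing k] [CommRing A] [Algebra k A]

/-- the standard grading of a polynomial ring over `A`, by `k`-submodules -/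
noncomputable def gr (n : ℕ) : Submodule k (MvPolynomial σ A) :=
  (homogeneousSubmodule σ A n).restrictScalars k

attribute [local instance] MvPolynomial.gradedAlgebra

/-- the standard grading is a grading -/
noncomputable instance : GradedAlgebra (gr k A σ) where
  one_mem := SetLike.GradedOne.one_mem (A := homogeneousSubmodule σ A)
  mul_mem := fun _ _ _ _ ha hb =>
    SetLike.GradedMul.mul_mem (A := homogeneousSubmodule σ A) ha hb
  decompose' := fun p => (DirectSum.Decomposition.decompose' (ℳ := homogeneousSubmodule σ A) p :)
  left_inv := DirectSum.Decomposition.left_inv (ℳ := homogeneousSubmodule σ A)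
  right_inv := DirectSum.Decomposition.right_inv (ℳ := homogeneousSubmodule σ A)

/-- the constants, in degree zero -/
noncomputable def zeroHom : A →+* gr k A σ 0 where
  toFun a := ⟨C a, isHomogeneous_C σ a⟩
  map_one' := Subtype.ext C_1
  map_mul' _ _ := Subtype.ext C_mul
  map_zero' := Subtype.ext C_0
  map_add' _ _ := Subtype.ext C_add

/-- the degree zero part is the ring of coefficients -/
noncomputable def zeroEquiv : A ≃+* gr k A σ 0 :=
  RingEquiv.ofBijective (zeroHom k A σ) (by
    constructor
    · intro a b h
      exact C_injective σ A (congrArg Subtype.val h)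
    · rintro ⟨p, hp⟩
      refine ⟨coeff 0 p, Subtype.ext ?_⟩
      exact (totalDegree_eq_zero_iff_eq_C.1
        ((totalDegree_zero_iff_isHomogeneous (p := p)).2 hp)).symm)

end Graded

end Vale.Agent.P266.H114.Mv
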