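import Mathlib
import Vale.Agent.P266.H114.KMain
import Vale.Agent.P266.H114.MvDer
import Vale.Agent.P266.H114.Grd

/-!
# P266 (helper114): graded algebras

For nonnegatively graded domains over a field of characteristic zero the Lipman-Zariski conjecture
holds if and only if the degree zero part has dimension at most one.
-/

universe u

namespace Vale.Agent.P266.H114

open MvPolynomial

/-- graded algebras with degree zero part of dimension at most one: the conjecture holds -/
theorem graded_low (k A : Type u) [Field k] [CharZero k] [CommRing A] [IsDomain A] [Algebra k A]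
    [Algebra.FiniteType k A] (𝒜 : ℕ → Submodule k A) [GradedAlgebra 𝒜]
    (hp : Module.Projective A (Derivation k A A)) (hd : ringKrullDim (𝒜 0) ≤ 1) :
    Algebra.Smooth k A := by
  have hA : IsIntegrallyClosed A := Lip.isIntegrallyClosed_of_projective k A
  obtain ⟨h1, h2, -⟩ := Grd.graded_main_of_normal 𝒜
  have hst := Grd.isScalarTower_zero 𝒜
  have hdom : IsDomain (𝒜 0) := (FaithfulSMul.algebraMap_injective (𝒜 0) A).isDomain
    (algebraMap (𝒜 0) A)
  have hnor : IsIntegrallyClosed (𝒜 0) := Grd.isIntegrallyClosed_zero 𝒜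
  have hft : Algebra.FiniteType k (𝒜 0) :=
    Algebra.FiniteType.of_surjective
      ((Grd.projAlg 𝒜).restrictScalars k) (GradedRing.projZeroRingHom'_surjective 𝒜)
  have h3 : Algebra.Smooth k (𝒜 0) := Lip.smooth_of_dim_le_one k hd
  exact Algebra.Smooth.comp k (𝒜 0) A

/-- graded examples: dimension `e`, degree zero part of dimension `d` -/
theorem graded_example (k : Type u) [Field k] [CharZero k] (d e : ℕ) (hd : 2 ≤ d) (he : d ≤ e) :
    ∃ (A : Type u) (_ : CommRing A) (_ : IsDomain A) (_ : Algebra k A)
      (𝒜 : ℕ → Submodule k A) (_ : GradedAlgebra 𝒜),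
      Algebra.FiniteType k A ∧ IsIntegrallyClosed A ∧
      ringKrullDim A = e ∧ ringKrullDim (𝒜 0) = d ∧
      Module.Free A (Derivation k A A) ∧ Module.finrank A (Derivation k A A) = e ∧
      ¬ IsRegularRing A ∧ ¬ Algebra.Smooth k A := by
  obtain ⟨A, hA, hdom, halg, hft, hic, hdim, hfree, hrk, hreg, hsm⟩ := (exK_two k).of_two d hd
  have hN : IsNoetherianRing A := Algebra.FiniteType.isNoetherianRing k A
  have hfin : Module.Finite A (Derivation k A A) := Lip.finite_derivation k A
  obtain ⟨h1, h2⟩ := Mv.free_derivation k A (Fin (e - d))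
  have hft' : Algebra.FiniteType k (MvPolynomial (Fin (e - d)) A) :=
    Algebra.FiniteType.trans (S := A) inferInstance inferInstance
  refine ⟨MvPolynomial (Fin (e - d)) A, inferInstance, inferInstance, inferInstance,
    Mv.gr k A (Fin (e - d)), inferInstance, hft',
    Lip.isIntegrallyClosed_of_projective k _, ?_, ?_, h1, ?_,
    fun h => hreg (Mv.isRegularRing_of_mvPolynomial _ h),
    fun h => hsm (Mv.smooth_of_mvPolynomial k A _ h.formallySmooth)⟩
  · rw [MvPolynomial.ringKrullDim_of_isNoetherianRing, hdim]
    have h3 : d + (e - d) = e := by omega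
    conv_rhs => rw [← h3]
    push_cast
    simp
  · rw [← ringKrullDim_eq_of_ringEquiv (Mv.zeroEquiv k A (Fin (e - d))), hdim]
  · rw [h2, hrk, Fintype.card_fin]
    omega

/-- **The graded Lipman-Zariski conjecture holds iff the degree zero part has dimension `≤ 1`.** -/
theorem graded_iff (k : Type u) [Field k] [CharZero k] (d e : ℕ) (he : d ≤ e) :
    (∀ (A : Type u) [CommRing A] [IsDomain A] [Algebra k A] [Algebra.FiniteType k A]
      (𝒜 : ℕ → Submodule k A) [GradedAlgebra 𝒜],
      ringKrullDim A = e → ringKrullDim (𝒜 0) = d →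
      Module.Projective A (Derivation k A A) → Algebra.Smooth k A) ↔ d ≤ 1 := by
  constructor
  · intro h
    by_contra hd
    obtain ⟨A, hA, hdom, halg, 𝒜, h𝒜, hft, -, hdim, hdim0, hfree, -, -, hsm⟩ :=
      graded_example k d e (by omega) he
    exact hsm (h A 𝒜 hdim hdim0 inferInstance)
  · intro hd A _ _ _ _ 𝒜 _ _ hdim0 hproj
    refine graded_low k A 𝒜 hproj ?_
    rw [hdim0]
    exact_mod_cast hd

/-- the dimensions in which the conjecture holds, with smoothness -/
theorem plain_iff (k : Type u) [Field k] [CharZero k] (d : ℕ) :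
    (∀ (A : Type u) [CommRing A] [IsDomain A] [Algebra k A] [Algebra.FiniteType k A],
      ringKrullDim A = d → Module.Projective A (Derivation k A A) →
        IsRegularRing A ∧ Algebra.Smooth k A) ↔ d ≤ 1 := by
  constructor
  · intro h
    exact (holds_iffK k d).1 fun A _ _ _ _ h1 h2 => (h A h1 h2).1
  · intro hd A _ _ _ _ hdim hproj
    refine low_dimK k A hproj ?_
    rw [hdim]
    exact_mod_cast hd

end Vale.Agent.P266.H114
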